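import Vale.Agent.P237.Petty.Cor.Tiny100.ZonesA

/-!
# P237: the signs of the zones 5 to 8 of the record of the orders from 98 to 198
-/

namespace Vale.Agent.P237.Petty.Cor.Tiny100

theorem zonesA2_ok :
    (((zonesA.drop 4).take 4).all fun W => zoneOk parA remA 99 199 W .leaf && zoneSide W) =
      true := by
  decide +kernel

end Vale.Agent.P237.Petty.Cor.Tiny100
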