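import Vale.Agent.P237.Petty.Cor.Tiny100.ZonesA1
import Vale.Agent.P237.Petty.Cor.Tiny100.ZonesA2
import Vale.Agent.P237.Petty.Cor.Tiny100.RowsA13
import Vale.Agent.P237.Petty.Cor.Tiny100.RowsA14
import Vale.Agent.P237.Petty.Cor.Tiny100.RowsA15

/-!
# P237: the cell near zero for the orders from 98 to 198
-/

namespace Vale.Agent.P237.Petty.Cor.Tiny100

open Vale.Agent.P100.Bernstein
open Set

theorem rowsA_chained : chained 24000 rowsA 0 = true := by decide +kernel

theorem rowsA_all : (rowsA.all fun W => rowOk parA remA 99 199 W && rowSide W) = true := by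
  have e : rowsA = (rowsA.drop 0).take 8 ++
    (rowsA.drop 8).take 8 ++
    (rowsA.drop 16).take 5 ++
    (rowsA.drop 21).take 4 ++
    (rowsA.drop 25).take 3 ++
    (rowsA.drop 28).take 3 ++
    (rowsA.drop 31).take 3 ++
    (rowsA.drop 34).take 3 ++
    (rowsA.drop 37).take 3 ++
    (rowsA.drop 40).take 3 ++
    (rowsA.drop 43).take 3 ++
    (rowsA.drop 46).take 3 ++
    (rowsA.drop 49).take 3 ++
    (rowsA.drop 52).take 3 ++
    (rowsA.drop 55).take 3 := rfl
  rw [e]
  simp only [List.all_append, Bool.and_eq_true]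
  exact ⟨⟨⟨⟨⟨⟨⟨⟨⟨⟨⟨⟨⟨⟨rowsA01_ok, rowsA02_ok⟩, rowsA03_ok⟩, rowsA04_ok⟩, rowsA05_ok⟩, rowsA06_ok⟩, rowsA07_ok⟩, rowsA08_ok⟩, rowsA09_ok⟩, rowsA10_ok⟩, rowsA11_ok⟩, rowsA12_ok⟩, rowsA13_ok⟩, rowsA14_ok⟩, rowsA15_ok⟩

theorem rowsA_ok {W : Row} (hW : W ∈ rowsA) :
    rowOk parA remA 99 199 W = true ∧ rowSide W = true := by
  have h := rowsA_all
  simp only [List.all_eq_true, Bool.and_eq_true] at h
  exact h W hW

theorem zones_ok :
    (zonesA.all fun W => zoneOk parA remA 99 199 W .leaf && zoneSide W) = true := by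
  have e : zonesA = (zonesA.drop 0).take 4 ++ (zonesA.drop 4).take 4 := rfl
  rw [e]
  simp only [List.all_append, Bool.and_eq_true]
  exact ⟨zonesA1_ok, zonesA2_ok⟩

theorem eps_box {p : ℕ} (hp : 98 ≤ p) (hp1 : p ≤ 198) :
    (99 : ℝ) ≤ 19701 * eps p ∧ 19701 * eps p ≤ 199 := by
  have h0 : (98 : ℝ) ≤ p := by exact_mod_cast hp
  have h1 : (p : ℝ) ≤ 198 := by exact_mod_cast hp1
  have hp2 : (0 : ℝ) < (p : ℝ) + 1 := by positivity
  unfold eps
  rw [mul_one_div, le_div_iff₀ hp2, div_le_iff₀ hp2]
  constructor <;> linarith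

theorem recordA {p : ℕ} (hp : 98 ≤ p) (hp1 : p ≤ 198) : Record parA remA p := by
  obtain ⟨he0, he1, -⟩ := eps_facts hp
  obtain ⟨hb0, hb1⟩ := eps_box hp hp1
  have hfar := far_ok
  simp only [Bool.and_eq_true] at hfar
  obtain ⟨⟨⟨hMn, hd⟩, hb⟩, hch⟩ := hfar
  refine ⟨⟨by decide, by decide, by decide⟩, rem_mean remA hd hb hp (by simpa using hb0)
    (by simpa using hb1), hd, fun y hy hy1 => ?_, fun y hy hye => ?_, fun y hy hye => ?_⟩
  · obtain ⟨W, hW, hy0, hy2⟩ := row_cover rowsA_chained (by simpa using hy) hy1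
    obtain ⟨hok, hside⟩ := rowsA_ok hW
    simp only [rowOk, Bool.and_eq_true, Bool.or_eq_true, List.all_eq_true] at hok
    refine ⟨W, hside, hy0, fun hn x hx => ?_, fun a ha => nonneg_of_certify (Few.certify_of_quick (hok.2 a ha))
      ⟨?_, ?_, by simpa using hb0, by simpa using hb1, trivial⟩⟩
    · rcases hok.1 with h | h
      · simp [hn] at h
      · exact nonneg_of_certify (Few.certify_of_quick h) ⟨by simpa using hx.1, by simpa using hx.2, trivial⟩
    · simp only [List.headD_cons]
      push_cast
      linarith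
    · simp only [List.headD_cons]
      push_cast
      linarith
  · have hy2 : y ≤ 199 := by
      have h1 : y * (1 / 199) ≤ y * eps p :=
        mul_le_mul_of_nonneg_left (by linarith only [hb0]) (by linarith only [hy])
      linarith only [h1, hye]
    refine div_nonneg (nonneg_of_certify (Few.certify_of_quick hMn) ⟨?_, ?_, by simpa using hb0, by simpa using hb1,
      trivial⟩) (by positivity)
    · simpa using hy
    · simpa using hy2
  · have hz : 24 * eps p ≤ y * eps p := mul_le_mul_of_nonneg_right hy he0.le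
    have hz1 : 96 / 796 ≤ y * eps p := by linarith
    refine ⟨by linarith, ?_⟩
    rcases le_or_gt (1 / 4) (y * eps p) with h4 | h4
    · obtain ⟨W, hW, hup, hz2, hz3⟩ := zone_cover (L := zonesA) hch
        (show ((250 : ℕ) : ℝ) / 1000 ≤ y * eps p by norm_num; linarith) hye
      have h := zones_ok
      simp only [List.all_eq_true, Bool.and_eq_true] at h
      obtain ⟨hok, hside⟩ := h W hW
      simp only [zoneOk, List.all_eq_true] at hok
      refine ⟨W, [y * eps p, eps p], .var 0, .var 1, by simp, by simp, by simpa [hup] using h4,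
        zoneSide_sound hside hz2, fun a ha => nonneg_of_certify (Few.certify_of_quick (hok a ha))
          ⟨?_, ?_, by simpa using hb0, by simpa using hb1, trivial⟩⟩
      · simp only [List.headD_cons]
        push_cast
        linarith
      · simp only [List.headD_cons]
        push_cast
        linarith
    · have h := slant_ok
      simp only [Bool.and_eq_true] at h
      obtain ⟨hok, hside⟩ := h
      simp only [slantOk, List.all_eq_true] at hok
      obtain ⟨w, hw0, hw1, hw⟩ : ∃ w : ℝ, 0 ≤ w ∧ w ≤ 1 ∧
          eps p = 1 / 199 + (1 / 24 * (y * eps p) - 1 / 199) * w := by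
        have ha : 1 / 199 ≤ eps p := by linarith
        have hb : eps p ≤ 1 / 24 * (y * eps p) := by linarith
        rcases eq_or_lt_of_le (ha.trans hb) with h | h
        · exact ⟨0, le_rfl, zero_le_one, by linarith⟩
        · exact ⟨(eps p - 1 / 199) / (1 / 24 * (y * eps p) - 1 / 199),
            div_nonneg (by linarith) (by linarith), (div_le_one (by linarith)).2 (by linarith),
            by rw [mul_div_cancel₀ _ (by linarith)]; ring⟩
      have hw' : (slantE 199).eval [y * eps p, w] = eps p := by
        simp only [slantE, Expr.eval_add, Expr.eval_sub, Expr.eval_mul, Expr.eval_frac,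
          Expr.eval_var, List.getD_cons_zero, List.getD_cons_succ]
        push_cast
        linarith
      refine ⟨slantA, [y * eps p, w], .var 0, slantE 199, by simp, hw',
        by simpa [slantA] using h4.le, zoneSide_sound hside ?_,
        fun a ha => nonneg_of_certify (Few.certify_of_quick (hok a ha)) ⟨?_, ?_, by simpa using hw0, by simpa using hw1,
          trivial⟩⟩
      · simp only [slantA]
        push_cast
        linarith
      · simp only [List.headD_cons]
        push_cast
        linarith
      · simp only [List.headD_cons]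
        push_cast
        linarith

/-- The cell near zero for the orders from 98 to 198. -/
theorem corCell_tiny_98 {p : ℕ} (hp : 98 ≤ p) (hp1 : p ≤ 198) :
    CorCell p 0 (3 / 20 / ((p : ℝ) + 2)) :=
  corCell_of_record hp (recordA hp hp1)

end Vale.Agent.P237.Petty.Cor.Tiny100
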