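import Vale.Agent.P237.Petty.Cor.Bounds

/-!
# P237: the inequalities of the cell near zero in two real variables

`X` is the size of the displacement, `m` bounds what multiplies `-u`, `M` is the remainder.
-/

namespace Vale.Agent.P237.Petty.Cor.Tiny100

/-- An affine function with nonnegative ends is nonnegative between them. -/
theorem affine_nonneg {p q x w : ℝ} (h0 : 0 ≤ p) (h1 : 0 ≤ p + q * w) (hx : 0 ≤ x) (hxw : x ≤ w) :
    0 ≤ p + q * x := by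
  rcases le_total 0 q with h | h
  · positivity
  · nlinarith [mul_le_mul_of_nonpos_left hxw h]

/-- A quadratic with three nonnegative control values. -/
theorem quad_nonneg {c0 c1 c2 d0 d1 x : ℝ} (h0 : 0 ≤ c0 + c1 * d0 + c2 * d0 ^ 2)
    (hm : 0 ≤ c0 + c1 * ((d0 + d1) / 2) + c2 * (d0 * d1))
    (h1 : 0 ≤ c0 + c1 * d1 + c2 * d1 ^ 2) (hx : d0 ≤ x) (hx1 : x ≤ d1) :
    0 ≤ c0 + c1 * x + c2 * x ^ 2 := by
  rcases eq_or_lt_of_le (hx.trans hx1) with h | h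
  · rw [show x = d0 by linarith]; exact h0
  obtain ⟨w, hw0, hw1, e⟩ : ∃ w, 0 ≤ w ∧ w ≤ 1 ∧ x = d0 + w * (d1 - d0) :=
    ⟨(x - d0) / (d1 - d0), div_nonneg (by linarith) (by linarith),
      (div_le_one (by linarith)).2 (by linarith), by field_simp; ring⟩
  have e2 : c0 + c1 * x + c2 * x ^ 2 = (1 - w) ^ 2 * (c0 + c1 * d0 + c2 * d0 ^ 2) +
      2 * (w * (1 - w)) * (c0 + c1 * ((d0 + d1) / 2) + c2 * (d0 * d1)) +
      w ^ 2 * (c0 + c1 * d1 + c2 * d1 ^ 2) := by rw [e]; ring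
  rw [e2]
  have h2 : 0 ≤ w * (1 - w) := mul_nonneg hw0 (by linarith)
  positivity

/-- The part in `u ^ 2 / v` of a value `A` from below by a linear function on `0 ≤ u ≤ U`. -/
theorem curv_ge {A A1 α u U : ℝ} (hA : A1 ≤ A) (hα : 0 ≤ α) (hα1 : -A1 * U ≤ α * (1 + U))
    (hu : 0 ≤ u) (huU : u ≤ U) : -α * u ≤ A * (u ^ 2 / (1 + u)) := by
  have hv : 0 < 1 + u := by linarith
  have hq : 0 ≤ u ^ 2 / (1 + u) := by positivity
  refine le_trans ?_ (mul_le_mul_of_nonneg_right hA hq)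
  rw [mul_div_assoc', le_div_iff₀ hv]
  rcases le_total 0 A1 with h | h
  · nlinarith [mul_nonneg h (sq_nonneg u), mul_nonneg (mul_nonneg hα hu) hv.le]
  · have h2 : -A1 * u ≤ α * (1 + u) := by
      have hU : 0 ≤ U := hu.trans huU
      refine le_of_mul_le_mul_left ?_ (show 0 < 1 + U by linarith)
      nlinarith [mul_le_mul_of_nonneg_left hα1 hv.le, mul_le_mul_of_nonneg_left huU
        (show 0 ≤ -A1 by linarith)]
    nlinarith [mul_le_mul_of_nonneg_left h2 hu]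

/-- The first segment: `u ≤ V ell + b X`. -/
theorem first_seg {M m V b D B C ell w H d1 X u : ℝ} (hm : 0 ≤ m) (hC : 0 ≤ C)
    (hu : u ≤ V * ell + b * X) (hV : 0 ≤ V) (hX : 0 ≤ X) (hXH : X ≤ ell * H) (hH : 0 < H)
    (hX1 : X ≤ d1) (hw : ell ≤ w) (h0 : 0 ≤ M - m * V)
    (h1 : 0 ≤ M - m * V + H * (D - m * b - 2 * C * V * w))
    (h2 : 0 ≤ M - m * V + H * (D - m * b - 2 * C * V * w + (B - 2 * C * b) * d1)) :
    -(ell * M) ≤ -m * u + D * X + B * X ^ 2 - 2 * C * (u * X) := by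
  have a1 := mul_le_mul_of_nonneg_left hu hm
  have a2 := mul_le_mul_of_nonneg_left hu (mul_nonneg hC hX)
  have a3 := mul_le_mul_of_nonneg_left hw (mul_nonneg (mul_nonneg hC hV) hX)
  have a4 := mul_le_mul_of_nonneg_left (show X / H ≤ ell by rw [div_le_iff₀ hH]; exact hXH) h0
  have a5 := affine_nonneg h1 (show 0 ≤ M - m * V + H * (D - m * b - 2 * C * V * w) +
    H * (B - 2 * C * b) * d1 by linarith) hX hX1
  have a6 : 0 ≤ X / H * (M - m * V + H * (D - m * b - 2 * C * V * w) + H * (B - 2 * C * b) * X) :=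
    mul_nonneg (div_nonneg hX hH.le) a5
  have e : X / H * (M - m * V + H * (D - m * b - 2 * C * V * w) + H * (B - 2 * C * b) * X) =
      (M - m * V) * (X / H) + X * (D - m * b - 2 * C * V * w) + (B - 2 * C * b) * X ^ 2 := by
    field_simp
  linarith

/-- A later segment: `u ≤ a + b X`. -/
theorem later_seg {M m a b D B C ell H d0 d1 X u : ℝ} (hm : 0 ≤ m) (hC : 0 ≤ C) (hM : 0 ≤ M)
    (hu : u ≤ a + b * X) (hX : 0 ≤ X) (hXH : X ≤ ell * H) (hH : 0 < H)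
    (hX0 : d0 ≤ X) (hX1 : X ≤ d1)
    (h0 : 0 ≤ -(m * a) + (M / H + D - m * b - 2 * C * a) * d0 + (B - 2 * C * b) * d0 ^ 2)
    (h1 : 0 ≤ -(m * a) + (M / H + D - m * b - 2 * C * a) * ((d0 + d1) / 2) +
      (B - 2 * C * b) * (d0 * d1))
    (h2 : 0 ≤ -(m * a) + (M / H + D - m * b - 2 * C * a) * d1 + (B - 2 * C * b) * d1 ^ 2) :
    -(ell * M) ≤ -m * u + D * X + B * X ^ 2 - 2 * C * (u * X) := by
  have a1 := mul_le_mul_of_nonneg_left hu hm
  have a2 := mul_le_mul_of_nonneg_left hu (mul_nonneg hC hX)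
  have a4 := mul_le_mul_of_nonneg_left (show X / H ≤ ell by rw [div_le_iff₀ hH]; exact hXH) hM
  have a5 := quad_nonneg h0 h1 h2 hX0 hX1
  have e : M / H * X = M * (X / H) := by ring
  linarith

/-- Negative displacements: `u ≤ E ell - κ X` with `y X ≤ ell T`. -/
theorem back_seg {M m E κ D B C ell w y T X u : ℝ} (hm : 0 ≤ m) (hC : 0 ≤ C) (hu0 : 0 ≤ u)
    (hu : u ≤ E * ell - κ * X) (hy : 0 < y) (hT : 0 < T) (hX : 0 ≤ X) (hell : ell ≤ w)
    (hXT : y * X ≤ ell * T) (h0 : 0 ≤ M - m * E)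
    (h1 : 0 ≤ y * (M - m * E) + T * (m * κ - D))
    (h2 : 0 ≤ y * (y * (M - m * E) + T * (m * κ - D)) + w * T ^ 2 * B) :
    -(ell * M) ≤ -m * u - D * X + B * X ^ 2 + 2 * C * (u * X) := by
  have a1 := mul_le_mul_of_nonneg_left hu hm
  have a2 : 0 ≤ C * (u * X) := mul_nonneg hC (mul_nonneg hu0 hX)
  have a4 := mul_le_mul_of_nonneg_left
    (show y * X / T ≤ ell by rw [div_le_iff₀ hT]; exact hXT) h0
  have hXw : y * X ≤ w * T := hXT.trans (mul_le_mul_of_nonneg_right hell hT.le)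
  have a5 := affine_nonneg (mul_nonneg hy.le h1) (show 0 ≤ y * (y * (M - m * E) + T * (m * κ - D)) +
    T * B * (w * T) by linarith) (mul_nonneg hy.le hX) hXw
  have a6 : 0 ≤ X / (y * T) *
      (y * (y * (M - m * E) + T * (m * κ - D)) + T * B * (y * X)) :=
    mul_nonneg (div_nonneg hX (mul_pos hy hT).le) a5
  have e : X / (y * T) * (y * (y * (M - m * E) + T * (m * κ - D)) + T * B * (y * X)) =
      (M - m * E) * (y * X / T) + X * (m * κ - D) + B * X ^ 2 := by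
    field_simp
  linarith

/-- A quadratic in `X` on the box of negative displacements. -/
theorem box_back {M D B ell w y T X : ℝ} (hy : 0 < y) (hT : 0 < T) (hX : 0 ≤ X) (hell : ell ≤ w)
    (hXT : y * X ≤ ell * T) (h0 : 0 ≤ M) (h1 : 0 ≤ y * M - T * D)
    (h2 : 0 ≤ y * (y * M - T * D) + w * T ^ 2 * B) :
    -(ell * M) ≤ -D * X + B * X ^ 2 := by
  have := back_seg (M := M) (m := 0) (E := 0) (κ := 0) (D := D) (B := B) (C := 0) (u := 0) le_rfl le_rfl le_rfl (by simp) hy hT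
    hX hell hXT (by simpa using h0) (by linarith) (by linarith)
  linarith

/-- The quadratic in `u ≤ 0` and `X` completed. -/
theorem amgm_back {M m A A1 D B C ell w y T X u : ℝ} (hm : 0 ≤ m) (hA : 0 < A1) (hA1 : A1 ≤ A)
    (hu : u ≤ 0) (hu1 : -1 < u) (hy : 0 < y) (hT : 0 < T) (hX : 0 ≤ X) (hell : ell ≤ w)
    (hXT : y * X ≤ ell * T) (h0 : 0 ≤ M) (h1 : 0 ≤ y * M - T * D)
    (h2 : 0 ≤ A1 * (y * (y * M - T * D) + w * T ^ 2 * B) - w * T ^ 2 * C ^ 2) :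
    -(ell * M) ≤ -m * u - D * X + A * (u ^ 2 / (1 + u)) + B * X ^ 2 + 2 * C * (u * X) := by
  have hv : 0 < 1 + u := by linarith
  have a1 : u ^ 2 ≤ u ^ 2 / (1 + u) := by
    rw [le_div_iff₀ hv]; nlinarith [sq_nonneg u]
  have a2 : A1 * u ^ 2 ≤ A * (u ^ 2 / (1 + u)) :=
    mul_le_mul hA1 a1 (sq_nonneg u) (hA.le.trans hA1)
  have a3 := box_back (B := B - C ^ 2 / A1) hy hT hX hell hXT h0 h1 (by
    refine le_of_mul_le_mul_left ?_ hA
    rw [mul_zero]
    refine le_trans h2 (le_of_eq ?_)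
    field_simp
    ring)
  have a4 : 0 ≤ A1 * (u + C / A1 * X) ^ 2 := by positivity
  have e : A1 * (u + C / A1 * X) ^ 2 = A1 * u ^ 2 + 2 * C * (u * X) + C ^ 2 / A1 * X ^ 2 := by
    field_simp; ring
  have a5 : 0 ≤ m * (-u) := mul_nonneg hm (by linarith)
  linarith

/-- The logarithmic shadow with a margin: the fourth root carries the estimate to zero. -/
theorem log_margin {m φ : ℝ}
    (h : ∀ w ∈ Set.Icc (0 : ℝ) 1, 0 ≤ (1 + m) * (1 + w) * (1 + w ^ 2) * w ^ 4 * (4 + 2 * w) +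
      φ * (1 + w) * (1 + w ^ 2) * (1 - w ^ 4) * (4 + 2 * w) - 4 * w ^ 3 * (1 + 5 * w))
    {u : ℝ} (hu : u ≤ 0) (hu1 : -1 < u) :
    0 ≤ Real.log (1 + u) + (1 + m) * (-u) + φ * (u ^ 2 / (1 + u)) := by
  have hv : 0 < 1 + u := by linarith
  obtain ⟨w, hw0, hw⟩ : ∃ w, 0 < w ∧ w ^ 4 = 1 + u := by
    refine ⟨√√(1 + u), Real.sqrt_pos.2 (Real.sqrt_pos.2 hv), ?_⟩
    rw [show (√√(1 + u)) ^ 4 = ((√√(1 + u)) ^ 2) ^ 2 by ring, Real.sq_sqrt (Real.sqrt_nonneg _),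
      Real.sq_sqrt hv.le]
  have hw1 : w ≤ 1 := by
    rcases le_or_gt w 1 with h1 | h1
    · exact h1
    · have := one_lt_pow₀ h1 (show 4 ≠ 0 by norm_num); linarith
  have hl : 4 * ((w - 1) * (1 + 5 * w) / (w * (4 + 2 * w))) ≤ Real.log (1 + u) := by
    rw [← hw, Real.log_pow]
    push_cast
    linarith [pade_le_log hw0]
  have hQ := h w ⟨hw0.le, hw1⟩
  have hu2 : u = w ^ 4 - 1 := by linarith
  have e : 4 * ((w - 1) * (1 + 5 * w) / (w * (4 + 2 * w))) + (1 + m) * (-u) +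
      φ * (u ^ 2 / (1 + u)) = (1 - w) / (w ^ 4 * (4 + 2 * w)) *
        ((1 + m) * (1 + w) * (1 + w ^ 2) * w ^ 4 * (4 + 2 * w) +
          φ * (1 + w) * (1 + w ^ 2) * (1 - w ^ 4) * (4 + 2 * w) - 4 * w ^ 3 * (1 + 5 * w)) := by
    rw [← hw, hu2]
    field_simp
    ring
  have : 0 ≤ (1 - w) / (w ^ 4 * (4 + 2 * w)) *
      ((1 + m) * (1 + w) * (1 + w ^ 2) * w ^ 4 * (4 + 2 * w) +
        φ * (1 + w) * (1 + w ^ 2) * (1 - w ^ 4) * (4 + 2 * w) - 4 * w ^ 3 * (1 + 5 * w)) :=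
    mul_nonneg (div_nonneg (by linarith) (by positivity)) hQ
  linarith

/-- A convex function from the tangent at a base. -/
theorem line_of_chord {v v0 L lv ell R : ℝ} (hv : 0 < v) (hv0 : 0 < v0) (hlv : lv ≤ Real.log v0)
    (h : v * (L + Real.log v - ell) ≤ R) : (1 + L + lv - ell) * v - v0 ≤ R := by
  have h1 := Real.log_le_sub_one_of_pos (div_pos hv0 hv)
  rw [Real.log_div hv0.ne' hv.ne'] at h1
  have h2 := mul_le_mul_of_nonneg_left h1 hv.le
  rw [show v * (v0 / v - 1) = v0 - v by field_simp] at h2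
  have h3 := mul_le_mul_of_nonneg_left hlv hv.le
  linarith

/-- `v log v` from below near one. -/
theorem mul_log_ge {u : ℝ} (hu : 0 ≤ u) (hu1 : u ≤ 1) :
    u + 3 / 8 * u ^ 2 ≤ (1 + u) * Real.log (1 + u) := by
  have hv : 0 < 1 + u := by linarith
  refine le_trans ?_ (mul_le_mul_of_nonneg_left (pade_le_log hv) hv.le)
  have e : (1 + u) * ((1 + u - 1) * (1 + 5 * (1 + u)) / ((1 + u) * (4 + 2 * (1 + u)))) =
      u * (6 + 5 * u) / (6 + 2 * u) := by
    field_simp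
    ring
  rw [e, le_div_iff₀ (by linarith)]
  nlinarith [mul_nonneg (mul_nonneg hu hu) (sub_nonneg.2 hu1)]

end Vale.Agent.P237.Petty.Cor.Tiny100
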