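import Vale.Agent.P237.Petty.Cor.Tiny100.BulkSigns

/-!
# P237: the cell near zero for `u ≤ 0` in the bulk
-/

namespace Vale.Agent.P237.Petty.Cor.Tiny100

open Vale.Agent.P100.Bernstein
open Set

variable {p : ℕ} {ell s t a r q u δ y e : ℝ} {P : Par}

/-- The constant above the quotient of a positive displacement by the value. -/
noncomputable def Row.reach (W : Row) : ℝ :=
  (W.hc : ℝ) / 1000 * ((W.sv : ℝ) / 1000) * (1001 / 1000)

theorem eval_xEnd (W : Row) (y e : ℝ) : (xEnd W).eval [y, e] =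
    3 / 20 * ((W.sv : ℝ) / 1000) * (1001 / 1000) * W.mass y e := by
  simp only [xEnd, Expr.eval_mul, Expr.eval_add, Expr.eval_pow, Expr.eval_frac, eval_vY, eval_vE,
    eval_ov, eval_xW, Row.mass]
  push_cast
  ring

/-- The signs that rows share for `u ≤ 0`, as inequalities in the slope bounds. -/
theorem down_common (hP : ParOk P) {R : Rem} {W : Row}
    (hW : ∀ x ∈ downConds P R W, 0 ≤ x.eval [y, e]) (h : At p ell s t a r q u δ y e)
    (hz : y * e ≤ 1 / 4) :
    ∃ Dl Dh T : ℝ, 0 < T ∧ y * -δ ≤ ell * T ∧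
      (1 - y * e) * (y + 3 * (y * e) + 2) = T * (y + 2 * (y * e) + 3) ∧
      e * Dl ≤ P.linD e y (P.K p s) (Ident.b0 p ^ 2) ∧
      P.linD e y (P.K p s) (Ident.b0 p ^ 2) ≤ e * Dh ∧
      (xDh P).eval [y, e] = Dh * (xDhd P).eval [y, e] ∧
      0 ≤ e * R.base y e ∧ 0 ≤ y * (e * R.base y e) - T * (e * Dh) ∧
      0 ≤ e * R.base y e + W.reach * (e * Dl) ∧
      0 ≤ e * R.base y e + W.reach * (e * Dl) +
        W.reach * P.quadB e y (P.nh e) * (e * (xEnd W).eval [y, e]) := by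
  obtain ⟨he0, -, hy, -, hye1, -, -⟩ := h.basic
  obtain ⟨hd1, hd2, hD1, hD2⟩ := slope_range hP h hz
  have hc : 0 < 1 - y * e := by linarith
  have hTd : 0 < y + 2 * (y * e) + 3 := by positivity
  have hMd : 0 < (1 + y) ^ 10 := by positivity
  obtain ⟨T, hT, eT⟩ : ∃ T, 0 < T ∧
      (1 - y * e) * (y + 3 * (y * e) + 2) = T * (y + 2 * (y * e) + 3) :=
    ⟨_, div_pos (by positivity) hTd, (div_mul_cancel₀ _ hTd.ne').symm⟩
  have hX := h.box_lo
  rw [eT, mul_div_cancel_right₀ _ hTd.ne'] at hX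
  have eMn : (xMn R).eval [y, e] = R.base y e * (1 + y) ^ 10 := by
    rw [Rem.base, div_mul_cancel₀ _ (by positivity)]
  obtain ⟨Dl, eDl⟩ : ∃ Dl, (xDl P).eval [y, e] = Dl * (xDld P).eval [y, e] :=
    ⟨_, (div_mul_cancel₀ _ hd1.ne').symm⟩
  obtain ⟨Dh, eDh⟩ : ∃ Dh, (xDh P).eval [y, e] = Dh * (xDhd P).eval [y, e] :=
    ⟨_, (div_mul_cancel₀ _ hd2.ne').symm⟩
  rw [eDl, ← mul_assoc, mul_div_cancel_right₀ _ hd1.ne'] at hD1
  rw [eDh, ← mul_assoc, mul_div_cancel_right₀ _ hd2.ne'] at hD2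
  refine ⟨Dl, Dh, T, hT, hX, eT, hD1, hD2, eDh, ?_⟩
  simp only [downConds] at hW
  split at hW <;>
  · simp only [List.forall_mem_cons, List.forall_mem_append] at hW
    obtain ⟨⟨h0, h1, h2, h3, -⟩, -⟩ := hW
    simp only [Expr.eval_sub, Expr.eval_mul, Expr.eval_add, Expr.eval_pow, Expr.eval_num,
      Expr.eval_frac, eval_xC, eval_vY, eval_vE, eval_ov, eval_xTd, eval_xTn, eval_xW, eval_xMd,
      eval_xBc P y e hc.ne', eMn, eT, eDl, eDh] at h0 h1 h2 h3
    push_cast at h0 h1 h2 h3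
    rw [eval_xEnd, Row.mass, Row.reach]
    exact ⟨nonneg_of_mul_nonneg_left (h0.trans (le_of_eq (by ring))) hMd,
      nonneg_of_mul_nonneg_left (h1.trans (le_of_eq (by ring)))
        (show 0 < (1 + y) ^ 10 * (xDhd P).eval [y, e] * (y + 2 * (y * e) + 3) by positivity),
      nonneg_of_mul_nonneg_left (h2.trans (le_of_eq (by ring)))
        (show 0 < (1 + y) ^ 10 * (xDld P).eval [y, e] by positivity),
      nonneg_of_mul_nonneg_left (h3.trans (le_of_eq (by ring)))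
        (show 0 < (1 + y) ^ 10 * (xDld P).eval [y, e] * (1 - y * e) by positivity)⟩

/-- A positive displacement with `u ≤ 0`. -/
theorem down_pos {M Dl B H e' d : ℝ} (hd : 0 < d) (hdH : d ≤ ell * H)
    (hde : d ≤ e') (hell : 0 ≤ ell) (h0 : 0 ≤ M) (h1 : 0 ≤ M + H * Dl)
    (h2 : 0 ≤ M + H * Dl + H * B * e') : -(ell * M) ≤ Dl * d + B * d ^ 2 := by
  have hH : 0 < H := pos_of_mul_pos_right (hd.trans_le hdH) hell
  have := first_seg (M := M) (m := 0) (V := 0) (b := 0) (D := Dl) (B := B) (C := 0) (ell := ell)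
    (w := ell) (u := 0) le_rfl le_rfl (by simp) le_rfl hd.le hdH hH hde le_rfl (by simpa using h0)
    (by simpa using h1) (by linarith)
  linarith

/-- What the signs of a near row give for `u ≤ 0`. -/
theorem down_near (hP : ParOk P) {R : Rem} {W : Row}
    (hW : ∀ x ∈ downConds P R W, 0 ≤ x.eval [y, e]) (hn : W.near = true)
    (h : At p ell s t a r q u δ y e) (hz : y * e ≤ 1 / 4) (hu : u ≤ 0)
    (hb : 0 < δ → δ ≤ ell * W.reach ∧ δ ≤ e * (xEnd W).eval [y, e]) :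
    -(ell * (e * R.base y e)) ≤ P.form p s u δ y e := by
  obtain ⟨he0, -, hy, -, hye1, hu1, -⟩ := h.basic
  obtain ⟨Dl, Dh, T, hT, hX, eT, hDl, hDh, eDh, k0, k1, k2, k3⟩ := down_common hP hW h hz
  obtain ⟨-, hd2, -, -⟩ := slope_range hP h hz
  have hc : 0 < 1 - y * e := by linarith
  have hTd : 0 < y + 2 * (y * e) + 3 := by positivity
  have hmu : 0 ≤ P.mu p s := by
    rw [P.mu_eq h hz]; exact mul_nonneg he0.le (P.hump_nonneg hP y)
  have hA0 := P.quadA_ge hP h hu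
  simp only [downConds, hn, ↓reduceIte, List.forall_mem_cons, List.forall_mem_append] at hW
  obtain ⟨-, h4, h5, -⟩ := hW
  have eA : (xAn P (.num 0)).eval [y, e] = 12 * (1 - y * e) *
      (2 * (1 + P.g) * P.nl e * (1 - y * e) - P.cross * P.nh e * (y * e) -
        P.G * ((1 - y * e) + rHi e) * (3 + 2 * 0) / (4 * (1 - y * e) * (3 + 0))) := by
    simp [xAn, eval_xC, eval_xG, eval_xg, eval_xNl, eval_xNh, eval_xS P y e (by
      have := hP.g_gt; omega), eval_xRh]
    field_simp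
    ring
  have eMn : (xMn R).eval [y, e] = R.base y e * (1 + y) ^ 10 := by
    rw [Rem.base, div_mul_cancel₀ _ (by positivity)]
  simp only [Expr.eval_sub, Expr.eval_mul, Expr.eval_add, Expr.eval_pow, Expr.eval_num,
    Expr.eval_frac, eval_xC, eval_vY, eval_vE, eval_ov, eval_xTd, eval_xTn, eval_xW, eval_xMd,
    eval_xBc P y e hc.ne', eval_xCq, eA, eMn, eT] at h4 h5
  push_cast at h4 h5
  set A1 := 2 * (1 + P.g) * P.nl e * (1 - y * e) - P.cross * P.nh e * (y * e) -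
    P.G * ((1 - y * e) + rHi e) * (3 + 2 * 0) / (4 * (1 - y * e) * (3 + 0))
  have hA1 : 0 < A1 := pos_of_mul_pos_right (show 0 < 12 * (1 - y * e) * A1 by linarith)
    (by positivity)
  have hB := P.quadB_ge hP h
  have hC := P.quadC_nonneg hP h
  have a2 := mul_le_mul_of_nonneg_right hB (sq_nonneg δ)
  have hq : 0 ≤ u ^ 2 / (1 + u) := div_nonneg (sq_nonneg u) (by linarith)
  unfold Par.form
  rcases le_or_gt δ 0 with hd | hd
  · have key := amgm_back (M := e * R.base y e) (m := P.mu p s) (A1 := A1) (D := e * Dh)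
      (B := P.quadB e y (P.nh e)) (C := P.quadC e y) (ell := ell) (w := 3 / 20 * e) (X := -δ)
      hmu hA1 hA0 hu hu1 hy hT (by linarith) h.ell_le hX k0 k1
      (nonneg_of_mul_nonneg_left (h5.trans (le_of_eq (by rw [eDh]; ring)))
        (show 0 < 12 * (1 - y * e) * ((1 + y) ^ 10 * (xDhd P).eval [y, e] *
          (y + 2 * (y * e) + 3) ^ 2 * (1 - y * e)) by positivity))
    have a1 := mul_le_mul_of_nonpos_right hDh hd
    linarith
  · obtain ⟨hdH, hde⟩ := hb hd
    have key := down_pos (B := P.quadB e y (P.nh e)) hd hdH hde h.ell_nonneg k0 k2 k3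
    have a1 := mul_le_mul_of_nonneg_right hDl hd.le
    have a3 : 0 ≤ P.mu p s * -u := mul_nonneg hmu (by linarith)
    have a4 : 0 ≤ P.quadC e y * (-u * δ) := mul_nonneg hC (mul_nonneg (by linarith) hd.le)
    have a5 := mul_nonneg (hA1.le.trans hA0) hq
    linarith

/-- The logarithm keeps the cell above the part in `δ`, for `u ≤ 0`. -/
theorem log_core {K mu N C Q2 w T X L m φ g : ℝ} (hK : 0 ≤ K) (hu : u ≤ 0) (hu1 : -1 < u)
    (hL : 0 ≤ L + (1 + m) * (-u) + φ * (u ^ 2 / (1 + u)))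
    (hC : 0 ≤ C) (hN : 0 ≤ N) (hg : 1 < g) (hX : X ≤ w * T)
    (hwT : 0 ≤ w * T)
    (h1 : m * K + (2 * C + N * (2 * (g ^ 2 - 1))) * (w * T) ≤ mu)
    (h2 : φ * K + N * (2 * (g ^ 2 - 1)) * (w * T) ≤ Q2) :
    0 ≤ K * L - (K + mu) * u + 2 * C * (u * X) + Q2 * (u ^ 2 / (1 + u)) +
      N / (1 + u) * (2 * g * (1 + g) * X ^ 2 + 2 * (g ^ 2 - 1) * (u * X)) := by
  have hv : 0 < 1 + u := by linarith
  have hg2 : 0 ≤ g ^ 2 - 1 := by nlinarith
  have hq : 0 ≤ u ^ 2 / (1 + u) := by positivity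
  have a1 := mul_nonneg hK hL
  have a2 := mul_le_mul_of_nonneg_right h1 (show 0 ≤ -u by linarith)
  have a3 := mul_le_mul_of_nonneg_right h2 hq
  have a4 : 0 ≤ N / (1 + u) * (2 * g * (1 + g) * X ^ 2) := by positivity
  have e1 : N / (1 + u) * (2 * (g ^ 2 - 1) * (u * X)) =
      N * (2 * (g ^ 2 - 1)) * (u * X) - N * (2 * (g ^ 2 - 1)) * X * (u ^ 2 / (1 + u)) := by
    field_simp
    ring
  have a5 := mul_le_mul_of_nonpos_right hX
    (show (2 * C + N * (2 * (g ^ 2 - 1))) * u ≤ 0 from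
      mul_nonpos_of_nonneg_of_nonpos (by positivity) hu)
  have a6 := mul_le_mul_of_nonneg_right hX
    (show 0 ≤ N * (2 * (g ^ 2 - 1)) * (u ^ 2 / (1 + u)) by positivity)
  rw [mul_add]
  linarith

/-- The root sign of a row as the margin of the logarithm. -/
theorem root_margin {mn fn : ℕ}
    (hroot : ∀ x ∈ Icc (0 : ℝ) 1, 0 ≤ (rootPoly mn fn).eval [x]) (hu : u ≤ 0) (hu1 : -1 < u) :
    0 ≤ Real.log (1 + u) + (1 + (mn : ℝ) / 10000) * (-u) +
      (fn : ℝ) / 10000 * (u ^ 2 / (1 + u)) :=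
  log_margin (fun x hx => by
    have := hroot x hx
    simp [rootPoly, ov] at this
    linarith) hu hu1

/-- The margins of a row away from zero. -/
theorem down_margins (hP : ParOk P) {R : Rem} {W : Row}
    (hW : ∀ x ∈ downConds P R W, 0 ≤ x.eval [y, e]) (hn : W.near = false)
    (h : At p ell s t a r q u δ y e) (hz : y * e ≤ 1 / 4) {Dh T : ℝ}
    (eT : (1 - y * e) * (y + 3 * (y * e) + 2) = T * (y + 2 * (y * e) + 3))
    (eDh : (xDh P).eval [y, e] = Dh * (xDhd P).eval [y, e]) :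
    0 ≤ y * (y * (e * R.base y e) - T * (e * Dh)) + 3 / 20 * e * T ^ 2 * P.quadB e y (P.nh e) ∧
      (W.mn : ℝ) / 10000 * P.K p s +
          (2 * P.quadC e y + P.nh e * (y * e) * (2 * (P.g ^ 2 - 1))) * (3 / 20 * e * T / y) ≤
        P.mu p s ∧
      (W.fn : ℝ) / 10000 * P.K p s +
          P.nh e * (y * e) * (2 * (P.g ^ 2 - 1)) * (3 / 20 * e * T / y) ≤
        2 * (1 + P.g) * P.nl e * (1 - y * e) := by
  obtain ⟨he0, -, hy, -, hye1, -, -⟩ := h.basic
  obtain ⟨-, hd2, -, -⟩ := slope_range hP h hz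
  obtain ⟨-, -, -, -, hK2⟩ := P.shadow_range hP h
  obtain ⟨hF, -⟩ := P.facts hP
  have hc : 0 < 1 - y * e := by linarith
  have hTd : 0 < y + 2 * (y * e) + 3 := by positivity
  have hQ : 0 < P.F + y ^ 2 := by positivity
  simp only [downConds, hn, Bool.false_eq_true, ↓reduceIte, List.forall_mem_cons,
    List.forall_mem_append] at hW
  obtain ⟨-, h4, h5, h6, -⟩ := hW
  have eMn : (xMn R).eval [y, e] = R.base y e * (1 + y) ^ 10 := by
    rw [Rem.base, div_mul_cancel₀ _ (by positivity)]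
  simp only [Expr.eval_sub, Expr.eval_mul, Expr.eval_add, Expr.eval_pow, Expr.eval_num,
    eval_xC, eval_vY, eval_vE, eval_ov, eval_xTd, eval_xTn, eval_xW, eval_xMd,
    eval_xBc P y e hc.ne', eval_xCq, eval_xNl, eval_xNh, eval_xg, eval_xG, eval_xQ, eval_xRh,
    eval_xHq P y e hQ.ne', eMn, eT, eDh] at h4 h5 h6
  push_cast at h4 h5 h6
  have h1 : ∀ {x : ℝ}, 0 ≤ x → x * P.K p s ≤
      x * (P.G * (((1 - y * e) + rHi e) / (2 * (1 - y * e)))) :=
    fun hx => mul_le_mul_of_nonneg_left hK2 hx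
  refine ⟨nonneg_of_mul_nonneg_left (h4.trans (le_of_eq (by ring)))
    (show 0 < (1 + y) ^ 10 * (xDhd P).eval [y, e] *
      (y + 2 * (y * e) + 3) ^ 2 * (1 - y * e) by positivity), ?_, ?_⟩
  · refine (add_le_add (h1 (by positivity)) le_rfl).trans (sub_nonneg.1 ?_)
    refine nonneg_of_mul_nonneg_left (h5.trans (le_of_eq ?_))
      (show 0 < 2 * (1 - y * e) * (y * (y + 2 * (y * e) + 3)) * (P.F + y ^ 2) by positivity)
    rw [P.mu_eq h hz]
    field_simp
    ring
  · refine (add_le_add (h1 (by positivity)) le_rfl).trans (sub_nonneg.1 ?_)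
    refine nonneg_of_mul_nonneg_left (h6.trans (le_of_eq ?_))
      (show 0 < 2 * (1 - y * e) * (y * (y + 2 * (y * e) + 3)) by positivity)
    field_simp
    ring

/-- What the signs of a row away from zero give for `u ≤ 0`. -/
theorem down_log (hP : ParOk P) {R : Rem} {W : Row}
    (hW : ∀ x ∈ downConds P R W, 0 ≤ x.eval [y, e]) (hn : W.near = false)
    (hroot : ∀ x ∈ Icc (0 : ℝ) 1, 0 ≤ (rootPoly W.mn W.fn).eval [x])
    (h : At p ell s t a r q u δ y e) (hz : y * e ≤ 1 / 4) (hu : u ≤ 0)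
    (hb : 0 < δ → δ ≤ ell * W.reach ∧ δ ≤ e * (xEnd W).eval [y, e]) :
    ell * wS p (arc s) - ell * (e * R.base y e) ≤ P.cell p ell s t a r := by
  obtain ⟨he0, -, hy, -, hye1, hu1, -⟩ := h.basic
  obtain ⟨Dl, Dh, T, hT, hX, eT, hDl, hDh, eDh, k0, k1, k2, k3⟩ := down_common hP hW h hz
  obtain ⟨hr2, b1, b2⟩ := down_margins hP hW hn h hz eT eDh
  obtain ⟨hF, hg, -⟩ := P.facts hP
  obtain ⟨hn0, hn1, hn2⟩ := P.mult_bounds hP h.big
  rw [h.e_eq] at hn0 hn1 hn2
  obtain ⟨hK, -⟩ := P.shadow_range hP h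
  have hg2 : 0 < P.g ^ 2 - 1 := sub_pos.2 (one_lt_pow₀ hg two_ne_zero)
  have hc : 0 < 1 - y * e := by linarith
  have hL := root_margin hroot hu hu1
  have hlog := P.log_le (ell := ell) hF h.state h.u_eq h.d_eq h.y_eq
  rw [h.e_eq] at hlog
  set Tw := 3 / 20 * e * T / y with hTw
  have hTw0 : 0 ≤ Tw := by positivity
  have hN : 0 ≤ P.nu p * (y * e) := mul_nonneg (hn0.trans hn1) (by positivity)
  have hN2 : P.nu p * (y * e) * (2 * (P.g ^ 2 - 1)) * Tw ≤
      P.nh e * (y * e) * (2 * (P.g ^ 2 - 1)) * Tw :=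
    mul_le_mul_of_nonneg_right (mul_le_mul_of_nonneg_right
      (mul_le_mul_of_nonneg_right hn2 (by positivity)) (by positivity)) hTw0
  have a0 := mul_le_mul_of_nonneg_left hn1 (show 0 ≤ 2 * (1 + P.g) * (1 - y * e) by positivity)
  have eT2 : 3 / 20 * e * (T / y) = Tw := by rw [hTw, mul_div_assoc]
  have hXT : -δ ≤ 3 / 20 * e * (T / y) := by
    rw [eT2, hTw, le_div_iff₀ hy]
    have := mul_le_mul_of_nonneg_right h.ell_le hT.le
    linarith
  have core := log_core (K := P.K p s) (mu := P.mu p s) (N := P.nu p * (y * e))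
    (C := P.quadC e y) (Q2 := 2 * (1 + P.g) * P.nu p * (1 - y * e)) (w := 3 / 20 * e) (T := T / y)
    (X := -δ) hK.le hu hu1 hL (P.quadC_nonneg hP h) hN hg hXT (by positivity)
    (by rw [eT2]; linarith only [b1, hN2]) (by rw [eT2]; linarith only [b2, hN2, a0])
  have hB := P.quadB_ge hP h
  have a2 := mul_le_mul_of_nonneg_right hB (sq_nonneg δ)
  have hmain : -(ell * (e * R.base y e)) ≤
      P.linD e y (P.K p s) (Ident.b0 p ^ 2) * δ + P.quadB e y (P.nu p) * δ ^ 2 := by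
    rcases le_or_gt δ 0 with hd | hd
    · have key := box_back (M := e * R.base y e) (D := e * Dh) (B := P.quadB e y (P.nh e))
        (ell := ell) (w := 3 / 20 * e) (X := -δ) hy hT (by linarith) h.ell_le hX k0 k1 hr2
      have a1 := mul_le_mul_of_nonpos_right hDh hd
      linarith only [key, a1, a2]
    · obtain ⟨hdH, hde⟩ := hb hd
      have key := down_pos (B := P.quadB e y (P.nh e)) hd hdH hde h.ell_nonneg k0 k2 k3
      have a1 := mul_le_mul_of_nonneg_right hDl hd.le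
      linarith only [key, a1, a2]
  refine le_trans ?_ hlog
  linarith only [core, hmain]

end Vale.Agent.P237.Petty.Cor.Tiny100
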