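import Vale.Agent.P237.Petty.Cor.Tiny100.BulkDown

/-!
# P237: the cell near zero for positive `δ` and `u` in the bulk, and a whole row
-/

namespace Vale.Agent.P237.Petty.Cor.Tiny100

open Vale.Agent.P100.Bernstein
open Set

variable {p : ℕ} {ell s t a r q u δ y e : ℝ} {P : Par}

/-- The three values tested on the first segment, with the evaluations as atoms. -/
noncomputable def firstVals (e y Mn md m V b H d1 Dld Dl Bc C : ℝ) : List ℝ :=
  let Md := (1 + y) ^ 10
  let c := 1 - y * e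
  let p0 := e * Mn * md - m * V * Md
  let p1 := c * Dld * p0 + H * (c * (e * Dl) * Md * md - m * Md * Dld * b -
    2 * C * V * (3 / 20 * e) * c * Md * Dld * md)
  [p0, p1, p1 + H * d1 * Md * Dld * md * (Bc - 2 * C * b)]

/-- The three values tested on a later segment, with the evaluations as atoms. -/
noncomputable def segVals (e y Mn md m La Lb Ld H d0 d1 Dld Dl Bc C : ℝ) : List ℝ :=
  let Md := (1 + y) ^ 10
  let c := 1 - y * e
  let k := c * Md * Dld
  let k0 := -(m * La * k * H)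
  let k1 := e * Mn * md * c * Dld * Ld + H * (e * Dl * md * c * Md * Ld - m * Lb * k -
    2 * C * La * k * md)
  let k2 := H * Md * Dld * md * (Bc * Ld - 2 * c * C * Lb)
  [k0 + k1 * d0 + k2 * d0 ^ 2, k0 + k1 * (1 / 2 * (d0 + d1)) + k2 * (d0 * d1),
    k0 + k1 * d1 + k2 * d1 ^ 2]

theorem first_form {M D B C m V b H d1 md Md Dld c : ℝ} (hm : 0 ≤ m) (hC : 0 ≤ C) (hV : 0 ≤ V)
    (hmd : 0 < md) (hMd : 0 < Md) (hDld : 0 < Dld) (hc : 0 < c)
    (hu : u ≤ V * ell + b / c * δ) (hd : 0 < δ) (hdH : δ ≤ ell * H) (hd1 : δ ≤ d1)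
    (hell : ell ≤ 3 / 20 * e) (hell0 : 0 ≤ ell)
    (k0 : 0 ≤ e * (M * Md) * md - m * md * V * Md)
    (k1 : 0 ≤ c * Dld * (e * (M * Md) * md - m * md * V * Md) + H * (c * (e * (D * Dld)) * Md * md -
      m * md * Md * Dld * b - 2 * C * V * (3 / 20 * e) * c * Md * Dld * md))
    (k2 : 0 ≤ c * Dld * (e * (M * Md) * md - m * md * V * Md) + H * (c * (e * (D * Dld)) * Md * md -
      m * md * Md * Dld * b - 2 * C * V * (3 / 20 * e) * c * Md * Dld * md) +
      H * d1 * Md * Dld * md * (c * B - 2 * C * b)) :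
    -(ell * (e * M)) ≤ -m * u + e * D * δ + B * δ ^ 2 - 2 * C * (u * δ) := by
  have hH : 0 < H := pos_of_mul_pos_right (hd.trans_le hdH) hell0
  refine first_seg hm hC hu hV hd.le hdH hH hd1 hell
    (nonneg_of_mul_nonneg_left (k0.trans (le_of_eq (by ring))) (mul_pos hMd hmd))
    (nonneg_of_mul_nonneg_left (k1.trans (le_of_eq (by field_simp <;> ring)))
      (show 0 < Md * md * c * Dld by positivity))
    (nonneg_of_mul_nonneg_left (k2.trans (le_of_eq (by field_simp <;> ring)))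
      (show 0 < Md * md * c * Dld by positivity))

theorem seg_form {M D B C m La Lb Ld H d0 d1 md Md Dld c : ℝ} (hm : 0 ≤ m) (hC : 0 ≤ C)
    (hM : 0 ≤ e * M) (hmd : 0 < md) (hMd : 0 < Md) (hDld : 0 < Dld) (hc : 0 < c) (hL : 0 < Ld)
    (hu : u ≤ La / Ld + Lb / Ld * δ) (hd : 0 < δ) (hdH : δ ≤ ell * H) (hd0 : d0 ≤ δ)
    (hd1 : δ ≤ d1) (hell0 : 0 ≤ ell)
    (k : let k := c * Md * Dld
      let k0 := -(m * md * La * k * H)
      let k1 := e * (M * Md) * md * c * Dld * Ld + H * (e * (D * Dld) * md * c * Md * Ld -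
        m * md * Lb * k - 2 * C * La * k * md)
      let k2 := H * Md * Dld * md * (c * B * Ld - 2 * c * C * Lb)
      0 ≤ k0 + k1 * d0 + k2 * d0 ^ 2 ∧ 0 ≤ k0 + k1 * (1 / 2 * (d0 + d1)) + k2 * (d0 * d1) ∧
        0 ≤ k0 + k1 * d1 + k2 * d1 ^ 2) :
    -(ell * (e * M)) ≤ -m * u + e * D * δ + B * δ ^ 2 - 2 * C * (u * δ) := by
  have hH : 0 < H := pos_of_mul_pos_right (hd.trans_le hdH) hell0
  obtain ⟨k0, k1, k2⟩ := k
  have hT : 0 < H * md * c * Md * Dld * Ld := by positivity
  refine later_seg hm hC hM hu hd.le hdH hH hd0 hd1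
    (nonneg_of_mul_nonneg_left (k0.trans (le_of_eq (by field_simp <;> ring))) hT)
    (nonneg_of_mul_nonneg_left (k1.trans (le_of_eq (by field_simp <;> ring))) hT)
    (nonneg_of_mul_nonneg_left (k2.trans (le_of_eq (by field_simp <;> ring))) hT)

/-- From a slope bound to the form. -/
theorem form_of_slope (hP : ParOk P) (h : At p ell s t a r q u δ y e) {M m D : ℝ} (hd : 0 ≤ δ)
    (hA : -m * u ≤ -(P.mu p s) * u +
      P.quadA e y (P.nu p) (P.K p s) (1 + u) * (u ^ 2 / (1 + u)))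
    (hD : e * D ≤ P.linD e y (P.K p s) (Ident.b0 p ^ 2))
    (key : -(ell * M) ≤ -m * u + e * D * δ + P.quadB e y (P.nh e) * δ ^ 2 -
      2 * P.quadC e y * (u * δ)) : -(ell * M) ≤ P.form p s u δ y e := by
  have a1 := mul_le_mul_of_nonneg_right hD hd
  have a2 := mul_le_mul_of_nonneg_right (P.quadB_ge hP h) (sq_nonneg δ)
  unfold Par.form
  linarith only [a1, a2, key, hA]

/-- What the signs of the first segment give. -/
theorem first_sound (hP : ParOk P) {R : Rem} {W : Row}
    (hW : ∀ x ∈ firstConds P R W, 0 ≤ x.eval [y, e]) (h : At p ell s t a r q u δ y e)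
    (hz : y * e ≤ 1 / 4) (hu : 0 ≤ u) (huU : u ≤ (xU W).eval [y, e]) (hd : 0 < δ)
    (hdH : δ ≤ ell * W.reach) (hd1 : δ ≤ e * (xStop W W.x1).eval [y, e]) :
    -(ell * (e * R.base y e)) ≤ P.form p s u δ y e := by
  obtain ⟨he0, -, hy, -, hye1, hu1, -⟩ := h.basic
  obtain ⟨hd1', -, hD1, -⟩ := slope_range hP h hz
  have hc : 0 < 1 - y * e := by linarith
  have hl := h.ell_nonneg
  have hch := h.u_chord hd
  have hsel : u ≤ (xTop W W.u1).eval [y, e] := by
    cases hu1' : W.u1 with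
    | none => exact huU
    | some top =>
      simp only [firstConds, hu1', List.forall_mem_cons, List.forall_mem_append] at hW
      obtain ⟨⟨h1, -⟩, -⟩ := hW
      simp only [Expr.eval_sub, Expr.eval_mul, Expr.eval_add, Expr.eval_num, eval_xC,
        eval_vE, eval_xW, eval_xqn] at h1
      push_cast at h1
      refine hch.trans (le_of_mul_le_mul_left ?_ hc)
      refine le_trans ?_ (sub_nonneg.1 h1)
      have a1 := mul_le_mul_of_nonneg_left hd1 (show 0 ≤ y + 2 * (y * e) + 1 by positivity)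
      have a2 := mul_le_mul h.ell_le (add_le_add (le_refl (1 : ℝ)) huU) (by linarith)
        (by positivity)
      have a3 := mul_le_mul_of_nonneg_left a2 hc.le
      rw [mul_add, ← mul_assoc, mul_div_cancel₀ _ hc.ne']
      linarith only [a1, a3]
  obtain ⟨U, hU⟩ : ∃ U, xTop W W.u1 = U := ⟨_, rfl⟩
  simp only [firstConds, hU] at hW
  rw [hU] at hsel
  obtain ⟨neg, m, hm, hmd, em, hA⟩ := slope_le hP h hz _ hu hsel
  obtain ⟨b, eb, hub⟩ : ∃ b, (if W.near then (Expr.num 1 + U) * vY *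
      (.num 1 + .num 2 * xW * vE ^ 2 + .frac 1 2 * (vE * xStop W W.x1)) else xqn).eval [y, e] = b ∧
      u ≤ (1 + U.eval [y, e]) * ell + b / (1 - y * e) * δ := by
    cases W.near with
    | false =>
      refine ⟨_, rfl, hch.trans ?_⟩
      have := mul_le_mul_of_nonneg_left (add_le_add (le_refl (1 : ℝ)) hsel) hl
      simp only [Bool.false_eq_true, ↓reduceIte, eval_xqn]
      linarith
    | true =>
      refine ⟨_, rfl, h.u_cut.trans ?_⟩
      simp only [↓reduceIte, Expr.eval_mul, Expr.eval_add, Expr.eval_pow, Expr.eval_num,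
        Expr.eval_frac, eval_vY, eval_vE, eval_xW]
      push_cast
      have hyc : 0 ≤ y / (1 - y * e) := by positivity
      rw [abs_of_nonneg (mul_nonneg hyc hd.le)]
      have a1 : 0 ≤ y / (1 - y * e) * δ * (2 * e) * (3 / 20 * e - ell) :=
        mul_nonneg (by positivity) (by linarith [h.ell_le])
      have a2 := mul_le_mul_of_nonneg_left hd1 (show 0 ≤ y / (1 - y * e) * δ by positivity)
      have hs : 0 ≤ ell + y / (1 - y * e) * δ *
          (1 + 2 * (3 / 20) * e ^ 2 + 1 / 2 * (e * (xStop W W.x1).eval [y, e])) := by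
        have : 0 ≤ e * (xStop W W.x1).eval [y, e] := hd.le.trans hd1
        positivity
      have e1 : (1 + U.eval [y, e]) * y *
          (1 + 2 * (3 / 20) * e ^ 2 + 1 / 2 * (e * (xStop W W.x1).eval [y, e])) /
            (1 - y * e) * δ = (1 + U.eval [y, e]) * (y / (1 - y * e) * δ *
          (1 + 2 * (3 / 20) * e ^ 2 + 1 / 2 * (e * (xStop W W.x1).eval [y, e]))) := by ring
      refine le_trans (mul_le_mul_of_nonneg_left (show _ ≤ ell + y / (1 - y * e) * δ *
          (1 + 2 * (3 / 20) * e ^ 2 + 1 / 2 * (e * (xStop W W.x1).eval [y, e])) by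
        linear_combination a1 + 1 / 2 * a2) (by linarith)) ?_
      refine (mul_le_mul_of_nonneg_right (add_le_add (le_refl (1 : ℝ)) hsel) hs).trans (le_of_eq ?_)
      rw [e1, mul_add]
  have hW' : ∀ v ∈ firstVals e y ((xMn R).eval [y, e]) ((xmd P U).eval [y, e])
      ((xm P U neg).eval [y, e]) (1 + U.eval [y, e]) b W.reach
      (e * (xStop W W.x1).eval [y, e]) ((xDld P).eval [y, e]) ((xDl P).eval [y, e])
      ((xBc P).eval [y, e]) (P.quadC e y), 0 ≤ v := by
    simp only [List.flatMap_cons, List.flatMap_nil, List.append_nil,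
      List.forall_mem_append, List.forall_mem_cons] at hW
    obtain ⟨-, ⟨f0, f1, f2, -⟩, ⟨t0, t1, t2, -⟩⟩ := hW
    simp only [Expr.eval_sub, Expr.eval_mul, Expr.eval_add, Expr.eval_num, Expr.eval_frac,
      eval_xC, eval_vE, eval_ov, eval_xW, eval_xMd, eval_xCq, eb] at f0 f1 f2 t0 t1 t2
    push_cast at f0 f1 f2 t0 t1 t2
    simp only [firstVals, Row.reach, List.forall_mem_cons, List.not_mem_nil, false_implies,
      implies_true, and_true]
    cases neg
    · exact ⟨f0, f1, f2⟩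
    · exact ⟨t0, t1, t2⟩
  simp only [firstVals, List.forall_mem_cons, em, eval_xBc P y e hc.ne'] at hW'
  obtain ⟨k0, k1, k2, -⟩ := hW'
  have eMn : (xMn R).eval [y, e] = R.base y e * (1 + y) ^ 10 := by
    rw [Rem.base, div_mul_cancel₀ _ (by positivity)]
  obtain ⟨D, eD, hD⟩ : ∃ D, (xDl P).eval [y, e] = D * (xDld P).eval [y, e] ∧
      e * D ≤ P.linD e y (P.K p s) (Ident.b0 p ^ 2) :=
    ⟨(xDl P).eval [y, e] / (xDld P).eval [y, e], (div_mul_cancel₀ _ hd1'.ne').symm,
      le_trans (le_of_eq (by ring)) hD1⟩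
  rw [eMn] at k0 k1 k2
  rw [eD] at k1 k2
  exact form_of_slope hP h hd.le hA hD (first_form hm (P.quadC_nonneg hP h) (by linarith) hmd
    (by positivity) hd1' hc hub hd hdH hd1 h.ell_le hl k0 k1 k2)

/-- A line above `u`. -/
theorem line_sound {W : Row} {L : Line} (hL : L.ok = true) (h : At p ell s t a r q u δ y e)
    (hu : u ≤ (xU W).eval [y, e]) (hd : 0 < δ)
    (hLd : 1 / 1000 ≤ (xLine W L).2.2.eval [y, e]) :
    u ≤ (xLine W L).1.eval [y, e] / (xLine W L).2.2.eval [y, e] +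
      (xLine W L).2.1.eval [y, e] / (xLine W L).2.2.eval [y, e] * δ := by
  obtain ⟨he0, he1, hy, -, hye1, hu1, -⟩ := h.basic
  cases L with
  | top => simpa [xLine] using hu
  | chord cc v0 lv =>
    simp only [Line.ok, Bool.and_eq_true, decide_eq_true_eq] at hL
    obtain ⟨hv0, hlv⟩ := lv_le hL.2
    have hcc : (cc : ℝ) / 1000 ∈ Icc (0 : ℝ) 1 :=
      ⟨by positivity, (div_le_one (by norm_num)).2 (by exact_mod_cast hL.1)⟩
    have h1 := h.chord hcc (h.lt_of_pos hd hcc.2)
    have h2 := line_of_chord (show 0 < 1 + u by linarith) hv0 hlv h1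
    simp only [xLine, Expr.eval_sub, Expr.eval_mul, Expr.eval_add, Expr.eval_num, Expr.eval_frac,
      eval_xC, eval_vY, eval_vE, eval_ov, eval_xW, eval_xqn] at hLd ⊢
    push_cast at hLd ⊢
    rw [show (cc : ℝ) ^ 2 / 1000000 = ((cc : ℝ) / 1000) ^ 2 by ring] at hLd ⊢
    set k := (cc : ℝ) / 1000 with hk
    have hD2 : 0 < 2 - (1 + k ^ 2) * (y * e) := by
      have : k ^ 2 ≤ 1 := pow_le_one₀ hcc.1 hcc.2
      have : (1 + k ^ 2) * (y * e) ≤ 2 * (y * e) :=
        mul_le_mul_of_nonneg_right (by linarith) (by positivity)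
      linarith
    have hc : 0 < 1 - y * e := by linarith
    have a1 : (1 + y * (1 - k ^ 2) / (2 - (1 + k ^ 2) * (y * e)) + (lv : ℝ) / 1000000 -
        3 / 20 * e) * (1 + u) ≤
        (1 + y * (1 - k ^ 2) / (2 - (1 + k ^ 2) * (y * e)) + (lv : ℝ) / 1000000 - ell) *
          (1 + u) :=
      mul_le_mul_of_nonneg_right (by linarith [h.ell_le]) (by linarith)
    have h3 := a1.trans (le_add_of_le_of_nonneg (sub_le_iff_le_add.1 h2) le_rfl)
    rw [add_zero] at h3
    generalize hd' : ((1 + (lv : ℝ) / 1000000 - 3 / 20 * e) * (2 - (1 + k ^ 2) * (y * e)) +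
      y * (1 - k ^ 2)) * (1 - y * e) = dd at hLd ⊢
    have hdd : 0 < dd := by linarith
    rw [div_mul_eq_mul_div _ _ δ, ← add_div, le_div_iff₀ hdd]
    have h4 := mul_le_mul_of_nonneg_right h3
      (mul_nonneg hD2.le hc.le)
    have e1 : (1 + y * (1 - k ^ 2) / (2 - (1 + k ^ 2) * (y * e)) + (lv : ℝ) / 1000000 -
        3 / 20 * e) * (1 + u) * ((2 - (1 + k ^ 2) * (y * e)) * (1 - y * e)) = dd * (1 + u) := by
      rw [← hd']
      generalize 2 - (1 + k ^ 2) * (y * e) = D2 at hD2 ⊢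
      field_simp
      ring
    have e2 : ((δ + 1 - k) * ((y + 2 * (y * e) + 1) / (1 - y * e)) + (v0 : ℝ) / 1000) *
        ((2 - (1 + k ^ 2) * (y * e)) * (1 - y * e)) =
        ((δ + 1 - k) * (y + 2 * (y * e) + 1) + (v0 : ℝ) / 1000 * (1 - y * e)) *
          (2 - (1 + k ^ 2) * (y * e)) := by
      field_simp
    rw [e1, e2] at h4
    linarith

/-- What the signs of the later segments give. -/
theorem segs_sound (hP : ParOk P) {R : Rem} {W : Row} (h : At p ell s t a r q u δ y e)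
    (hz : y * e ≤ 1 / 4) (hM : 0 ≤ e * R.base y e) (hu : 0 ≤ u)
    (huU : u ≤ (xU W).eval [y, e]) (hd : 0 < δ) (hdH : δ ≤ ell * W.reach)
    (hde : δ ≤ e * (xEnd W).eval [y, e]) :
    ∀ (L : List Seg) (x0 : Option ℕ), (∀ x ∈ allSegs P R W x0 L, 0 ≤ x.eval [y, e]) →
      segsOk x0 L = true → e * (xStop W x0).eval [y, e] < δ →
      -(ell * (e * R.base y e)) ≤ P.form p s u δ y e
  | [], x0, _, hs, h0 => by
    simp only [segsOk, Option.isNone_iff_eq_none] at hs
    subst hs
    exact absurd hde (not_le.2 h0)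
  | σ :: L, x0, hW, hs, h0 => by
    simp only [segsOk, Bool.and_eq_true] at hs
    simp only [allSegs, List.forall_mem_append] at hW
    obtain ⟨hW1, hW2⟩ := hW
    rcases lt_or_ge (e * (xStop W σ.stop).eval [y, e]) δ with h1 | h1
    · exact segs_sound hP h hz hM hu huU hd hdH hde L σ.stop hW2 hs.2 h1
    obtain ⟨he0, -, hy, -, hye1, -, -⟩ := h.basic
    obtain ⟨hd1', -, hD1, -⟩ := slope_range hP h hz
    have hc : 0 < 1 - y * e := by linarith
    simp only [segConds, List.flatMap_cons, List.flatMap_nil, List.append_nil,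
      List.forall_mem_append, List.forall_mem_cons] at hW1
    obtain ⟨⟨hsel, hLd, hLb, -⟩, ⟨f0, f1, f2, -⟩, ⟨t0, t1, t2, -⟩⟩ := hW1
    simp only [Expr.eval_sub, Expr.eval_frac] at hLd
    push_cast at hLd
    have hline := line_sound hs.1 h huU hd (by linarith)
    have hLd0 : 0 < (xLine W σ.line).2.2.eval [y, e] := by linarith
    have htop : u ≤ (xTop W σ.top).eval [y, e] := by
      cases hσ : σ.top with
      | none => exact huU
      | some top =>
        simp only [hσ, List.forall_mem_cons] at hsel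
        obtain ⟨h2, -⟩ := hsel
        simp only [Expr.eval_sub, Expr.eval_mul, Expr.eval_add, eval_xC, eval_vE] at h2
        refine hline.trans ?_
        rw [div_mul_eq_mul_div, ← add_div, div_le_iff₀ hLd0]
        have := mul_le_mul_of_nonneg_left h1 hLb
        refine le_of_mul_le_mul_left ?_ hc
        refine le_trans ?_ (le_trans (sub_nonneg.1 h2) (le_of_eq (by ring)))
        exact mul_le_mul_of_nonneg_left (by linarith) hc.le
    obtain ⟨neg, m, hm, hmd, em, hA⟩ := slope_le hP h hz _ hu htop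
    simp only [Expr.eval_sub, Expr.eval_mul, Expr.eval_add, Expr.eval_pow, Expr.eval_num,
      Expr.eval_frac, Expr.eval_neg, eval_xC, eval_vE, eval_ov, eval_xMd, eval_xCq]
      at f0 f1 f2 t0 t1 t2
    push_cast at f0 f1 f2 t0 t1 t2
    have hW' : ∀ v ∈ segVals e y ((xMn R).eval [y, e]) ((xmd P (xTop W σ.top)).eval [y, e])
        ((xm P (xTop W σ.top) neg).eval [y, e]) ((xLine W σ.line).1.eval [y, e])
        ((xLine W σ.line).2.1.eval [y, e]) ((xLine W σ.line).2.2.eval [y, e]) W.reach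
        (e * (xStop W x0).eval [y, e]) (e * (xStop W σ.stop).eval [y, e])
        ((xDld P).eval [y, e]) ((xDl P).eval [y, e]) ((xBc P).eval [y, e]) (P.quadC e y),
        0 ≤ v := by
      simp only [segVals, Row.reach, List.forall_mem_cons, List.not_mem_nil, false_implies,
        implies_true, and_true]
      cases neg
      · exact ⟨f0, f1, f2⟩
      · exact ⟨t0, t1, t2⟩
    simp only [segVals, List.forall_mem_cons, em, eval_xBc P y e hc.ne'] at hW'
    obtain ⟨k0, k1, k2, -⟩ := hW'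
    have eMn : (xMn R).eval [y, e] = R.base y e * (1 + y) ^ 10 := by
      rw [Rem.base, div_mul_cancel₀ _ (by positivity)]
    obtain ⟨D, eD, hD⟩ : ∃ D, (xDl P).eval [y, e] = D * (xDld P).eval [y, e] ∧
        e * D ≤ P.linD e y (P.K p s) (Ident.b0 p ^ 2) :=
      ⟨(xDl P).eval [y, e] / (xDld P).eval [y, e], (div_mul_cancel₀ _ hd1'.ne').symm,
        le_trans (le_of_eq (by ring)) hD1⟩
    rw [eMn, eD] at k0 k1 k2
    exact form_of_slope hP h hd.le hA hD (seg_form hm (P.quadC_nonneg hP h) hM hmd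
      (by positivity) hd1' hc hLd0 hline hd hdH h0.le h1 h.ell_nonneg ⟨k0, k1, k2⟩)

/-- A row. -/
theorem row_sound (hP : ParOk P) {R : Rem} {W : Row}
    (hW : ∀ x ∈ rowConds P R W, 0 ≤ x.eval [y, e]) (hs : rowSide W = true)
    (hroot : W.near = false → ∀ x ∈ Icc (0 : ℝ) 1, 0 ≤ (rootPoly W.mn W.fn).eval [x])
    (h : At p ell s t a r q u δ y e) (hy0 : (W.y0 : ℝ) / 1000 ≤ y) (hz : y * e ≤ 1 / 4) :
    ell * wS p (arc s) - ell * (e * R.base y e) ≤ P.cell p ell s t a r := by
  simp only [rowConds, List.forall_mem_append] at hW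
  obtain ⟨⟨⟨⟨hb, hback⟩, hdown⟩, hfirst⟩, hsegs⟩ := hW
  obtain ⟨hu, hdb⟩ := row_bounds hb hs h hy0
  have hle := P.form_le hP h
  rcases le_or_gt u 0 with hu0 | hu0
  · cases hn : W.near with
    | true => linarith [down_near hP hdown hn h hz hu0 hdb]
    | false => exact down_log hP hdown hn (hroot hn) h hz hu0 hdb
  rcases le_or_gt δ 0 with hd | hd
  · linarith [back_form hP hback h hz hu0.le hd]
  obtain ⟨hdH, hde⟩ := hdb hd
  rcases le_or_gt δ (e * (xStop W W.x1).eval [y, e]) with h1 | h1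
  · linarith [first_sound hP hfirst h hz hu0.le hu hd hdH h1]
  obtain ⟨-, -, -, -, -, -, -, -, -, k0, -⟩ := down_common hP hdown h hz
  simp only [rowSide, Bool.and_eq_true] at hs
  linarith [segs_sound hP h hz k0 hu0.le hu hd hdH hde W.segs W.x1 hsegs hs.2 h1]

end Vale.Agent.P237.Petty.Cor.Tiny100
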