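import Vale.Agent.P237.Petty.Cor.Tiny100.Coef
import Mathlib.Analysis.Convex.SpecificFunctions.Basic

/-!
# P237: what the signs of a row give for `1 / r` and for the mass below the abscissa
-/

namespace Vale.Agent.P237.Petty.Cor.Tiny100

open Vale.Agent.P100.Bernstein
open Set
open Lift (circLow)

variable {p : ℕ} {ell s t a r q u δ y e : ℝ}

/-- The bases of tangents with lower bounds of their logarithms. -/
def lvTable : List (ℕ × ℕ) :=
  [(1000, 0), (1050, 48789), (1100, 95309), (1150, 139760), (1200, 182319), (1300, 262361),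
    (1400, 336468), (1500, 405461), (2000, 693140)]

theorem lv_le {v0 lv : ℕ} (h : (v0, lv) ∈ lvTable) :
    0 < (v0 : ℝ) / 1000 ∧ (lv : ℝ) / 1000000 ≤ Real.log ((v0 : ℝ) / 1000) := by
  simp only [lvTable, List.mem_cons, Prod.mk.injEq, List.not_mem_nil, or_false] at h
  rcases h with ⟨rfl, rfl⟩ | ⟨rfl, rfl⟩ | ⟨rfl, rfl⟩ | ⟨rfl, rfl⟩ | ⟨rfl, rfl⟩ | ⟨rfl, rfl⟩ |
    ⟨rfl, rfl⟩ | ⟨rfl, rfl⟩ | ⟨rfl, rfl⟩ <;> push_cast
  all_goals refine ⟨by norm_num, (Real.le_log_iff_exp_le (by norm_num)).2 ?_⟩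
  all_goals refine (Real.exp_bound' (by norm_num) (by norm_num) (n := 12) (by norm_num)).trans ?_
  all_goals simp only [Finset.sum_range_succ, Finset.sum_range_zero]
  all_goals norm_num [Nat.factorial]

/-- The side condition of a line. -/
def Line.ok : Line → Bool
  | .top => true
  | .chord cc v0 lv => decide (cc ≤ 1000) && decide ((v0, lv) ∈ lvTable)

/-- The side conditions of the segments. -/
def segsOk : Option ℕ → List Seg → Bool
  | x0, [] => x0.isNone
  | _, σ :: L => σ.line.ok && segsOk σ.stop L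

/-- The side conditions of a bound of `1 / r`. -/
def VKind.ok : VKind → Bool
  | .pow => true
  | .hazard x _ => decide (0 < x)

/-- The side conditions of a row. -/
def rowSide (W : Row) : Bool := W.vk.ok && segsOk W.x1 W.segs

theorem exp_le_xExp (k : ℕ) (y e : ℝ) :
    Real.exp ((k : ℝ) / 64) ≤ (xExp k).eval [y, e] := by
  have h1 : Real.exp (1 / 4) ≤ 1284026 / 1000000 := by
    refine (Real.exp_bound' (by norm_num) (by norm_num) (n := 9) (by norm_num)).trans ?_
    simp only [Finset.sum_range_succ, Finset.sum_range_zero]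
    norm_num [Nat.factorial]
  have h2 : Real.exp (1 / 64) ≤ 1015748 / 1000000 := by
    refine (Real.exp_bound' (by norm_num) (by norm_num) (n := 6) (by norm_num)).trans ?_
    simp only [Finset.sum_range_succ, Finset.sum_range_zero]
    norm_num [Nat.factorial]
  have e1 : Real.exp ((k : ℝ) / 64) = Real.exp (1 / 4) ^ (k / 16) * Real.exp (1 / 64) ^ (k % 16) := by
    rw [← Real.exp_nat_mul, ← Real.exp_nat_mul, ← Real.exp_add]
    congr 1
    have : (k : ℝ) = 16 * ((k / 16 : ℕ) : ℝ) + ((k % 16 : ℕ) : ℝ) := by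
      exact_mod_cast (Nat.div_add_mod k 16).symm
    linarith
  simp only [e1, xExp, Expr.eval_mul, Expr.eval_pow, Expr.eval_frac]
  push_cast
  exact mul_le_mul (pow_le_pow_left₀ (Real.exp_pos _).le h1 _)
    (pow_le_pow_left₀ (Real.exp_pos _).le h2 _) (by positivity) (by positivity)

/-- The mass below the abscissa as bounded on the row. -/
noncomputable def Row.mass (W : Row) (y e : ℝ) : ℝ :=
  (W.hA : ℝ) / 1000 + (W.hB : ℝ) / 1000 * (1 / 2 * y + (W.kap : ℝ) / 1000 * (y ^ 2 * e))

theorem mass_bound {W : Row} (hW : ∀ x ∈ boundConds W, 0 ≤ x.eval [y, e])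
    (h : At p ell s t a r q u δ y e) (hy0 : (W.y0 : ℝ) / 1000 ≤ y) :
    circLow p s ≤ W.mass y e * (s * arc s ^ (p + 1)) := by
  obtain ⟨he0, -, hy, -, hye1, -, -⟩ := h.basic
  have hc : 0 < 1 - y * e := by linarith
  cases hk : W.hk with
  | series =>
    simp only [boundConds, hk, List.forall_mem_cons, List.forall_mem_append] at hW
    obtain ⟨⟨⟨h1, h2, -⟩, -⟩, -⟩ := hW
    simp only [Expr.eval_sub, Expr.eval_mul, Expr.eval_add, Expr.eval_pow, Expr.eval_num,
      Expr.eval_frac, eval_xC, eval_vY, eval_vE, eval_ov] at h1 h2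
    push_cast at h1 h2
    have h8 : y / (1 - y * e) ≤ 8 := by rw [div_le_iff₀ hc]; linarith
    refine h.low_series h8 ?_
    refine le_of_mul_le_mul_left ?_
      (mul_pos (show (0 : ℝ) < 8511477975 by norm_num) (pow_pos hc 10))
    refine le_trans (le_of_eq ?_) (le_trans (sub_nonneg.1 h2) (le_of_eq ?_))
    · unfold Tiny.lowSer
      field_simp
      ring
    · unfold Row.mass
      ring
  | expo ka kb f =>
    simp only [boundConds, hk, List.forall_mem_cons, List.forall_mem_append] at hW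
    obtain ⟨⟨⟨hX1, hX2, hkap, hf, ha, hb, -⟩, -⟩, -⟩ := hW
    simp only [Expr.eval_sub, Expr.eval_mul, Expr.eval_add, Expr.eval_pow, Expr.eval_num,
      Expr.eval_frac, eval_xC, eval_vY, eval_vE, eval_ov] at hX1 hX2 hkap hf ha hb
    push_cast at hX1 hX2 hkap hf ha hb
    have h6 : 0 < 6 - 2 * (y * e) := by linarith
    refine h.low_expo (f := (f : ℝ) / 1000)
      (X := 1 / 2 * y + (W.kap : ℝ) / 1000 * (y ^ 2 * e)) (by positivity)
      ((sub_nonneg.1 hf).trans (mul_le_mul_of_nonneg_left hy0 (sq_nonneg _))) ?_ ?_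
    · have e1 : y / 2 * ((6 - 5 * (y * e)) / ((1 - y * e) * (6 - 2 * (y * e)))) =
          1 / 2 * y + y / 2 * (y * e) * ((3 - 2 * (y * e)) / ((1 - y * e) * (6 - 2 * (y * e)))) := by
        have e0 : ∀ z : ℝ, z < 1 → (6 - 5 * z) / ((1 - z) * (6 - 2 * z)) =
            1 + z * ((3 - 2 * z) / ((1 - z) * (6 - 2 * z))) := fun z hz => by
          have : (1 - z) * (6 - 2 * z) ≠ 0 := (mul_pos (by linarith) (by linarith)).ne'
          rw [← mul_div_assoc, one_add_div this]
          congr 1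
          ring
        rw [e0 _ hye1]
        ring
      rw [e1]
      refine add_le_add le_rfl (le_trans (mul_le_mul_of_nonneg_left (show _ ≤ 2 * ((W.kap : ℝ) / 1000)
        by rw [div_le_iff₀ (mul_pos hc h6)]; linarith) (by positivity)) (le_of_eq ?_))
      ring
    · set X := 1 / 2 * y + (W.kap : ℝ) / 1000 * (y ^ 2 * e) with hX
      obtain ⟨v, w, hv, hw, hvw, eX⟩ := exists_weights (y := X) (sub_nonneg.1 hX1)
        (sub_nonneg.1 hX2)
      have hexp := convexOn_exp.2 (mem_univ ((ka : ℝ) / 64)) (mem_univ ((kb : ℝ) / 64)) hv hw hvw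
      simp only [smul_eq_mul] at hexp
      rw [show v * ((ka : ℝ) / 64) + w * ((kb : ℝ) / 64) = X by linarith] at hexp
      have hf0 : 0 ≤ (f : ℝ) / 1000 := by positivity
      have a1 := mul_le_mul_of_nonneg_left hexp hf0
      have a2 := mul_le_mul_of_nonneg_left (exp_le_xExp ka y e) (mul_nonneg hf0 hv)
      have a3 := mul_le_mul_of_nonneg_left (exp_le_xExp kb y e) (mul_nonneg hf0 hw)
      have a4 := mul_nonneg hv ha
      have a5 := mul_nonneg hw hb
      have a6 : (W.hA : ℝ) / 1000 * (v + w) = (W.hA : ℝ) / 1000 := by rw [hvw, mul_one]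
      have e2 : (W.hB : ℝ) / 1000 * X =
          (W.hB : ℝ) / 1000 * ((ka : ℝ) / 64 * v + (kb : ℝ) / 64 * w) := by rw [← eX]
      unfold Row.mass
      rw [← hX]
      linarith

theorem last_bounds {W : Row} (hW : ∀ x ∈ boundConds W, 0 ≤ x.eval [y, e]) :
    W.mass y e ≤ (W.hc : ℝ) / 1000 ∧ 1 + (xU W).eval [y, e] ≤ ((W.sv : ℝ) / 1000) ^ 2 := by
  simp only [boundConds, List.forall_mem_cons, List.forall_mem_append] at hW
  obtain ⟨-, h1, h2, -⟩ := hW
  simp only [Expr.eval_sub, Expr.eval_mul, Expr.eval_add, Expr.eval_pow, Expr.eval_num,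
    Expr.eval_frac, eval_vY, eval_vE, eval_ov] at h1 h2
  push_cast at h1 h2
  exact ⟨by unfold Row.mass; linarith, by linarith⟩

theorem rate_bound {W : Row} (hW : ∀ x ∈ boundConds W, 0 ≤ x.eval [y, e]) (hs : rowSide W = true)
    (h : At p ell s t a r q u δ y e) (hy0 : (W.y0 : ℝ) / 1000 ≤ y) :
    u ≤ (xU W).eval [y, e] := by
  obtain ⟨he0, he1, hy, -, hye1, -, -⟩ := h.basic
  have hm := mass_bound hW h hy0
  have hm0 : 0 ≤ W.mass y e := by
    refine nonneg_of_mul_nonneg_left (le_trans ?_ hm)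
      (mul_pos h.state.state.s_mem.1 (pow_pos h.state.state.arc_pos' _))
    exact intervalIntegral.integral_nonneg h.state.state.s_mem.1.le
      fun v _ => pow_nonneg (Real.sqrt_nonneg _) _
  have hc : 0 < 1 - y * e := by linarith
  have hE := (h.exp_le).1
  cases hk : W.vk with
  | pow =>
    simp only [boundConds, hk, List.forall_mem_cons, List.forall_mem_append] at hW
    obtain ⟨⟨-, h1, -⟩, -⟩ := hW
    simp only [Expr.eval_sub, Expr.eval_mul, Expr.eval_add, Expr.eval_pow, Expr.eval_num,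
      Expr.eval_frac, eval_xC, eval_vY, eval_vE, eval_ov, eval_xE, eval_xqn, eval_xW] at h1
    push_cast at h1
    have h2 := h.v_pow hE hm0 hm
    have h3 : (1 + 3 / 20 * e * (1 + 3 / 20 * e)) *
        (1 + 3 / 20 * e * W.mass y e * ((y + 2 * (y * e) + 1) / (1 - y * e))) ≤
          1 + (xU W).eval [y, e] := by
      refine le_of_mul_le_mul_left ?_ hc
      refine le_trans (le_of_eq ?_) (le_trans (sub_nonneg.1 h1) (le_of_eq (mul_comm _ _)))
      unfold Row.mass
      field_simp
    linarith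
  | hazard x k =>
    simp only [rowSide, hk, VKind.ok, Bool.and_eq_true, decide_eq_true_eq] at hs
    simp only [boundConds, hk, List.forall_mem_cons, List.forall_mem_append] at hW
    obtain ⟨⟨-, h1, h2, h3, h4, h5, h6, -⟩, -⟩ := hW
    simp only [Expr.eval_sub, Expr.eval_mul, Expr.eval_add, Expr.eval_pow, Expr.eval_num,
      Expr.eval_frac, eval_xC, eval_vY, eval_vE, eval_ov, eval_xE, eval_xqn, eval_xW]
      at h1 h2 h3 h4 h5 h6
    push_cast at h1 h2 h3 h4 h5 h6
    obtain ⟨X, hX, hX0⟩ : ∃ X : ℝ, (x : ℝ) / 4 = X ∧ 0 < X :=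
      ⟨_, rfl, div_pos (by exact_mod_cast hs.1) four_pos⟩
    have hX2 : (x : ℝ) ^ 2 / 16 = X ^ 2 := by rw [← hX]; ring
    simp only [hX, hX2] at h1 h2 h3 h4 h5 h6
    set sy := (W.sa : ℝ) / 1000 + (W.sb : ℝ) / 1000000 * y with hsy
    have hsy0 : 0 < sy := by linarith
    have hk0 : 0 ≤ (k : ℝ) / 64 := by positivity
    have hXl : X ^ 2 ≤ 2 * (1 - X ^ 2 / 99) * ((k : ℝ) / 64) := by linarith
    have h99 : X ^ 2 / 99 < 1 := by
      by_contra hge
      have : 2 * (1 - X ^ 2 / 99) * ((k : ℝ) / 64) ≤ 0 :=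
        mul_nonpos_of_nonpos_of_nonneg (by linarith [not_lt.1 hge]) hk0
      nlinarith
    have hXe : X ^ 2 * e ≤ X ^ 2 / 99 := by
      have := mul_le_mul_of_nonneg_left he1 (sq_nonneg X)
      linarith
    have hC : Real.exp (X ^ 2 / (2 * (1 - X ^ 2 * e))) ≤ (xExp k).eval [y, e] := by
      refine le_trans (Real.exp_le_exp.2 ?_) (exp_le_xExp k y e)
      rw [div_le_iff₀ (by linarith)]
      have := mul_le_mul_of_nonneg_right (sub_le_sub_left hXe 1) hk0
      linarith
    have hv := h.v_hazard hE hX0 (by linarith) hsy0 (by linarith) hC (by linarith)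
    have hden : 0 < (1 - y * e) * (X * (1 + 2 * e) * (X ^ 2 * (1 + 2 * e) + 3)) * sy := by positivity
    have hE0 : 0 < 1 + 3 / 20 * e * (1 + 3 / 20 * e) := by positivity
    rw [mul_max_of_nonneg _ _ hE0.le] at hv
    rcases le_max_iff.1 hv with hv | hv
    · linarith
    · refine le_of_add_le_add_left (a := 1) (hv.trans ?_)
      rw [mul_div_assoc', div_le_iff₀ hden]
      linarith

/-- All bounds of a row. -/
theorem row_bounds {W : Row} (hW : ∀ x ∈ boundConds W, 0 ≤ x.eval [y, e])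
    (hs : rowSide W = true) (h : At p ell s t a r q u δ y e) (hy0 : (W.y0 : ℝ) / 1000 ≤ y) :
    u ≤ (xU W).eval [y, e] ∧ (0 < δ →
      δ ≤ ell * ((W.hc : ℝ) / 1000 * ((W.sv : ℝ) / 1000) * (1001 / 1000)) ∧
        δ ≤ e * (xEnd W).eval [y, e]) := by
  obtain ⟨he0, -, hy, -, -, -, -⟩ := h.basic
  have hu := rate_bound hW hs h hy0
  have hm := mass_bound hW h hy0
  obtain ⟨hm1, hsv⟩ := last_bounds hW
  have hA := mul_pos h.state.state.s_mem.1 (pow_pos h.state.state.arc_pos' (p + 1))
  have hm0 : 0 ≤ W.mass y e := by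
    refine nonneg_of_mul_nonneg_left (le_trans ?_ hm) hA
    exact intervalIntegral.integral_nonneg h.state.state.s_mem.1.le
      fun v _ => pow_nonneg (Real.sqrt_nonneg _) _
  refine ⟨hu, fun hd => ⟨?_, ?_⟩⟩
  · exact h.box_hi hd (by positivity) (by positivity) (by linarith)
      (hm.trans (mul_le_mul_of_nonneg_right hm1 hA.le))
  · refine (h.box_hi hd hm0 (by positivity) (by linarith) hm (sv := (W.sv : ℝ) / 1000)).trans ?_
    refine (mul_le_mul_of_nonneg_right h.ell_le (by positivity)).trans (le_of_eq ?_)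
    simp only [xEnd, Expr.eval_mul, Expr.eval_add, Expr.eval_pow,
      Expr.eval_frac, eval_vY, eval_vE, eval_ov, eval_xW, Row.mass]
    push_cast
    ring

end Vale.Agent.P237.Petty.Cor.Tiny100
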