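import Vale.Agent.P237.Petty.Cor.Tiny100.BulkRow

/-!
# P237: the remainder of the cell near zero and its two-variable forms in the bulk
-/

namespace Vale.Agent.P237.Petty.Cor.Tiny100

open Vale.Agent.P100.Bernstein
open Set

variable {p : ℕ} {ell s t a r q u δ y e : ℝ}

/-- The remainder over `e`, without the part of the tail. -/
noncomputable def Rem.base (R : Rem) (y e : ℝ) : ℝ := (xMn R).eval [y, e] / (1 + y) ^ 10

/-- The part of the tail of the remainder. -/
noncomputable def Rem.tail (R : Rem) (y e : ℝ) : ℝ :=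
  (R.gn : ℝ) * e * (y / 24) ^ 10 / (1 - y * e)

/-- The remainder. -/
noncomputable def Rem.val (R : Rem) (p : ℕ) (s : ℝ) : ℝ :=
  eps p * R.base (((p : ℝ) + 1) * s ^ 2) (eps p) + R.tail (((p : ℝ) + 1) * s ^ 2) (eps p)

theorem Rem.val_eq (R : Rem) (h : At p ell s t a r q u δ y e) :
    R.val p s = e * R.base y e + R.tail y e ∧ 0 ≤ R.tail y e := by
  obtain ⟨he0, -, hy, -, hye1, -, -⟩ := h.basic
  refine ⟨by rw [Rem.val, h.y_eq, h.e_eq], ?_⟩
  have : 0 ≤ 1 - y * e := by linarith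
  unfold Rem.tail
  positivity

namespace Par

variable (P : Par)

/-- The cancelled cell of the record. -/
noncomputable def cell (p : ℕ) (ell s t a r : ℝ) : ℝ :=
  cancelExpr p (P.gam p) (P.nu p) ell (fun s t => s + P.g * (s - t)) (fun _ _ => 1 + P.g)
    (fun _ _ => -P.g) (quadPot (P.potK p) (P.potB p))
    (quadPotS (P.potK p) (P.potK' p) (P.potB p) (P.potB' p))
    (quadPotT (P.potK p) (P.potB p)) s t a r

/-- The quadratic below the cell. -/
noncomputable def form (p : ℕ) (s u δ y e : ℝ) : ℝ :=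
  -(P.mu p s) * u + P.linD e y (P.K p s) (Ident.b0 p ^ 2) * δ +
    P.quadA e y (P.nu p) (P.K p s) (1 + u) * (u ^ 2 / (1 + u)) +
    P.quadB e y (P.nu p) * δ ^ 2 - 2 * P.quadC e y * (u * δ)

variable {P}

theorem form_le (hP : ParOk P) (h : At p ell s t a r q u δ y e) :
    ell * wS p (arc s) + P.form p s u δ y e ≤ P.cell p ell s t a r := by
  obtain ⟨hF, hg, -⟩ := P.facts hP
  obtain ⟨h1, h2, -⟩ := P.mult_bounds hP h.big
  have := P.quad_le (ell := ell) hF hg (h1.trans h2) h.state h.u_eq h.d_eq h.y_eq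
  rw [h.e_eq] at this
  exact this

theorem quadC_nonneg (hP : ParOk P) (h : At p ell s t a r q u δ y e) : 0 ≤ P.quadC e y := by
  obtain ⟨-, -, hy, -, hye1, -, -⟩ := h.basic
  obtain ⟨-, -, -, ha, hb, -⟩ := P.facts hP
  have : 0 ≤ 1 - y * e := by linarith
  unfold Par.quadC
  positivity

theorem mu_eq (h : At p ell s t a r q u δ y e) (hz : y * e ≤ 1 / 4) :
    P.mu p s = e * P.hump y := by
  obtain ⟨-, -, -, hye, -, -, -⟩ := h.basic
  rw [Par.mu, (P.lift_zero (hye ▸ hz)).1, mul_zero, zero_add, h.y_eq, h.e_eq]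

end Par

variable {P : Par}

theorem eval_xmd (U : Expr) : (xmd P U).eval [y, e] = (P.F + y ^ 2) *
    (4 * (1 - y * e) * (3 + U.eval [y, e]) * (1 + U.eval [y, e])) := by
  simp [xmd, eval_xQ, eval_xC]

/-- The slope in `u` on `0 ≤ u ≤ U`. -/
theorem slope_le (hP : ParOk P) (h : At p ell s t a r q u δ y e) (hz : y * e ≤ 1 / 4) (U : Expr)
    (hu0 : 0 ≤ u) (huU : u ≤ U.eval [y, e]) :
    ∃ (neg : Bool) (m : ℝ), 0 ≤ m ∧ 0 < (xmd P U).eval [y, e] ∧
      (xm P U neg).eval [y, e] = m * (xmd P U).eval [y, e] ∧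
      -m * u ≤ -(P.mu p s) * u +
        P.quadA e y (P.nu p) (P.K p s) (1 + u) * (u ^ 2 / (1 + u)) := by
  obtain ⟨he0, -, hy, -, hye1, hu, -⟩ := h.basic
  obtain ⟨hF, hg, -⟩ := P.facts hP
  have hh := mul_nonneg he0.le (P.hump_nonneg hP y)
  set V := U.eval [y, e] with hV
  have hc : 0 < 1 - y * e := by linarith
  have hQ : 0 < P.F + y ^ 2 := by positivity
  have hV0 : 0 ≤ V := hu0.trans huU
  have hmd : 0 < (xmd P U).eval [y, e] := by rw [eval_xmd, ← hV]; positivity
  have hd : 0 < 4 * (1 - y * e) * (3 + V) := by positivity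
  have hA := P.quadA_ge hP h huU
  set A1 := (xAn P U).eval [y, e] / (4 * (1 - y * e) * (3 + V)) with hA1
  have eA : (xAn P U).eval [y, e] = A1 * (4 * (1 - y * e) * (3 + V)) := by
    rw [hA1, div_mul_cancel₀ _ hd.ne']
  have hA' : A1 ≤ P.quadA e y (P.nu p) (P.K p s) (1 + u) := by
    refine le_trans (le_of_eq ?_) hA
    rw [hA1]
    simp [xAn, eval_xC, eval_xG, eval_xg, eval_xNl, eval_xNh, eval_xS P y e (by
      have := hP.g_gt; omega), eval_xRh, ← hV]
    field_simp
  have hq : 0 ≤ u ^ 2 / (1 + u) := div_nonneg (sq_nonneg u) (by linarith)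
  rw [P.mu_eq h hz]
  rcases le_total 0 A1 with h1 | h1
  · refine ⟨false, e * P.hump y, hh, hmd, ?_, ?_⟩
    · rw [eval_xmd, ← hV]
      simp [xm, eval_xC, eval_xHq P y e hQ.ne', ← hV]
      ring
    · linarith [mul_nonneg (h1.trans hA') hq]
  · have hα : 0 ≤ -A1 * V / (1 + V) :=
      div_nonneg (mul_nonneg (by linarith) hV0) (by linarith)
    refine ⟨true, e * P.hump y + -A1 * V / (1 + V), add_nonneg hh hα, hmd, ?_, ?_⟩
    · rw [eval_xmd, ← hV]
      simp [xm, eval_xC, eval_xQ, eval_xHq P y e hQ.ne', ← hV, eA]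
      field_simp
      ring
    · have := curv_ge hA' hα (le_of_eq (by field_simp)) hu0 huU
      linarith

/-- The slope of the cut for negative displacements. -/
noncomputable def backK (hump : Bool) (y e : ℝ) : ℝ :=
  if hump then (2 * y * (y + 2 * (y * e) + 3) * (1 - 2 * (3 / 20) * e ^ 2) -
    3 / 20 * e * ((1 - y * e) * (y + 3 * (y * e) + 2))) / (2 * (1 - y * e) * (y + 2 * (y * e) + 3))
  else 0

/-- The factor of the value for `δ ≤ 0 ≤ u`. -/
noncomputable def backE (e : ℝ) : ℝ := 1 + 3 / 20 * e * (1 + 3 / 20 * e * (1 + 3 / 20 * e))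

theorem back_u (h : At p ell s t a r q u δ y e) {hump : Bool} (hu : 0 ≤ u) (hd : δ ≤ 0)
    (hk : 0 ≤ backK hump y e) :
    1 + u ≤ backE e ∧ u ≤ backE e * ell - backK hump y e * -δ := by
  obtain ⟨he0, -, hy, -, hye1, -, hr⟩ := h.basic
  have hl := h.ell_nonneg
  have hs := h.state.state.s_mem.1
  have hts : t ≤ s := by
    have := (div_le_iff₀ hs).1 (h.d_eq ▸ hd : (t - s) / s ≤ 0); linarith
  have h1 := h.state.inv_rate_le_exp hts
  have h5 : Real.exp ell * (1 - ell) ≤ 1 := by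
    have := mul_le_mul_of_nonneg_left (show 1 - ell ≤ Real.exp (-ell) by
      linarith [Real.add_one_le_exp (-ell)]) (Real.exp_pos ell).le
    rwa [← Real.exp_add, add_neg_cancel, Real.exp_zero] at this
  have hE : Real.exp ell ≤ backE e := by
    refine (h.exp_le).1.trans ?_
    have : 0 < 3 / 20 * e := by positivity
    unfold backE
    nlinarith [mul_pos (mul_pos this this) this]
  have hE1 : 1 + u ≤ backE e := by linarith
  refine ⟨hE1, ?_⟩
  cases hump with
  | false =>
    have := mul_le_mul_of_nonneg_right hE hl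
    simp only [backK, Bool.false_eq_true, ↓reduceIte, zero_mul, sub_zero]
    linarith
  | true =>
    have hc : 0 < 1 - y * e := by linarith
    have hcut := h.u_cut
    rw [abs_of_nonpos (mul_nonpos_of_nonneg_of_nonpos (div_nonneg hy.le hc.le) hd)] at hcut
    have hTd : 0 < y + 2 * (y * e) + 3 := by positivity
    obtain ⟨T, hT, eT⟩ : ∃ T, 0 ≤ T ∧
        (1 - y * e) * (y + 3 * (y * e) + 2) / (y + 2 * (y * e) + 3) = T :=
      ⟨_, by positivity, rfl⟩
    have hX := h.box_lo
    rw [eT] at hX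
    have eK : backK true y e =
        y / (1 - y * e) * (1 - 2 * (3 / 20 * e) * e) - 3 / 20 * e * T / (1 - y * e) / 2 := by
      rw [← eT]
      simp only [backK, ↓reduceIte]
      field_simp
    rw [eK] at hk ⊢
    have hyX : y * -δ ≤ 3 / 20 * e * T := hX.trans (mul_le_mul_of_nonneg_right h.ell_le hT)
    have h2 : (y / (1 - y * e) * (1 - 2 * (3 / 20 * e) * e) -
        3 / 20 * e * T / (1 - y * e) / 2) * -δ ≤
        -(y / (1 - y * e) * δ + -(y / (1 - y * e) * δ) * (2 * ell * e) +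
          y / (1 - y * e) * δ ^ 2 / 2) := by
      have a1 : 0 ≤ y / (1 - y * e) * (2 * e) * (3 / 20 * e - ell) * -δ :=
        mul_nonneg (mul_nonneg (by positivity) (by linarith [h.ell_le])) (by linarith)
      have a2 := mul_le_mul_of_nonneg_left hyX
        (show 0 ≤ -δ / (1 - y * e) / 2 from div_nonneg (div_nonneg (by linarith) hc.le) two_pos.le)
      have a3 : y / (1 - y * e) * δ ^ 2 / 2 = -δ / (1 - y * e) / 2 * (y * -δ) := by
        field_simp
      rw [a3]
      linear_combination a1 + a2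
    generalize y / (1 - y * e) * (1 - 2 * (3 / 20 * e) * e) -
      3 / 20 * e * T / (1 - y * e) / 2 = κ at hk h2 ⊢
    have hXκ : 0 ≤ κ * -δ := mul_nonneg hk (by linarith)
    nlinarith [mul_le_mul_of_nonneg_left h2 (show 0 ≤ 1 + u by linarith),
      mul_le_mul_of_nonneg_right hE1 hl, mul_nonneg hu hXκ]

/-- The three values that a row tests for `δ ≤ 0 ≤ u`. -/
noncomputable def backVals (e y Mn md m k Dd Dn Bc : ℝ) : List ℝ :=
  let Td := y + 2 * (y * e) + 3
  let Tn := (1 - y * e) * (y + 3 * (y * e) + 2)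
  let cT := 2 * (1 - y * e) * Td
  let n0 := e * Mn * md - m * backE e * (1 + y) ^ 10
  let n1 := y * Dd * cT * Td * n0 +
    Tn * (m * (1 + y) ^ 10 * Dd * (k * cT) - e * Dn * md * (1 + y) ^ 10 * cT)
  [n0, n1, y * n1 * (1 - y * e) +
    3 / 20 * e * Tn ^ 2 * Bc * md * (1 + y) ^ 10 * Dd * (2 * (1 - y * e))]

theorem back_vals {R : Rem} {hump : Bool} (hc : 1 - y * e ≠ 0)
    (hT : y + 2 * (y * e) + 3 ≠ 0)
    (hW : ∀ x ∈ backConds P R hump, 0 ≤ x.eval [y, e]) (neg : Bool) :
    (∀ v ∈ backVals e y ((xMn R).eval [y, e]) ((xmd P (xW * vE * xE)).eval [y, e])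
        ((xm P (xW * vE * xE) neg).eval [y, e]) (backK hump y e) ((xDhd P).eval [y, e])
        ((xDh P).eval [y, e]) ((xBc P).eval [y, e]), 0 ≤ v) ∧
      (hump = true → 0 ≤ backK hump y e * (2 * (1 - y * e) * (y + 2 * (y * e) + 3))) := by
  have ek : backK true y e * (2 * (1 - y * e) * (y + 2 * (y * e) + 3)) =
      2 * y * (y + 2 * (y * e) + 3) * (1 - 2 * (3 / 20) * e ^ 2) -
        3 / 20 * e * ((1 - y * e) * (y + 3 * (y * e) + 2)) := by
    simp only [backK, ↓reduceIte]
    exact div_mul_cancel₀ _ (mul_ne_zero (mul_ne_zero two_ne_zero hc) hT)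
  have ek0 : backK false y e = 0 := by simp [backK]
  simp only [backConds, List.flatMap_cons, List.flatMap_nil, List.append_nil,
    List.forall_mem_append] at hW
  simp only [backVals, List.forall_mem_cons, List.not_mem_nil, false_implies, implies_true,
    and_true]
  cases hump <;>
  · simp only [Bool.false_eq_true, ↓reduceIte, List.forall_mem_cons, List.not_mem_nil,
      false_implies, implies_true, and_true, Expr.eval_sub, Expr.eval_mul, Expr.eval_add,
      Expr.eval_pow, Expr.eval_num, eval_xW, eval_vY, eval_vE, eval_xTd, eval_xTn, eval_xE,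
      eval_xC, eval_xMd] at hW ⊢
    push_cast at hW
    simp only [ek, ek0, zero_mul, forall_const]
    unfold backE
    cases neg
    · exact ⟨hW.1.1, by first | exact hW.1.2 | trivial⟩
    · exact ⟨hW.2.1, by first | exact hW.2.2 | trivial⟩

/-- What the signs of `δ ≤ 0 ≤ u` give. -/
theorem back_form (hP : ParOk P) {R : Rem} {hump : Bool}
    (hW : ∀ x ∈ backConds P R hump, 0 ≤ x.eval [y, e]) (h : At p ell s t a r q u δ y e)
    (hz : y * e ≤ 1 / 4) (hu : 0 ≤ u) (hd : δ ≤ 0) :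
    -(ell * (e * R.base y e)) ≤ P.form p s u δ y e := by
  obtain ⟨he0, -, hy, -, hye1, -, -⟩ := h.basic
  obtain ⟨-, hd2, -, hD2⟩ := slope_range hP h hz
  have hc : 0 < 1 - y * e := by linarith
  have hTd : 0 < y + 2 * (y * e) + 3 := by positivity
  have hk : 0 ≤ backK hump y e := by
    cases hump
    · simp [backK]
    · exact nonneg_of_mul_nonneg_left ((back_vals hc.ne' hTd.ne' hW false).2 rfl) (by positivity)
  obtain ⟨hu1, hu2⟩ := back_u h hu hd hk
  have hU : u ≤ (xW * vE * xE).eval [y, e] := by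
    simp only [Expr.eval_mul, eval_xW, eval_xE, eval_vE]
    unfold backE at hu1
    linarith
  obtain ⟨neg, m, hm, hmd, em, hA⟩ := slope_le hP h hz _ hu hU
  have hW' := (back_vals hc.ne' hTd.ne' hW neg).1
  simp only [backVals, List.forall_mem_cons, em, eval_xBc P y e hc.ne'] at hW'
  obtain ⟨k0, k1, k2, -⟩ := hW'
  have hX := h.box_lo
  obtain ⟨T, hT, eT⟩ : ∃ T, 0 < T ∧
      (1 - y * e) * (y + 3 * (y * e) + 2) = T * (y + 2 * (y * e) + 3) :=
    ⟨_, div_pos (by positivity) hTd, (div_mul_cancel₀ _ hTd.ne').symm⟩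
  rw [eT, mul_div_cancel_right₀ _ hTd.ne'] at hX
  rw [eT] at k1 k2
  have eMn : (xMn R).eval [y, e] = R.base y e * (1 + y) ^ 10 := by
    rw [Rem.base, div_mul_cancel₀ _ (by positivity)]
  rw [eMn] at k0 k1 k2
  obtain ⟨D, eD, hD⟩ : ∃ D, (xDh P).eval [y, e] = D * (xDhd P).eval [y, e] ∧
      P.linD e y (P.K p s) (Ident.b0 p ^ 2) ≤ e * D :=
    ⟨(xDh P).eval [y, e] / (xDhd P).eval [y, e], (div_mul_cancel₀ _ hd2.ne').symm,
      hD2.trans (le_of_eq (by ring))⟩
  rw [eD] at k1 k2
  have hC := P.quadC_nonneg hP h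
  have hB := P.quadB_ge hP h
  have hMd : 0 < (1 + y) ^ 10 := by positivity
  have hq : 0 < (1 + y) ^ 10 * (xmd P (xW * vE * xE)).eval [y, e] * (xDhd P).eval [y, e] *
      (2 * (1 - y * e) * (y + 2 * (y * e) + 3)) * (y + 2 * (y * e) + 3) := by positivity
  generalize (xmd P (xW * vE * xE)).eval [y, e] = md at hmd hq k0 k1 k2
  generalize (xDhd P).eval [y, e] = Dd at hd2 hq k1 k2
  generalize (1 + y) ^ 10 = Md at hMd hq k0 k1 k2
  generalize y + 2 * (y * e) + 3 = Td at hTd hq k1 k2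
  generalize backK hump y e = κ at hk hu2 k1 k2
  generalize backE e = E at hu2 k0 k1 k2
  generalize R.base y e = M at k0 k1 k2 ⊢
  have key := back_seg (M := e * M) (m := m) (E := E) (κ := κ) (D := e * D)
    (B := P.quadB e y (P.nh e)) (C := P.quadC e y) (ell := ell) (w := 3 / 20 * e) (X := -δ)
    hm hC hu hu2 hy hT (by linarith) h.ell_le hX
    (nonneg_of_mul_nonneg_left (k0.trans (le_of_eq (by ring))) (mul_pos hMd hmd))
    (nonneg_of_mul_nonneg_left (k1.trans (le_of_eq (by ring))) hq)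
    (nonneg_of_mul_nonneg_left (k2.trans (le_of_eq (by ring))) (mul_pos hq hc))
  have a1 := mul_le_mul_of_nonpos_right hD hd
  have a2 := mul_le_mul_of_nonneg_right hB (sq_nonneg δ)
  unfold Par.form
  linarith

end Vale.Agent.P237.Petty.Cor.Tiny100
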