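import Vale.Agent.P237.Petty.Cor.Tiny100.Setup
import Vale.Agent.P237.Petty.Cor.Few.Mask

/-!
# P237: the sign conditions of the cell near zero as polynomials

The variables are `y = (p + 1) s ^ 2` and `e = 1 / (p + 1)`. A row is a range of `y` with bounds
of `1 / r` and of the mass below `s`; a segment is a range of `δ / e` with a line above `u`.
-/

namespace Vale.Agent.P237.Petty.Cor.Tiny100

open Vale.Agent.P100.Bernstein

/-- The variable `y`. -/
abbrev vY : Expr := .var 0

/-- The variable `e`. -/
abbrev vE : Expr := .var 1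

/-- A rational over `d`. -/
def ov (n d : ℕ) : Expr := .frac n d

/-- A polynomial in `y` from its coefficients over `10 ^ 12`. -/
def polyY : List ℤ → Expr
  | [] => .num 0
  | c :: L => .frac c (10 ^ 12) + vY * polyY L

/-- The data of the remainder: the constant, its slope in `e`, the two numerators of the
potential of the null part over `(1 + y) ^ 9`, over `10 ^ 12`, and the weight of the tail. -/
structure Rem where
  /-- the constant at the first order -/
  c0 : ℤ
  /-- its slope in `e` -/
  c1 : ℤ
  /-- the numerator at `e = 0` -/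
  q0 : List ℤ
  /-- its slope in `e` -/
  q1 : List ℤ
  /-- the derivative of the numerator at `e = 0` -/
  d0 : List ℤ
  /-- its slope in `e` -/
  d1 : List ℤ
  /-- the weight of the tail -/
  gn : ℕ

/-- How the line above `u` is given. -/
inductive Line where
  /-- the bound of the row -/
  | top
  /-- the tail chord at the fraction `cc / 1000` of `s` with the tangent at `v0 / 1000`, and a
  lower bound of its logarithm over `1000000` -/
  | chord (cc v0 lv : ℕ)

/-- A later segment, up to `stop / 1000` times `e`, or up to the end of the box for `none`. -/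
structure Seg where
  /-- the end -/
  stop : Option ℕ
  /-- the line -/
  line : Line
  /-- a bound of `u` on the segment, if it is below that of the row -/
  top : Option (ℕ × ℕ)

/-- The bound of `1 / r` of a row. -/
inductive VKind where
  /-- at the abscissa -/
  | pow
  /-- the hazard at `x / 4` with the bound `exp (k / 64)` of the circle -/
  | hazard (x k : ℕ)

/-- The bound of the mass below the abscissa of a row. -/
inductive HKind where
  /-- the series -/
  | series
  /-- the exponential between `ka / 64` and `kb / 64` -/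
  | expo (ka kb : ℕ) (f : ℕ)

/-- A range of `y` with its bounds, all over `1000` unless said otherwise. -/
structure Row where
  /-- the start -/
  y0 : ℕ
  /-- the end -/
  y1 : ℕ
  /-- the constant of the bound of `1 / r - 1` -/
  ua : ℕ
  /-- its slope in `e` -/
  ub : ℕ
  /-- above the root of the bound of `1 / r` -/
  sv : ℕ
  /-- the bound of `1 / r` -/
  vk : VKind
  /-- the bound of the mass -/
  hk : HKind
  /-- above the mass, a constant -/
  hc : ℕ
  /-- the constant of the affine bound of the mass -/
  hA : ℤ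
  /-- its slope in `y / 2 + kap y ^ 2 e` -/
  hB : ℕ
  /-- `kap` -/
  kap : ℕ
  /-- below the root of `y`, the constant -/
  sa : ℕ
  /-- its slope, over `1000000` -/
  sb : ℕ
  /-- the negative displacements use the cut -/
  hump : Bool
  /-- `u ≤ 0` by completion, and the cut in the first segment -/
  near : Bool
  /-- otherwise, the slope over the shadow for `u ≤ 0`, over `10000` -/
  mn : ℕ
  /-- and the curvature over it -/
  fn : ℕ
  /-- the end of the first segment, if before the end of the box -/
  x1 : Option ℕ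
  /-- the bound of `u` on the first segment, if below that of the row -/
  u1 : Option (ℕ × ℕ)
  /-- the later segments -/
  segs : List Seg

section
variable (P : Par)

/-- `1 - y e`. -/
def xC : Expr := .num 1 - vY * vE

/-- The shadow. -/
def xG : Expr := ov P.Gn 1000

/-- The test. -/
def xg : Expr := ov P.gn 1000

/-- The pole part. -/
def xa : Expr := ov P.an 10000

/-- The linear part. -/
def xb : Expr := ov P.bn 10000

/-- The lift `l F`. -/
def xlF : Expr := ov (P.ln * P.Fn) 10000

/-- The centre. -/
def xr : Expr := ov P.rn 100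

/-- The saturation of the hump at `y`. -/
def xQ : Expr := ov P.Fn 1 + vY ^ 2

/-- Below the square of the ratio. -/
def xRl : Expr := .num 1 - vE * (.num 1 - .frac 3 2 * vE + .frac 9 4 * vE ^ 2)

/-- Above the square of the ratio. -/
def xRh : Expr := .num 1 - vE * (.num 1 - .frac 3 2 * vE + .frac 17 10 * vE ^ 2)

/-- The shift below. -/
def xKl : Expr := .num 1 - .frac 3 2 * vE + .frac 17 10 * vE ^ 2

/-- The shift above. -/
def xKh : Expr := .num 1 - .frac 3 2 * vE + .frac 9 4 * vE ^ 2

/-- The lower multiplier. -/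
def xNl : Expr :=
  xG P * (.frac 1 2 - .frac 3 2 * vE) - (.frac 3 8 - .frac 253 200 * vE)

/-- The upper multiplier. -/
def xNh : Expr :=
  xG P * (.frac 1 2 - .frac 36 25 * vE) - (.frac 3 8 - .frac 29 20 * vE)

/-- The cost of the cross terms. -/
def xS : Expr :=
  .frac (((P.gn : ℤ) ^ 2 - 1000000) ^ 2) (1000000 * (2 * P.gn * (1000 + P.gn)))

/-- Half the coefficient of `-u δ`. -/
def xCq : Expr := xa P * xC + xb P * vY

/-- The coefficient of `δ ^ 2`, times `c`. -/
def xBc : Expr :=
  xa P * (.num 1 + vY * vE) * xC + (xa P - xb P) * vY * xC + xb P * vY ^ 2 -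
    xg P ^ 2 * xNh P * (vY + .num 3 * (vY * vE)) * xC

/-- The hump times the saturation. -/
def xHq : Expr := xlF P * (vY - xr P) ^ 2

/-- The slope of the hump times the square of the saturation, halved. -/
def xHd : Expr := xlF P * ((vY - xr P) * (ov P.Fn 1 + xr P * vY))

/-- The denominator of the lower slope. -/
def xDld : Expr := xC * (xC + xRl) * xRl * xQ P ^ 2

/-- The lower slope over `e`, times its denominator. -/
def xDl : Expr :=
  vY * ((.num 1 - vE) * xG P * (vY - xKh) * (.num 2 * xRl + xC) * xQ P ^ 2 +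
    xHq P * xQ P * (xC + xRl) * xRl - .num 4 * xHd P * xC * (xC + xRl) * xRl)

/-- The denominator of the upper slope. -/
def xDhd : Expr := .num 2 * xC ^ 2 * xRh * xQ P ^ 2

/-- The upper slope over `e`, times its denominator. -/
def xDh : Expr :=
  vY * ((.num 1 - vE) * xG P * (vY - xKl) * (xRh + .num 2 * xC) * xQ P ^ 2 +
    .num 2 * xC * xRh * xHq P * xQ P - .num 8 * xC ^ 2 * xRh * xHd P)

/-- The numerator of the remainder over `e`. -/
def xMn (R : Rem) : Expr :=
  (.frac R.c0 (10 ^ 12) + .frac R.c1 (10 ^ 12) * vE) * (.num 1 + vY) ^ 10 +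
    (.num 1 - vY - .num 3 * (vY * vE)) * (polyY R.q0 + vE * polyY R.q1) * (.num 1 + vY) +
    .num 2 * vY * xC * ((polyY R.d0 + vE * polyY R.d1) * (.num 1 + vY) -
      .num 9 * (polyY R.q0 + vE * polyY R.q1))

/-- Its denominator. -/
def xMd : Expr := (.num 1 + vY) ^ 10

/-- The coefficient of `u ^ 2 / v` at `v = 1 + U`, times `4 c (3 + U)`. -/
def xAn (U : Expr) : Expr :=
  .num 4 * xC * (.num 3 + U) *
      (.num 2 * (.num 1 + xg P) * xNl P * xC - xS P * xNh P * (vY * vE)) -
    xG P * (xC + xRh) * (.num 3 + .num 2 * U)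

/-- The denominator of the slope in `u`. -/
def xmd (U : Expr) : Expr := xQ P * (.num 4 * xC * (.num 3 + U) * (.num 1 + U))

/-- The slope in `u`, without and with the curvature, times its denominator. -/
def xm (U : Expr) (neg : Bool) : Expr :=
  if neg then .num 4 * xC * (.num 3 + U) * (.num 1 + U) * (vE * xHq P) - xAn P U * U * xQ P
  else .num 4 * xC * (.num 3 + U) * (.num 1 + U) * (vE * xHq P)

/-- The numerator of the pinned box. -/
def xTn : Expr := xC * (vY + .num 3 * (vY * vE) + .num 2)

/-- Its denominator. -/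
def xTd : Expr := vY + .num 2 * (vY * vE) + .num 3

/-- The bound of the value over `e`. -/
def xW : Expr := .frac 3 20

/-- Above the exponential of the value. -/
def xE : Expr := .num 1 + .frac 3 20 * vE * (.num 1 + .frac 3 20 * vE)

/-- The numerator of the slope of the chord at the abscissa. -/
def xqn : Expr := vY + .num 2 * (vY * vE) + .num 1

/-- The signs for `δ ≤ 0 ≤ u`. -/
def backConds (R : Rem) (hump : Bool) : List Expr :=
  let U := xW * vE * xE
  let E' := .num 1 + xW * vE * xE
  let kn := if hump then .num 2 * vY * xTd * (.num 1 - .num 2 * xW * vE ^ 2) - xW * vE * xTn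
    else .num 0
  [false, true].flatMap fun neg =>
    let m := xm P U neg
    let md := xmd P U
    let n0 := vE * xMn R * md - m * E' * xMd
    let cT := .num 2 * xC * xTd
    let n1 := vY * xDhd P * cT * xTd * n0 +
      xTn * (m * xMd * xDhd P * kn - vE * xDh P * md * xMd * cT)
    [n0, n1, vY * n1 * xC + xW * vE * xTn ^ 2 * xBc P * md * xMd * xDhd P * (.num 2 * xC)] ++
      if hump then [kn] else []

/-- The signs for `u ≤ 0`. -/
def downConds (R : Rem) (W : Row) : List Expr :=
  let r1 := vY * vE * xMn R * xDhd P * xTd - xTn * vE * xDh P * xMd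
  let r2 := vY * r1 * xTd * xC + xW * vE * xTn ^ 2 * xBc P * xMd * xDhd P
  let Hp := ov W.hc 1000 * ov W.sv 1000 * .frac 1001 1000
  let xe := xW * ov W.sv 1000 * .frac 1001 1000 *
    (.frac W.hA 1000 + ov W.hB 1000 * (.frac 1 2 * vY + ov W.kap 1000 * (vY ^ 2 * vE)))
  let p1 := xMd * (Hp * (vE * xDl P)) + vE * xMn R * xDld P
  let common := [vE * xMn R, r1, p1, p1 * xC + Hp * (vE * xe) * xBc P * xMd * xDld P]
  if W.near then
    common ++ [xAn P (.num 0) - .frac 1 1000,
      xAn P (.num 0) * r2 - xW * vE * xTn ^ 2 * xCq P ^ 2 * xC * xMd * xDhd P * (.num 12 * xC)]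
  else
    let N := .num 2 * xNh P * (vY * vE) * (xg P ^ 2 - .num 1)
    common ++ [r2,
      .num 2 * xC * (vY * xTd * (vE * xHq P) - xQ P * (.num 2 * xCq P + N) * (xW * vE * xTn)) -
        ov W.mn 10000 * xG P * (xC + xRh) * (vY * xTd) * xQ P,
      .num 2 * xC * (.num 2 * (.num 1 + xg P) * xNl P * xC * (vY * xTd) - N * (xW * vE * xTn)) -
        ov W.fn 10000 * xG P * (xC + xRh) * (vY * xTd)]

/-- The bound of `u` of a row. -/
def xU (W : Row) : Expr := ov W.ua 1000 + ov W.ub 1000 * vE

/-- A bound of `u`, or that of the row. -/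
def xTop (W : Row) : Option (ℕ × ℕ) → Expr
  | none => xU W
  | some t => ov t.1 1000 + ov t.2 1000 * vE

/-- The end of the box over `e`. -/
def xEnd (W : Row) : Expr :=
  xW * ov W.sv 1000 * .frac 1001 1000 *
    (.frac W.hA 1000 + ov W.hB 1000 * (.frac 1 2 * vY + ov W.kap 1000 * (vY ^ 2 * vE)))

/-- An end over `e`. -/
def xStop (W : Row) : Option ℕ → Expr
  | none => xEnd W
  | some x => ov x 1000

/-- The line of a segment: its constant, its slope and their common denominator. -/
def xLine (W : Row) : Line → Expr × Expr × Expr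
  | .top => (xU W, .num 0, .num 1)
  | .chord cc v0 lv =>
    let c2 := Expr.frac ((cc : ℤ) ^ 2) 1000000
    let D2 := .num 2 - (.num 1 + c2) * (vY * vE)
    let dd := ((.num 1 + ov lv 1000000 - xW * vE) * D2 + vY * (.num 1 - c2)) * xC
    ((xqn * (.num 1 - ov cc 1000) + ov v0 1000 * xC) * D2 - dd, xqn * D2, dd)

/-- The signs on the first segment. -/
def firstConds (R : Rem) (W : Row) : List Expr :=
  let d1 := vE * xStop W W.x1
  let U := xTop W W.u1
  let V := .num 1 + U
  let bn := if W.near then V * vY * (.num 1 + .num 2 * xW * vE ^ 2 + .frac 1 2 * d1) else xqn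
  let H := ov W.hc 1000 * ov W.sv 1000 * .frac 1001 1000
  let sel := match W.u1 with
    | none => []
    | some _ => [xC * U - (xqn * d1 + xC * (xW * vE) * (.num 1 + xU W))]
  sel ++ [false, true].flatMap fun neg =>
    let m := xm P U neg
    let md := xmd P U
    let p0 := vE * xMn R * md - m * V * xMd
    let p1 := xC * xDld P * p0 + H * (xC * (vE * xDl P) * xMd * md - m * xMd * xDld P * bn -
      .num 2 * xCq P * V * (xW * vE) * xC * xMd * xDld P * md)
    [p0, p1, p1 + H * d1 * xMd * xDld P * md * (xBc P - .num 2 * xCq P * bn)]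

/-- The signs on a later segment starting at `x0`. -/
def segConds (R : Rem) (W : Row) (x0 : Option ℕ) (σ : Seg) : List Expr :=
  let d0 := vE * xStop W x0
  let d1 := vE * xStop W σ.stop
  let L := xLine W σ.line
  let U := xTop W σ.top
  let H := ov W.hc 1000 * ov W.sv 1000 * .frac 1001 1000
  let sel := match σ.top with
    | none => []
    | some _ => [U * xC * L.2.2 - xC * (L.1 + L.2.1 * d1)]
  sel ++ [L.2.2 - .frac 1 1000, L.2.1] ++ [false, true].flatMap fun neg =>
    let m := xm P U neg
    let md := xmd P U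
    let k := xC * xMd * xDld P
    let k0 := -(m * L.1 * k * H)
    let k1 := vE * xMn R * md * xC * xDld P * L.2.2 + H * (vE * xDl P * md * xC * xMd * L.2.2 -
      m * L.2.1 * k - .num 2 * xCq P * L.1 * k * md)
    let k2 := H * xMd * xDld P * md * (xBc P * L.2.2 - .num 2 * xC * xCq P * L.2.1)
    [k0 + k1 * d0 + k2 * d0 ^ 2, k0 + k1 * (.frac 1 2 * (d0 + d1)) + k2 * (d0 * d1),
      k0 + k1 * d1 + k2 * d1 ^ 2]

/-- All later segments. -/
def allSegs (R : Rem) (W : Row) : Option ℕ → List Seg → List Expr
  | _, [] => []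
  | x0, σ :: L => segConds P R W x0 σ ++ allSegs R W σ.stop L

/-- Above `exp (k / 64)`. -/
def xExp (k : ℕ) : Expr := .frac 1284026 1000000 ^ (k / 16) * .frac 1015748 1000000 ^ (k % 16)

/-- The bounds of a row. -/
def boundConds (W : Row) : List Expr :=
  let X := .frac 1 2 * vY + ov W.kap 1000 * (vY ^ 2 * vE)
  let Hx := .frac W.hA 1000 + ov W.hB 1000 * X
  let sy := ov W.sa 1000 + ov W.sb 1000000 * vY
  let hs := match W.hk with
    | .series =>
      [.num 8 * xC - vY,
        Hx * xC ^ 10 * .num 8511477975 -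
          (.num 8511477975 * xC ^ 10 + .num 2837159325 * vY * xC ^ 9 +
            .num 567431865 * vY ^ 2 * xC ^ 8 + .num 81061695 * vY ^ 3 * xC ^ 7 +
            .num 9006855 * vY ^ 4 * xC ^ 6 + .num 818805 * vY ^ 5 * xC ^ 5 +
            .num 62985 * vY ^ 6 * xC ^ 4 + .num 4199 * vY ^ 7 * xC ^ 3 +
            .num 247 * vY ^ 8 * xC ^ 2 + .num 13 * vY ^ 9 * xC + vY ^ 10)]
    | .expo ka kb f =>
      let ha := Expr.frac W.hA 1000 + ov W.hB 1000 * ov ka 64
      let hb := Expr.frac W.hA 1000 + ov W.hB 1000 * ov kb 64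
      [X - ov ka 64, ov kb 64 - X,
        ov W.kap 1000 * (xC * (.num 6 - .num 2 * (vY * vE))) * .num 2 -
          (.num 3 - .num 2 * (vY * vE)),
        ov f 1000 ^ 2 * ov W.y0 1000 - .frac 1261 1000 ^ 2,
        ha - ov f 1000 * xExp ka, hb - ov f 1000 * xExp kb]
  let vs := match W.vk with
    | .pow => [(.num 1 + xU W) * xC - xE * (xC + xW * vE * Hx * xqn)]
    | .hazard x k =>
      let x2 := Expr.frac ((x : ℤ) ^ 2) 16
      let f := Expr.num 1 + .num 2 * vE
      let den := ov x 4 * f * (x2 * f + .num 3)
      let num := (.num 1 - x2 * vE) * (x2 * (.num 1 + .num 3 * vE) + .num 2) +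
        xW * vE * .frac 1261 1000 * xExp k * den
      [(.num 1 + xU W) - xE, (.num 1 + xU W) * xC * den * sy - xE * xqn * num,
        vY - x2, vY - sy ^ 2, sy - .frac 1 1000,
        .num 2 * (.num 1 - x2 * .frac 1 99) * ov k 64 - x2]
  hs ++ vs ++ [ov W.hc 1000 - Hx, ov W.sv 1000 ^ 2 - (.num 1 + xU W)]

/-- Everything on a row. -/
def rowConds (R : Rem) (W : Row) : List Expr :=
  boundConds W ++ backConds P R W.hump ++ downConds P R W ++ firstConds P R W ++
    allSegs P R W W.x1 W.segs

end

/-- The box of a row between `1 / m1` and `1 / m0`. -/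
def rowBox (W : Row) (m0 m1 : ℕ) : List Iv := [⟨W.y0, W.y1, 1000⟩, ⟨m0, m1, m0 * m1⟩]

/-- The root polynomial of the logarithmic margin. -/
def rootPoly (m f : ℕ) : Expr :=
  let w := Expr.var 0
  (.num 1 + ov m 10000) * (.num 1 + w) * (.num 1 + w ^ 2) * w ^ 4 * (.num 4 + .num 2 * w) +
    ov f 10000 * (.num 1 + w) * (.num 1 + w ^ 2) * (.num 1 - w ^ 4) * (.num 4 + .num 2 * w) -
    .num 4 * w ^ 3 * (.num 1 + .num 5 * w)

/-- The subdivision for the root polynomial. -/
def rootTree : Tree := .split 0 (.split 0 .leaf .leaf) (.split 0 (.split 0 .leaf .leaf)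
  (.split 0 (.split 0 .leaf .leaf) (.split 0 .leaf .leaf)))

/-- The test of the root polynomial. -/
def rootOk (m f : ℕ) : Bool := Few.quickCert (rootPoly m f) [⟨0, 1, 1⟩] rootTree

/-- The test of a row. -/
def rowOk (P : Par) (R : Rem) (m0 m1 : ℕ) (W : Row) : Bool :=
  (W.near || rootOk W.mn W.fn) &&
    (rowConds P R W).all fun a => Few.quickCert a (rowBox W m0 m1) .leaf

/-- The rows form a chain up to the start of the tail. -/
def chained (last : ℕ) : List Row → ℕ → Bool
  | [], y => decide (y = last)
  | W :: L, y => decide (W.y0 = y) && chained last L W.y1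

end Vale.Agent.P237.Petty.Cor.Tiny100
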