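import Vale.Agent.P237.Petty.Cor.Tiny100.Facts
import Vale.Agent.P237.Petty.Cor.Tiny100.Algebra
import Vale.Agent.P237.Petty.Cor.Tiny100.Poly

/-!
# P237: the coefficients of the cell near zero against the polynomials of the bulk
-/

namespace Vale.Agent.P237.Petty.Cor.Tiny100

open Vale.Agent.P100.Bernstein
open Set

variable {p : ℕ} {ell s t a r q u δ y e : ℝ}

/-- The side conditions on the parameters. -/
structure ParOk (P : Par) : Prop where
  /-- the shadow is not small -/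
  G_ge : 760 ≤ P.Gn
  /-- the test is past one -/
  g_gt : 1000 < P.gn
  /-- the hump saturates -/
  F_pos : 0 < P.Fn

/-- Below the square of the ratio. -/
noncomputable def rLo (e : ℝ) : ℝ := 1 - e * (1 - 3 / 2 * e + 9 / 4 * e ^ 2)

/-- Above the square of the ratio. -/
noncomputable def rHi (e : ℝ) : ℝ := 1 - e * (1 - 3 / 2 * e + 17 / 10 * e ^ 2)

theorem rLo_pos {e : ℝ} (h0 : 0 ≤ e) (h1 : e ≤ 1 / 99) : 0 < rLo e ∧ 0 < rHi e := by
  have h2 := mul_le_mul_of_nonneg_left h1 h0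
  have h3 := mul_le_mul_of_nonneg_left h2 h0
  unfold rLo rHi
  constructor <;> nlinarith

namespace Par

variable {P : Par}

theorem facts (hP : ParOk P) : 0 < P.F ∧ 1 < P.g ∧ 19 / 25 ≤ P.G ∧ 0 ≤ P.a ∧ 0 ≤ P.b ∧
    0 ≤ P.l ∧ 0 ≤ P.r ∧ 0 ≤ P.Sg ∧ 0 ≤ P.cross := by
  have hF : 0 < P.F := by unfold Par.F; exact_mod_cast hP.F_pos
  have hg : 1 < P.g := by
    unfold Par.g
    rw [lt_div_iff₀ (by norm_num), one_mul]
    exact_mod_cast hP.g_gt
  have hG : 19 / 25 ≤ P.G := by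
    unfold Par.G
    rw [le_div_iff₀ (by norm_num)]
    have : (760 : ℝ) ≤ P.Gn := by exact_mod_cast hP.G_ge
    linarith
  have h0 : 0 < P.g := by linarith
  refine ⟨hF, hg, hG, ?_, ?_, ?_, ?_, ?_, ?_⟩ <;>
    simp only [Par.a, Par.b, Par.l, Par.r, Par.Sg, Par.cross] <;> positivity

theorem mult_bounds (hP : ParOk P) (hp : 98 ≤ p) :
    0 ≤ P.nl (eps p) ∧ P.nl (eps p) ≤ P.nu p ∧ P.nu p ≤ P.nh (eps p) := by
  obtain ⟨he0, he1, -⟩ := eps_facts hp
  obtain ⟨h1, h2⟩ := P.nu_bounds hp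
  obtain ⟨-, -, hG, -⟩ := P.facts hP
  refine ⟨?_, h1, h2⟩
  have := mul_le_mul_of_nonneg_right hG (show 0 ≤ 1 / 2 - 3 / 2 * eps p by linarith)
  unfold Par.nl
  linarith

theorem hump_nonneg (hP : ParOk P) (y : ℝ) : 0 ≤ P.hump y := by
  obtain ⟨hF, -, -, -, -, hl, -⟩ := P.facts hP
  unfold Par.hump
  positivity

/-- The factor of the shadow between its two ends. -/
theorem shadow_range (hP : ParOk P) (h : At p ell s t a r q u δ y e) :
    0 < P.K p s ∧ rLo e ≤ Ident.b0 p ^ 2 ∧ Ident.b0 p ^ 2 ≤ rHi e ∧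
      P.G * (2 * rLo e / ((1 - y * e) + rLo e)) ≤ P.K p s ∧
      P.K p s ≤ P.G * (((1 - y * e) + rHi e) / (2 * (1 - y * e))) := by
  obtain ⟨he0, he1, hy, hye, hye1, -, -⟩ := h.basic
  obtain ⟨h1, h2⟩ := ratio_bounds h.big
  rw [h.e_eq] at h1 h2
  obtain ⟨hRl, -⟩ := rLo_pos he0.le he1
  have hb := Ident.b0_pos p
  have hc := h.state.state.arc_pos'
  have hc2 : arc s ^ 2 = 1 - y * e := by
    rw [hye]; exact Real.sq_sqrt (by nlinarith)
  obtain ⟨-, -, hG, -⟩ := P.facts hP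
  have hG0 : 0 ≤ P.G := by linarith
  refine ⟨mul_pos (by linarith) (div_pos hb hc), h1, h2, mul_le_mul_of_nonneg_left ?_ hG0,
    mul_le_mul_of_nonneg_left ?_ hG0⟩
  · rw [← hc2, div_le_div_iff₀ (by positivity) hc]
    generalize hx : rLo e = x at hRl ⊢
    replace h1 : x ≤ Ident.b0 p ^ 2 := hx ▸ h1
    rcases le_total (2 * arc s) (Ident.b0 p) with h3 | h3
    · nlinarith [mul_nonneg hRl.le (sub_nonneg.2 h3), mul_nonneg hb.le (sq_nonneg (arc s))]
    · nlinarith [mul_le_mul_of_nonneg_left h1 (sub_nonneg.2 h3),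
        mul_nonneg hb.le (sq_nonneg (Ident.b0 p - arc s))]
  · rw [← hc2, div_le_div_iff₀ hc (by positivity)]
    unfold rHi
    nlinarith [mul_le_mul_of_nonneg_left (show 2 * (Ident.b0 p * arc s) ≤ Ident.b0 p ^ 2 + arc s ^ 2
      by nlinarith [sq_nonneg (Ident.b0 p - arc s)]) hc.le,
      mul_le_mul_of_nonneg_left h2 hc.le]

/-- The coefficient of `δ ^ 2` is least at the upper multiplier. -/
theorem quadB_ge (hP : ParOk P) (h : At p ell s t a r q u δ y e) :
    P.quadB e y (P.nh e) ≤ P.quadB e y (P.nu p) := by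
  obtain ⟨he0, -, hy, -, -, -, -⟩ := h.basic
  obtain ⟨-, -, h2⟩ := P.mult_bounds hP h.big
  rw [h.e_eq] at h2
  unfold Par.quadB
  have : 0 ≤ P.g ^ 2 * (y + 3 * (y * e)) := by positivity
  nlinarith [mul_le_mul_of_nonneg_left h2 this]

/-- The coefficient of `u ^ 2 / v` from below. -/
theorem quadA_ge (hP : ParOk P) (h : At p ell s t a r q u δ y e) {U : ℝ} (hU : u ≤ U) :
    2 * (1 + P.g) * P.nl e * (1 - y * e) - P.cross * P.nh e * (y * e) -
        P.G * ((1 - y * e) + rHi e) * (3 + 2 * U) / (4 * (1 - y * e) * (3 + U)) ≤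
      P.quadA e y (P.nu p) (P.K p s) (1 + u) := by
  obtain ⟨he0, -, hy, -, hye1, hu, -⟩ := h.basic
  obtain ⟨-, h1, h2⟩ := P.mult_bounds hP h.big
  rw [h.e_eq] at h1 h2
  obtain ⟨hK, -, -, -, hK2⟩ := P.shadow_range hP h
  obtain ⟨-, hg, -, -, -, -, -, -, hcr⟩ := P.facts hP
  have hc : 0 < 1 - y * e := by linarith
  have hv : (2 * (1 + u) + 1) / (2 * ((1 + u) + 2)) ≤ (3 + 2 * U) / (2 * (3 + U)) := by
    rw [div_le_div_iff₀ (by linarith) (by linarith)]
    linarith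
  have a1 := mul_le_mul_of_nonneg_left h1 (show 0 ≤ 2 * (1 + P.g) * (1 - y * e) by positivity)
  have a2 := mul_le_mul_of_nonneg_left h2 (show 0 ≤ P.cross * (y * e) by positivity)
  have a3 := mul_le_mul hK2 hv (div_nonneg (by linarith) (by linarith)) (hK.le.trans hK2)
  have e1 : P.G * ((1 - y * e) + rHi e) * (3 + 2 * U) / (4 * (1 - y * e) * (3 + U)) =
      P.G * (((1 - y * e) + rHi e) / (2 * (1 - y * e))) * ((3 + 2 * U) / (2 * (3 + U))) := by
    field_simp
    ring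
  rw [e1]
  unfold Par.quadA
  linarith

theorem lift_zero {z : ℝ} (hz : z ≤ 1 / 4) : P.lift z = 0 ∧ P.lift' z = 0 := by
  have h : z - 1 / 4 ≤ 0 := sub_nonpos.2 hz
  unfold Par.lift Par.lift'
  simp only [Tail.sqp_of_nonpos h, Tail.sqp'_of_nonpos h, mul_zero, and_self]

end Par

section eval

variable (P : Par) (y e : ℝ)

theorem eval_vY : vY.eval [y, e] = y := by simp

theorem eval_vE : vE.eval [y, e] = e := by simp

theorem eval_ov (n d : ℕ) : (ov n d).eval [y, e] = (n : ℝ) / d := by simp [ov]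

theorem eval_xC : xC.eval [y, e] = 1 - y * e := by simp [xC]

theorem eval_xG : (xG P).eval [y, e] = P.G := by simp [xG, ov, Par.G]

theorem eval_xg : (xg P).eval [y, e] = P.g := by simp [xg, ov, Par.g]

theorem eval_xQ : (xQ P).eval [y, e] = P.F + y ^ 2 := by simp [xQ, ov, Par.F]

theorem eval_xRl : xRl.eval [y, e] = rLo e := by simp [xRl, rLo]

theorem eval_xRh : xRh.eval [y, e] = rHi e := by simp [xRh, rHi]

theorem eval_xNl : (xNl P).eval [y, e] = P.nl e := by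
  simp [xNl, eval_xG, Par.nl]; ring

theorem eval_xNh : (xNh P).eval [y, e] = P.nh e := by
  simp [xNh, eval_xG, Par.nh]; ring

theorem eval_xS (hg : 0 < P.gn) : (xS P).eval [y, e] = P.cross := by
  have : (0 : ℝ) < P.gn := by exact_mod_cast hg
  simp [xS, Par.cross, Par.g]
  field_simp
  ring

theorem eval_xCq : (xCq P).eval [y, e] = P.quadC e y := by
  simp [xCq, xa, xb, ov, eval_xC, Par.quadC, Par.a, Par.b]

theorem eval_xBc (hc : 1 - y * e ≠ 0) :
    (xBc P).eval [y, e] = (1 - y * e) * P.quadB e y (P.nh e) := by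
  simp [xBc, xa, xb, ov, eval_xC, eval_xg, eval_xNh, Par.quadB, Par.a, Par.b]
  field_simp

theorem eval_xHq (hF : P.F + y ^ 2 ≠ 0) :
    (xHq P).eval [y, e] = P.hump y * (P.F + y ^ 2) := by
  simp [xHq, xlF, xr, ov, Par.hump, Par.l, Par.r, Par.F] at hF ⊢
  field_simp

theorem eval_xHd (hF : P.F + y ^ 2 ≠ 0) :
    (xHd P).eval [y, e] = P.hump' y * (P.F + y ^ 2) ^ 2 / 2 := by
  simp [xHd, xlF, xr, ov, Par.hump', Par.l, Par.r, Par.F] at hF ⊢
  field_simp

theorem eval_xW : xW.eval [y, e] = 3 / 20 := by simp [xW]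

theorem eval_xE : xE.eval [y, e] = 1 + 3 / 20 * e * (1 + 3 / 20 * e) := by simp [xE]

theorem eval_xTn : xTn.eval [y, e] = (1 - y * e) * (y + 3 * (y * e) + 2) := by
  simp [xTn, eval_xC]

theorem eval_xTd : xTd.eval [y, e] = y + 2 * (y * e) + 3 := by simp [xTd]

theorem eval_xqn : xqn.eval [y, e] = y + 2 * (y * e) + 1 := by simp [xqn]

theorem eval_xMd : xMd.eval [y, e] = (1 + y) ^ 10 := by simp [xMd]

end eval

/-- The lower slope over its denominator. -/
theorem slope_lo_alg {G c R Q H H' y e k : ℝ} (hc : c ≠ 0) (hR : R ≠ 0) (hcR : c + R ≠ 0)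
    (hQ : Q ≠ 0) (hk : R = c + e * (y - k)) :
    e * (y * ((1 - e) * G * (y - k) * (2 * R + c) * Q ^ 2 + H * Q * Q * (c + R) * R -
        4 * (H' * Q ^ 2 / 2) * c * (c + R) * R)) / (c * (c + R) * R * Q ^ 2) =
      y * (1 - e) * (G * (2 * R / (c + R)) / c - G / R) + e * (y / c * H - 2 * y * H') := by
  subst hk
  field_simp
  ring

/-- The upper slope over its denominator. -/
theorem slope_hi_alg {G c R Q H H' y e k : ℝ} (hc : c ≠ 0) (hR : R ≠ 0)
    (hQ : Q ≠ 0) (hk : R = c + e * (y - k)) :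
    e * (y * ((1 - e) * G * (y - k) * (R + 2 * c) * Q ^ 2 + 2 * c * R * (H * Q) * Q -
        8 * c ^ 2 * R * (H' * Q ^ 2 / 2))) / (2 * c ^ 2 * R * Q ^ 2) =
      y * (1 - e) * (G * ((c + R) / (2 * c)) / c - G / R) + e * (y / c * H - 2 * y * H') := by
  subst hk
  field_simp
  ring

/-- The slope in `δ` between the two polynomial bounds. -/
theorem slope_range {P : Par} (hP : ParOk P) (h : At p ell s t a r q u δ y e) (hz : y * e ≤ 1 / 4) :
    0 < (xDld P).eval [y, e] ∧ 0 < (xDhd P).eval [y, e] ∧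
      e * (xDl P).eval [y, e] / (xDld P).eval [y, e] ≤
        P.linD e y (P.K p s) (Ident.b0 p ^ 2) ∧
      P.linD e y (P.K p s) (Ident.b0 p ^ 2) ≤
        e * (xDh P).eval [y, e] / (xDhd P).eval [y, e] := by
  obtain ⟨he0, he1, hy, -, hye1, -, -⟩ := h.basic
  obtain ⟨hRl, hRh⟩ := rLo_pos he0.le he1
  obtain ⟨hF, -, hG, -⟩ := P.facts hP
  obtain ⟨hK, hR1, hR2, hK1, hK2⟩ := P.shadow_range hP h
  have hc : 0 < 1 - y * e := by linarith
  have hQ : 0 < P.F + y ^ 2 := by positivity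
  have e1 : (xDld P).eval [y, e] = (1 - y * e) * ((1 - y * e) + rLo e) * rLo e *
      (P.F + y ^ 2) ^ 2 := by simp [xDld, eval_xC, eval_xRl, eval_xQ]
  have e2 : (xDhd P).eval [y, e] = 2 * (1 - y * e) ^ 2 * rHi e * (P.F + y ^ 2) ^ 2 := by
    simp [xDhd, eval_xC, eval_xRh, eval_xQ]
  have hd1 : 0 < (xDld P).eval [y, e] := by rw [e1]; positivity
  have hd2 : 0 < (xDhd P).eval [y, e] := by rw [e2]; positivity
  refine ⟨hd1, hd2, ?_, ?_⟩
  · have e3 : e * (xDl P).eval [y, e] / (xDld P).eval [y, e] =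
        y * (1 - e) * (P.G * (2 * rLo e / ((1 - y * e) + rLo e)) / (1 - y * e) - P.G / rLo e) +
          e * (y / (1 - y * e) * P.hump y - 2 * y * P.hump' y) := by
      rw [e1]
      refine Eq.trans ?_ (slope_lo_alg (k := 1 - 3 / 2 * e + 9 / 4 * e ^ 2) hc.ne' hRl.ne'
        (add_pos hc hRl).ne' hQ.ne' (by rw [rLo]; ring))
      simp [xDl, eval_xC, eval_xRl, eval_xQ, eval_xG, eval_xHq P y e hQ.ne',
        eval_xHd P y e hQ.ne', xKh]
    rw [e3]
    simp only [Par.linD, (P.lift_zero hz).1, (P.lift_zero hz).2, add_zero, mul_zero, zero_mul,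
      sub_zero, mul_one]
    refine add_le_add (mul_le_mul_of_nonneg_left (sub_le_sub ?_ ?_) ?_) le_rfl
    · exact div_le_div_of_nonneg_right hK1 hc.le
    · exact div_le_div_of_nonneg_left (by linarith) hRl hR1
    · exact mul_nonneg hy.le (by linarith)
  · have e3 : e * (xDh P).eval [y, e] / (xDhd P).eval [y, e] =
        y * (1 - e) * (P.G * (((1 - y * e) + rHi e) / (2 * (1 - y * e))) / (1 - y * e) -
          P.G / rHi e) + e * (y / (1 - y * e) * P.hump y - 2 * y * P.hump' y) := by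
      rw [e2]
      refine Eq.trans ?_ (slope_hi_alg (k := 1 - 3 / 2 * e + 17 / 10 * e ^ 2) hc.ne' hRh.ne'
        hQ.ne' (by rw [rHi]; ring))
      simp [xDh, eval_xC, eval_xRh, eval_xQ, eval_xG, eval_xHq P y e hQ.ne',
        eval_xHd P y e hQ.ne', xKl]
    rw [e3]
    simp only [Par.linD, (P.lift_zero hz).1, (P.lift_zero hz).2, add_zero, mul_zero, zero_mul,
      sub_zero, mul_one]
    have hb := Ident.b0_pos p
    refine add_le_add (mul_le_mul_of_nonneg_left (sub_le_sub ?_ ?_) ?_) le_rfl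
    · exact div_le_div_of_nonneg_right hK2 hc.le
    · exact div_le_div_of_nonneg_left (by linarith) (by positivity) hR2
    · exact mul_nonneg hy.le (by linarith)

end Vale.Agent.P237.Petty.Cor.Tiny100
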