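import Vale.Agent.P237.Petty.Cor.Bridge

/-!
# P237: the constants of the cell near zero, as polynomials in `e = 1 / (p + 1)`

From order 98 on, the square of the ratio of half circles, the stationary value and the quotient
`sqCoef / (p + 4)` lie between polynomials in `e` whose gaps are of second order.
-/

namespace Vale.Agent.P237.Petty.Cor.Tiny100

open Ident (half rate)

variable {p : ℕ}

/-- The variable `1 / (p + 1)`. -/
noncomputable def eps (p : ℕ) : ℝ := 1 / ((p : ℝ) + 1)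

theorem eps_facts (hp : 98 ≤ p) :
    0 < eps p ∧ eps p ≤ 1 / 99 ∧ ((p : ℝ) + 1) * eps p = 1 := by
  have h : (98 : ℝ) ≤ p := by exact_mod_cast hp
  refine ⟨by unfold eps; positivity, one_div_le_one_div_of_le (by norm_num) (by linarith), ?_⟩
  unfold eps
  field_simp

/-- The square of the ratio of half circles, from both sides. -/
theorem ratio_bounds (hp : 98 ≤ p) :
    1 - eps p * (1 - 3 / 2 * eps p + 9 / 4 * eps p ^ 2) ≤ Ident.b0 p ^ 2 ∧
      Ident.b0 p ^ 2 ≤ 1 - eps p * (1 - 3 / 2 * eps p + 17 / 10 * eps p ^ 2) := by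
  obtain ⟨j, rfl⟩ : ∃ j, p = j + 1 := ⟨p - 1, by omega⟩
  have hj : (97 : ℝ) ≤ j := by
    have : 97 ≤ j := by omega
    exact_mod_cast this
  have h1 := (b0_sq_bounds (j + 1)).1
  have h2 := LargeN.ratSq_succ_le j
  rw [Centre.ratSq_eq, LargeN.low, div_div_eq_mul_div, div_pow, div_mul_eq_mul_div, div_div] at h2
  unfold eps
  push_cast at h1 h2 ⊢
  obtain ⟨k, hk, hjk⟩ : ∃ k : ℝ, 0 ≤ k ∧ (j : ℝ) = k + 97 := ⟨(j : ℝ) - 97, by linarith, by ring⟩
  rw [hjk] at h1 h2 ⊢
  constructor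
  · refine le_trans ?_ h1
    rw [le_div_iff₀ (by positivity)]
    field_simp
    nlinarith [hk, mul_nonneg hk hk, mul_nonneg (mul_nonneg hk hk) hk]
  · refine h2.trans ?_
    rw [div_le_iff₀ (by positivity)]
    field_simp
    nlinarith [hk, mul_nonneg hk hk, mul_nonneg (mul_nonneg hk hk) hk,
      mul_nonneg (mul_nonneg hk hk) (mul_nonneg hk hk),
      mul_nonneg (mul_nonneg (mul_nonneg hk hk) hk) (mul_nonneg hk hk)]

/-- The quotient `sqCoef / (p + 4)`, from both sides. -/
theorem share_bounds (hp : 98 ≤ p) :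
    1 / 2 - 3 / 2 * eps p ≤ sqCoef p / ((p : ℝ) + 4) ∧
      sqCoef p / ((p : ℝ) + 4) ≤ 1 / 2 - 36 / 25 * eps p := by
  obtain ⟨h1, h2⟩ := ratio_bounds hp
  obtain ⟨he0, he1, hpe⟩ := eps_facts hp
  set e := eps p with he
  set R := Ident.b0 p ^ 2 with hR
  have hp' : (p : ℝ) = (1 - e) / e := by
    rw [eq_div_iff he0.ne']; linarith
  have hRdef : sqCoef p = (p : ℝ) / (2 * R) := by
    rw [sqCoef, hR]
  have hR0 : 0 < R := by rw [hR]; have := Ident.b0_pos p; positivity
  rw [hRdef, hp', div_add' _ _ _ he0.ne', div_div, div_div]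
  have hd : 0 < 2 * R * ((1 - e + 4 * e) / e) := by
    have : 0 < 1 - e + 4 * e := by linarith
    positivity
  clear_value e R
  constructor
  · rw [le_div_iff₀ (by positivity)]
    field_simp
    nlinarith [mul_le_mul_of_nonneg_left h2 (show (0 : ℝ) ≤ (1 + 3 * e) * (1 - 3 * e) by
      nlinarith), pow_pos he0 2, pow_pos he0 3, mul_le_mul_of_nonneg_left he1 (pow_pos he0 3).le]
  · rw [div_le_iff₀ (by positivity)]
    field_simp
    nlinarith [mul_le_mul_of_nonneg_left h1 (show (0 : ℝ) ≤ (1 + 3 * e) * (25 - 72 * e) by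
      nlinarith), pow_pos he0 2, pow_pos he0 3, mul_le_mul_of_nonneg_left he1 (pow_pos he0 2).le,
      mul_le_mul_of_nonneg_left he1 (pow_pos he0 3).le]

/-- The stationary value, from both sides. -/
theorem muMin_range (hp : 98 ≤ p) :
    3 / 4 - 29 / 10 * eps p ≤ Ident.muMin p ∧
      Ident.muMin p ≤ 3 / 4 - 253 / 100 * eps p := by
  obtain ⟨h1, h2⟩ := ratio_bounds hp
  obtain ⟨he0, he1, hpe⟩ := eps_facts hp
  set e := eps p with he
  set R := Ident.b0 p ^ 2 with hR
  have hp' : (p : ℝ) = (1 - e) / e := by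
    rw [eq_div_iff he0.ne']; linarith
  have hR0 : 0 < R := by rw [hR]; have := Ident.b0_pos p; positivity
  have e1 : Ident.muMin p =
      ((p : ℝ) + 2) * (p : ℝ) * (((p : ℝ) + 4) * (1 - R) - 1) / (2 * ((p : ℝ) + 4) * R) := by
    rw [Ident.muMin, hR]
    have := (Ident.b0_pos p).ne'
    field_simp
  rw [e1, hp']
  have hd : 0 < 1 + 3 * e := by linarith
  rw [show ((1 - e) / e + 2) * ((1 - e) / e) * (((1 - e) / e + 4) * (1 - R) - 1) /
      (2 * ((1 - e) / e + 4) * R) =
      (1 + e) * (1 - e) * ((1 + 3 * e) * (1 - R) - e) / (2 * e ^ 2 * (1 + 3 * e) * R) by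
    rw [show (1 - e) / e + 4 = (1 + 3 * e) / e by field_simp; ring,
      show (1 - e) / e + 2 = (1 + e) / e by field_simp; ring]
    field_simp]
  clear_value e R
  have ha : (0 : ℝ) ≤ (1 + e) * (1 - e) * (1 + 3 * e) := by
    have : e ≤ 1 := by linarith
    have : 0 ≤ 1 - e := by linarith
    positivity
  constructor
  · rw [le_div_iff₀ (by positivity)]
    nlinarith [mul_le_mul_of_nonneg_left h2 ha,
      mul_le_mul_of_nonneg_left h2 (show (0 : ℝ) ≤ e ^ 2 * (1 + 3 * e) * (3 / 4 - 29 / 10 * e) by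
        have : (0 : ℝ) ≤ 3 / 4 - 29 / 10 * e := by linarith
        positivity),
      pow_pos he0 3, pow_pos he0 4, mul_le_mul_of_nonneg_left he1 (pow_pos he0 3).le,
      mul_le_mul_of_nonneg_left he1 (pow_pos he0 4).le,
      mul_le_mul_of_nonneg_left he1 (pow_pos he0 5).le]
  · rw [div_le_iff₀ (by positivity)]
    nlinarith [mul_le_mul_of_nonneg_left h1 ha,
      mul_le_mul_of_nonneg_left h1 (show (0 : ℝ) ≤ e ^ 2 * (1 + 3 * e) * (3 / 4 - 253 / 100 * e) by
        have : (0 : ℝ) ≤ 3 / 4 - 253 / 100 * e := by linarith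
        positivity),
      pow_pos he0 3, pow_pos he0 4, mul_le_mul_of_nonneg_left he1 (pow_pos he0 3).le,
      mul_le_mul_of_nonneg_left he1 (pow_pos he0 4).le,
      mul_le_mul_of_nonneg_left he1 (pow_pos he0 5).le]

end Vale.Agent.P237.Petty.Cor.Tiny100
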