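import Vale.Agent.P237.Petty.Cor.Tiny100.BulkSigns

/-!
# P237: the mean of the remainder of the cell near zero
-/

namespace Vale.Agent.P237.Petty.Cor.Tiny100

open MeasureTheory Set intervalIntegral
open Vale.Agent.P100.Bernstein
open Ident (half)
open Huge (moment)

/-- The multiples of the coefficients that make the derivative. -/
def derivFrom : ℕ → List ℤ → List ℤ
  | _, [] => []
  | n, c :: L => (n : ℤ) * c :: derivFrom (n + 1) L

/-- The derivative of a list of coefficients. -/
def derivList (L : List ℤ) : List ℤ := derivFrom 1 L.tail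

/-- The value of a list of coefficients over `10 ^ 12`. -/
noncomputable def polyAt : List ℤ → ℝ → ℝ
  | [], _ => 0
  | c :: L, y => (c : ℝ) / (10 : ℝ) ^ 12 + y * polyAt L y

/-- The derivative of that value. -/
noncomputable def polyD : List ℤ → ℝ → ℝ
  | [], _ => 0
  | _ :: L, y => polyAt L y + y * polyD L y

theorem eval_polyY (y e : ℝ) : ∀ L : List ℤ, (polyY L).eval [y, e] = polyAt L y
  | [] => by simp [polyY, polyAt]
  | c :: L => by
    simp only [polyY, polyAt, Expr.eval_add, Expr.eval_mul, Expr.eval_frac, eval_vY,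
      eval_polyY y e L]
    norm_num

theorem polyAt_derivFrom (y : ℝ) : ∀ (L : List ℤ) (n : ℕ),
    polyAt (derivFrom n L) y = (n : ℝ) * polyAt L y + y * polyD L y
  | [], n => by simp [derivFrom, polyAt, polyD]
  | c :: L, n => by
    simp only [derivFrom, polyAt, polyD, polyAt_derivFrom y L (n + 1)]
    push_cast
    ring

theorem polyD_eq (y : ℝ) : ∀ L : List ℤ, polyAt (derivList L) y = polyD L y
  | [] => by simp [derivList, derivFrom, polyAt, polyD]
  | c :: L => by simp [derivList, polyAt_derivFrom, polyD]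

theorem hasDerivAt_polyAt (y : ℝ) : ∀ L : List ℤ, HasDerivAt (polyAt L) (polyD L y) y
  | [] => by
    simpa [polyD] using (show HasDerivAt (fun _ : ℝ => (0 : ℝ)) 0 y from hasDerivAt_const y 0)
      |>.congr_of_eventuallyEq (Filter.Eventually.of_forall fun x => by simp [polyAt])
  | c :: L => by
    have h := ((hasDerivAt_id y).mul (hasDerivAt_polyAt y L)).const_add ((c : ℝ) / (10 : ℝ) ^ 12)
    simpa [polyAt, polyD] using h

theorem continuous_polyAt : ∀ L : List ℤ, Continuous (polyAt L)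
  | [] => (continuous_const (y := (0 : ℝ))).congr fun x => rfl
  | c :: L => (continuous_const.add (continuous_id.mul (continuous_polyAt L))).congr fun x => rfl

theorem continuous_polyD : ∀ L : List ℤ, Continuous (polyD L)
  | [] => (continuous_const (y := (0 : ℝ))).congr fun x => rfl
  | _ :: L =>
    ((continuous_polyAt L).add (continuous_id.mul (continuous_polyD L))).congr fun x => rfl

/-- The lists of the derivatives are right. -/
def derivOk (R : Rem) : Bool := decide (R.d0 = derivList R.q0) && decide (R.d1 = derivList R.q1)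

/-- The budget of the mean, to be nonnegative. -/
def budget (R : Rem) : Expr :=
  .frac 3 4 - .frac 29 10 * vE - (.num 1 + vE) * (.frac R.c0 (10 ^ 12) +
    .frac R.c1 (10 ^ 12) * vE + ov R.gn 1 * (.num 1 + vE) * .frac 10327 1000000000)

/-- The test of the budget. -/
def budgetOk (R : Rem) (m0 m1 : ℕ) : Bool :=
  Few.quickCert (budget R) [⟨0, 1, 1⟩, ⟨m0, m1, m0 * m1⟩] .leaf

variable {p : ℕ} (R : Rem)

/-- The potential of the null part. -/
noncomputable def nullNum (e y : ℝ) : ℝ := (polyAt R.q0 y + e * polyAt R.q1 y) / (1 + y) ^ 9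

/-- Its derivative. -/
noncomputable def nullNum' (e y : ℝ) : ℝ :=
  ((polyD R.q0 y + e * polyD R.q1 y) * (1 + y) - 9 * (polyAt R.q0 y + e * polyAt R.q1 y)) /
    (1 + y) ^ 10

theorem hasDerivAt_nullNum (e : ℝ) {y : ℝ} (hy : 0 ≤ y) :
    HasDerivAt (nullNum R e) (nullNum' R e y) y := by
  have hd : (1 + y) ^ 9 ≠ 0 := by positivity
  refine (((hasDerivAt_polyAt y R.q0).add ((hasDerivAt_polyAt y R.q1).const_mul e)).div
    (((hasDerivAt_id y).const_add 1).pow 9) hd).congr_deriv ?_
  simp only [nullNum', id, Pi.add_apply, Pi.pow_apply]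
  field_simp
  push_cast
  ring

theorem base_eq (hd : derivOk R = true) {y e : ℝ} (hy : 0 ≤ y) :
    R.base y e = (R.c0 : ℝ) / (10 : ℝ) ^ 12 + (R.c1 : ℝ) / (10 : ℝ) ^ 12 * e +
      ((1 - y - 3 * (y * e)) * nullNum R e y + 2 * y * (1 - y * e) * nullNum' R e y) := by
  simp only [derivOk, Bool.and_eq_true, decide_eq_true_eq] at hd
  have hy1 : 1 + y ≠ 0 := by positivity
  simp only [Rem.base, xMn, Expr.eval_add, Expr.eval_sub, Expr.eval_mul, Expr.eval_pow,
    Expr.eval_num, Expr.eval_frac, eval_vY, eval_vE, eval_xC, eval_polyY, hd.1, hd.2, polyD_eq,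
    nullNum, nullNum']
  push_cast
  field_simp
  ring

/-- The antiderivative of the null part. -/
noncomputable def nullPrim (p : ℕ) (s : ℝ) : ℝ :=
  s * arc s ^ (p + 3) * nullNum R (eps p) (((p : ℝ) + 1) * s ^ 2)

theorem hasDerivAt_nullPrim {s : ℝ} (hs : s ∈ Ioo (0 : ℝ) 1) :
    HasDerivAt (nullPrim R p) (arc s ^ (p + 1) *
      ((1 - ((p : ℝ) + 1) * s ^ 2 - 3 * (((p : ℝ) + 1) * s ^ 2 * eps p)) *
          nullNum R (eps p) (((p : ℝ) + 1) * s ^ 2) +
        2 * (((p : ℝ) + 1) * s ^ 2) * (1 - ((p : ℝ) + 1) * s ^ 2 * eps p) *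
          nullNum' R (eps p) (((p : ℝ) + 1) * s ^ 2))) s := by
  have hy : HasDerivAt (fun x : ℝ => ((p : ℝ) + 1) * x ^ 2) (((p : ℝ) + 1) * (2 * s)) s := by
    refine ((hasDerivAt_pow 2 s).const_mul ((p : ℝ) + 1)).congr_deriv ?_
    push_cast
    ring
  have hc : (0 : ℝ) < 1 - s ^ 2 := by nlinarith [hs.1, hs.2]
  have hpe : ((p : ℝ) + 1) * s ^ 2 * eps p = s ^ 2 := by unfold eps; field_simp
  refine (((hasDerivAt_id s).mul (hasDerivAt_arc_pow (p + 2) ⟨by linarith [hs.1], hs.2⟩)).mul
    ((hasDerivAt_nullNum R (eps p) (by positivity)).comp s hy)).congr_deriv ?_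
  have h2 : arc s ^ 2 = 1 - s ^ 2 := Real.sq_sqrt hc.le
  simp only [Function.comp_apply, id, Pi.mul_apply, hpe]
  rw [show arc s ^ (p + 2 + 1) = arc s ^ (p + 1) * (1 - s ^ 2) by rw [← h2]; ring]
  push_cast
  field_simp
  ring

theorem integrand_eq (hd : derivOk R = true) (hp : 2 ≤ p) {s : ℝ} (hs : s ∈ Icc (0 : ℝ) 1) :
    arc s ^ (p + 1) * R.val p s =
      eps p * (arc s ^ (p + 1) * ((R.c0 : ℝ) / (10 : ℝ) ^ 12 + (R.c1 : ℝ) / (10 : ℝ) ^ 12 * eps p) +
        arc s ^ (p + 1) *
          ((1 - ((p : ℝ) + 1) * s ^ 2 - 3 * (((p : ℝ) + 1) * s ^ 2 * eps p)) *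
              nullNum R (eps p) (((p : ℝ) + 1) * s ^ 2) +
            2 * (((p : ℝ) + 1) * s ^ 2) * (1 - ((p : ℝ) + 1) * s ^ 2 * eps p) *
              nullNum' R (eps p) (((p : ℝ) + 1) * s ^ 2))) +
        (R.gn : ℝ) * eps p * (((p : ℝ) + 1) / 24) ^ 10 * (arc s ^ (p - 1) * s ^ (2 * 10)) := by
  obtain ⟨j, rfl⟩ : ∃ j, p = j + 1 := ⟨p - 1, by omega⟩
  have he : ((j + 1 : ℕ) : ℝ) + 1 = (j : ℝ) + 2 := by push_cast; ring
  have hye : (((j + 1 : ℕ) : ℝ) + 1) * s ^ 2 * eps (j + 1) = s ^ 2 := by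
    unfold eps; field_simp
  rw [Rem.val, base_eq R hd (by positivity), Rem.tail, hye, Nat.add_sub_cancel]
  rcases eq_or_lt_of_le hs.2 with h | h
  · subst h
    simp [arc, zero_pow (show j ≠ 0 by omega)]
  · have hc : (0 : ℝ) < 1 - s ^ 2 := by nlinarith [hs.1]
    have h2 : arc s ^ 2 = 1 - s ^ 2 := Real.sq_sqrt hc.le
    have e1 : arc s ^ (j + 1 + 1) = arc s ^ j * (1 - s ^ 2) := by rw [← h2]; ring
    rw [e1]
    field_simp
    ring

theorem continuous_null (p : ℕ) : Continuous fun s : ℝ => arc s ^ (p + 1) *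
    ((1 - ((p : ℝ) + 1) * s ^ 2 - 3 * (((p : ℝ) + 1) * s ^ 2 * eps p)) *
        nullNum R (eps p) (((p : ℝ) + 1) * s ^ 2) +
      2 * (((p : ℝ) + 1) * s ^ 2) * (1 - ((p : ℝ) + 1) * s ^ 2 * eps p) *
        nullNum' R (eps p) (((p : ℝ) + 1) * s ^ 2)) := by
  have := continuous_arc
  have := continuous_polyAt R.q0
  have := continuous_polyAt R.q1
  have := continuous_polyD R.q0
  have := continuous_polyD R.q1
  unfold nullNum nullNum'
  fun_prop (disch := intro x; positivity)

theorem rem_continuous (hd : derivOk R = true) (hp : 2 ≤ p) :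
    ContinuousOn (fun s => arc s ^ (p + 1) * R.val p s) (Icc 0 1) := by
  have := continuous_arc
  refine ContinuousOn.congr (Continuous.continuousOn ?_) fun s hs => integrand_eq R hd hp hs
  exact (continuous_const.mul (((continuous_arc.pow _).mul continuous_const).add
    (continuous_null R p))).add (continuous_const.mul ((continuous_arc.pow _).mul (continuous_pow _)))

theorem null_mean (p : ℕ) : ∫ s in (0 : ℝ)..1, arc s ^ (p + 1) *
    ((1 - ((p : ℝ) + 1) * s ^ 2 - 3 * (((p : ℝ) + 1) * s ^ 2 * eps p)) *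
        nullNum R (eps p) (((p : ℝ) + 1) * s ^ 2) +
      2 * (((p : ℝ) + 1) * s ^ 2) * (1 - ((p : ℝ) + 1) * s ^ 2 * eps p) *
        nullNum' R (eps p) (((p : ℝ) + 1) * s ^ 2)) = 0 := by
  have hc : ContinuousOn (nullPrim R p) (Icc 0 1) := by
    have := continuous_arc
    have := continuous_polyAt R.q0
    have := continuous_polyAt R.q1
    unfold nullPrim nullNum
    exact Continuous.continuousOn (by fun_prop (disch := intro x; positivity))
  rw [intervalIntegral.integral_eq_sub_of_hasDerivAt_of_le zero_le_one hc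
    (fun s hs => hasDerivAt_nullPrim R hs) ((continuous_null R p).intervalIntegrable _ _)]
  simp [nullPrim, arc]

/-- The mean of the remainder is below that of the weight. -/
theorem rem_mean (hd : derivOk R = true) {m0 m1 : ℕ} (hb : budgetOk R m0 m1 = true)
    (hp : 98 ≤ p) (hm0 : (m0 : ℝ) ≤ ((m0 * m1 : ℕ) : ℝ) * eps p)
    (hm1 : ((m0 * m1 : ℕ) : ℝ) * eps p ≤ m1) :
    ∫ s in (0 : ℝ)..1, arc s ^ (p + 1) * R.val p s ≤
      half (p + 1) * Ident.muMin p / ((p : ℝ) + 2) := by
  obtain ⟨he0, he1, hpe⟩ := eps_facts hp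
  have hbud := nonneg_of_certify (Few.certify_of_quick hb) (x := [0, eps p]) ⟨by simp, by simp, by simpa using hm0,
    by simpa using hm1, trivial⟩
  simp only [budget, Expr.eval_sub, Expr.eval_add, Expr.eval_mul, Expr.eval_num, Expr.eval_frac,
    eval_vE, eval_ov] at hbud
  push_cast at hbud
  have hu : uIcc (0 : ℝ) 1 = Icc 0 1 := uIcc_of_le zero_le_one
  rw [intervalIntegral.integral_congr fun s hs => integrand_eq R hd (by omega) (hu ▸ hs)]
  have ic : IntervalIntegrable (fun s => arc s ^ (p + 1) *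
      ((R.c0 : ℝ) / (10 : ℝ) ^ 12 + (R.c1 : ℝ) / (10 : ℝ) ^ 12 * eps p)) volume 0 1 :=
    ((continuous_arc.pow _).mul continuous_const).intervalIntegrable _ _
  have im := Huge.integrable_moment (p - 1) 10 0 1
  have iN := (continuous_null R p).intervalIntegrable (μ := volume) 0 1
  rw [intervalIntegral.integral_add ((ic.add iN).const_mul _) (im.const_mul _),
    intervalIntegral.integral_const_mul, intervalIntegral.integral_const_mul,
    intervalIntegral.integral_add ic iN, null_mean, add_zero,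
    intervalIntegral.integral_mul_const, show (∫ s in (0 : ℝ)..1, arc s ^ (p + 1)) = half (p + 1)
      from rfl, show (∫ s in (0 : ℝ)..1, arc s ^ (p - 1) * s ^ (2 * 10)) = moment (p - 1) 10 from rfl]
  obtain ⟨j, rfl⟩ : ∃ j, p = j + 1 := ⟨p - 1, by omega⟩
  rw [Nat.add_sub_cancel]
  have hH := Ident.half_pos (j + 1 + 1)
  have h1 := moment_le j 10
  simp only [Finset.prod_range_succ, Finset.prod_range_zero] at h1
  norm_num at h1
  have h2 := half_le_shift j
  push_cast at hpe hbud he1 ⊢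
  obtain ⟨hmu, -⟩ := muMin_range (p := j + 1) (by omega)
  generalize eps (j + 1) = e at he0 he1 hpe hbud hm0 hm1 hmu ⊢
  have hj : 0 ≤ moment j 10 := moment_nonneg j 10
  have e3 : ((j : ℝ) + 3) / ((j : ℝ) + 2) = 1 + e := by
    rw [div_eq_iff (by positivity)]
    linear_combination -hpe
  rw [e3] at h2
  have h5 : (((j : ℝ) + 1 + 1) / 24) ^ 10 * moment j 10 ≤
      10327 / 1000000000 * ((1 + e) * half (j + 1 + 1)) := by
    have h3 : (((j : ℝ) + 1 + 1) / 24) ^ 10 ≤ ((j : ℝ) + 3) ^ 10 / (24 : ℝ) ^ 10 := by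
      rw [div_pow]
      exact div_le_div_of_nonneg_right (pow_le_pow_left₀ (by positivity) (by linarith) _)
        (by norm_num)
    refine (mul_le_mul_of_nonneg_right h3 hj).trans ?_
    rw [div_mul_eq_mul_div, div_le_iff₀ (by norm_num)]
    refine (h1.trans (mul_le_mul_of_nonneg_left h2 (by norm_num))).trans ?_
    have : 0 ≤ (1 + e) * half (j + 1 + 1) := by positivity
    linarith
  have h6 := mul_le_mul_of_nonneg_left h5 (show 0 ≤ (R.gn : ℝ) * e by positivity)
  have e4 : half (j + 1 + 1) * Ident.muMin (j + 1) / ((j : ℝ) + 1 + 2) =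
      e / (1 + e) * half (j + 1 + 1) * Ident.muMin (j + 1) := by
    have e5 : e / (1 + e) = 1 / ((j : ℝ) + 1 + 2) := by
      rw [div_eq_div_iff (by positivity) (by positivity)]
      linear_combination hpe
    rw [e5]
    ring
  rw [e4]
  refine le_trans ?_ (mul_le_mul_of_nonneg_left hmu (by positivity))
  refine le_trans (add_le_add le_rfl (le_trans (le_of_eq (by ring)) h6)) ?_
  have h7 := mul_le_mul_of_nonneg_left (sub_nonneg.1 hbud)
    (show 0 ≤ e / (1 + e) * half (j + 1 + 1) by positivity)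
  refine le_trans (le_of_eq ?_) h7
  field_simp
  ring

end Vale.Agent.P237.Petty.Cor.Tiny100
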