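import Vale.Agent.P237.Petty.Cor.Tiny100.TailVals

/-!
# P237: the signs of a zone give the values beyond the bulk
-/

namespace Vale.Agent.P237.Petty.Cor.Tiny100

open Vale.Agent.P100.Bernstein
open Set

variable {P : Par} {R : Rem} {W : Zone} {y e : ℝ} {x : List ℝ} {zX eX : Expr}

theorem zone_end (hP : ParOk P) (hz : zX.eval x = y * e) (he : eX.eval x = e) (hy : 0 < y)
    (he0 : 0 < e) (he1 : e ≤ 1 / 99) (hye : y * e < 1)
    (hup : if W.up then 1 / 4 ≤ y * e else y * e ≤ 1 / 4) {k d : Expr} {K : ℝ}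
    (hk : k.eval x = K * d.eval x) (hd : 0 < d.eval x)
    (hW : ∀ a ∈ lowConds P zX eX W k d ++ highConds P zX eX R W k d, 0 ≤ a.eval x) :
    ∀ f ∈ tailFns P R W y e, 0 ≤ f K := by
  obtain ⟨hF, -⟩ := P.facts hP
  obtain ⟨hRl, hRh⟩ := rLo_pos he0.le he1
  have hg : 0 < P.gn := by have := hP.g_gt; omega
  have hc : 0 < 1 - y * e := by linarith
  have hQ0 : 0 < P.F + y ^ 2 := by positivity
  have hQ : 0 < e ^ 2 * (P.F + y ^ 2) := by positivity
  have hze : 0 < y * e := mul_pos hy he0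
  have hq : 0 < chordSlope y e := by unfold chordSlope; positivity
  have eRl : (tRl eX).eval x = rLo e := by simp [tRl, rLo, he]
  have eRh : (tRh eX).eval x = rHi e := by simp [tRh, rHi, he]
  have eDl := eval_tD P (k := k) (d := d) hz he hup eRl hRl.ne' hk hQ0.ne' hc.ne'
  have eDh := eval_tD P (k := k) (d := d) hz he hup eRh hRh.ne' hk hQ0.ne' hc.ne'
  have emu := eval_tMu P (k := k) (d := d) hz he hup hk hQ0.ne'
  simp only [lowConds, highConds, List.flatMap_cons, List.flatMap_nil, List.append_nil,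
    List.forall_mem_append, List.forall_mem_cons] at hW
  obtain ⟨⟨⟨⟨⟨a0, a1, a2, a3, a4, a5, a6, -⟩, ⟨⟨b0, -⟩, ⟨b1, b2, -⟩, ⟨b3, b4, -⟩⟩, ⟨⟨c0, -⟩,
    ⟨c1, c2, -⟩, ⟨c3, c4, -⟩⟩⟩, hf⟩, ⟨g0, -⟩⟩, ⟨w0, w1, w2, -⟩⟩ := hW
  have eLd : 2 + y * e * (1 - 1 / 4 * (1 - y * e)) > 0 := by
    have : 0 ≤ y * e * (1 - 1 / 4 * (1 - y * e)) := mul_nonneg hze.le (by linarith)
    linarith
  set Ld := 2 + y * e * (1 - 1 / 4 * (1 - y * e)) with hLd
  have er : y * e * (1 - 1 / 4 * (1 - y * e)) + e * (69314 / 100000 - 3 / 20 * e) * Ld =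
      ray1 y e * (Ld * (chordSlope y e * (e * (1 - y * e)))) / (1 - y * e) := by
    rw [ray1, farLog, ← hLd]
    field_simp
    ring
  simp only [Expr.eval_sub, Expr.eval_add, Expr.eval_mul, Expr.eval_pow, Expr.eval_num,
    Expr.eval_frac, ov, xg, eval_tC hz, eval_tQ P hz he, eval_tq hz he hc.ne', eval_tCq P hz he,
    eval_tB P hz he hc.ne', eval_tP0 P hg hz he, eval_tNh P he, eval_tNl P he, eval_xW,
    eval_tM (zX := zX) R hz hc.ne', eRl, eRh, eDl, eDh, emu, hk, hz, he,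
    show xW.eval x = 3 / 20 by simp [xW]] at a0 a1 a2 a3 a4 a5 a6 b0 b1 b2 b3 b4 c0 c1 c2 c3 c4 g0 w0 w1 w2
  push_cast at a0 a1 a2 a3 a4 a5 a6 b0 b1 b2 b3 b4 c0 c1 c2 c3 c4 g0 w0 w1 w2
  rw [← hLd] at b0 b1 b2 b3 b4 c0 c1 c2 c3 c4
  rw [er] at b0 b1 b2 b3 b4 c0 c1 c2 c3 c4
  have hC : P.g = (P.gn : ℝ) / 1000 := rfl
  unfold tailFns
  simp only [List.cons_append, List.nil_append, List.forall_mem_cons]
  refine ⟨?_, ?_, ?_, ?_, ?_, ?_, ?_, ?_, ?_, ?_, ?_, ?_, ?_, ?_, ?_, ?_, ?_, ?_, ?_, ?_, ?_, ?_⟩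
  all_goals set dv := d.eval x
  · exact nonneg_of_mul_nonneg_left (a0.trans (le_of_eq (by ring))) (mul_pos hQ hd)
  · exact nonneg_of_mul_nonneg_left (a1.trans (le_of_eq (by ring)))
      (show 0 < (1 - y * e) * e ^ 2 by positivity)
  · exact nonneg_of_mul_nonneg_left (a2.trans (le_of_eq (by ring)))
      (show 0 < e * ((1 - y * e) * rLo e * (e ^ 2 * (P.F + y ^ 2)) ^ 2 * dv) by positivity)
  · exact nonneg_of_mul_nonneg_left (a3.trans (le_of_eq (by ring)))
      (show 0 < (1 - y * e) * e * ((1 - y * e) * rLo e * (e ^ 2 * (P.F + y ^ 2)) ^ 2 * dv) by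
        positivity)
  · exact nonneg_of_mul_nonneg_left (a4.trans (le_of_eq (by ring)))
      (show 0 < (1 - y * e) * e * ((1 - y * e) * rLo e * (e ^ 2 * (P.F + y ^ 2)) ^ 2 * dv) by
        positivity)
  · exact nonneg_of_mul_nonneg_left (a5.trans (le_of_eq (by ring)))
      (show 0 < (1 - y * e) * e * ((1 - y * e) * rLo e * (e ^ 2 * (P.F + y ^ 2)) ^ 2 * dv) by
        positivity)
  · exact nonneg_of_mul_nonneg_left (a6.trans (le_of_eq (by ring)))
      (show 0 < (1 - y * e) * e * ((1 - y * e) * rLo e * (e ^ 2 * (P.F + y ^ 2)) ^ 2 * dv) by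
        positivity)
  · exact nonneg_of_mul_nonneg_left (b0.trans (le_of_eq (by ring)))
      (show 0 < Ld * (chordSlope y e * (e * (1 - y * e))) / (1 - y * e) by positivity)
  · exact nonneg_of_mul_nonneg_left (b1.trans (le_of_eq (by field_simp; try ring)))
      (show 0 < e * ((1 - y * e) * rLo e * (e ^ 2 * (P.F + y ^ 2)) ^ 2 * dv) *
        (Ld * (chordSlope y e * (e * (1 - y * e)))) by positivity)
  · exact nonneg_of_mul_nonneg_left (b2.trans (le_of_eq (by field_simp; try ring)))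
      (show 0 < e ^ 2 * ((1 - y * e) * rLo e * (e ^ 2 * (P.F + y ^ 2)) ^ 2 * dv) * (1 - y * e) *
        (Ld * (chordSlope y e * (e * (1 - y * e)))) by positivity)
  · exact nonneg_of_mul_nonneg_left (b3.trans (le_of_eq (by field_simp; try ring)))
      (show 0 < e * ((1 - y * e) * rLo e * (e ^ 2 * (P.F + y ^ 2)) ^ 2 * dv) *
        (Ld * (chordSlope y e * (e * (1 - y * e)))) by positivity)
  · exact nonneg_of_mul_nonneg_left (b4.trans (le_of_eq (by field_simp; try ring)))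
      (show 0 < e ^ 2 * ((1 - y * e) * rLo e * (e ^ 2 * (P.F + y ^ 2)) ^ 2 * dv) * (1 - y * e) *
        (Ld * (chordSlope y e * (e * (1 - y * e)))) by positivity)
  · exact nonneg_of_mul_nonneg_left (c0.trans (le_of_eq (by rw [ray2]; field_simp; try ring)))
      (show 0 < 2 * (Ld * (chordSlope y e * (e * (1 - y * e)))) / (1 - y * e) by positivity)
  · exact nonneg_of_mul_nonneg_left (c1.trans (le_of_eq (by rw [ray2]; field_simp; try ring)))
      (show 0 < e * ((1 - y * e) * rLo e * (e ^ 2 * (P.F + y ^ 2)) ^ 2 * dv) *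
        (2 * (Ld * (chordSlope y e * (e * (1 - y * e))))) by positivity)
  · exact nonneg_of_mul_nonneg_left (c2.trans (le_of_eq (by rw [ray2]; field_simp; try ring)))
      (show 0 < e ^ 2 * ((1 - y * e) * rLo e * (e ^ 2 * (P.F + y ^ 2)) ^ 2 * dv) * (1 - y * e) *
        (2 * (Ld * (chordSlope y e * (e * (1 - y * e))))) by positivity)
  · exact nonneg_of_mul_nonneg_left (c3.trans (le_of_eq (by rw [ray2]; field_simp; try ring)))
      (show 0 < e * ((1 - y * e) * rLo e * (e ^ 2 * (P.F + y ^ 2)) ^ 2 * dv) *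
        (2 * (Ld * (chordSlope y e * (e * (1 - y * e))))) by positivity)
  · exact nonneg_of_mul_nonneg_left (c4.trans (le_of_eq (by rw [ray2]; field_simp; try ring)))
      (show 0 < e ^ 2 * ((1 - y * e) * rLo e * (e ^ 2 * (P.F + y ^ 2)) ^ 2 * dv) * (1 - y * e) *
        (2 * (Ld * (chordSlope y e * (e * (1 - y * e))))) by positivity)
  · exact nonneg_of_mul_nonneg_left (g0.trans (le_of_eq (by
      rw [crossPen, hC]; field_simp; try ring)))
      (show 0 < y * e * (e ^ 2 * (P.F + y ^ 2) * dv) by positivity)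
  · exact nonneg_of_mul_nonneg_left (w0.trans (le_of_eq (by field_simp; try ring)))
      (show 0 < (1 - y * e) ^ 2 * (24 : ℝ) ^ 10 * e ^ 10 * rHi e *
        (e ^ 2 * (P.F + y ^ 2)) ^ 2 * dv * chordSlope y e by positivity)
  · exact nonneg_of_mul_nonneg_left (w1.trans (le_of_eq (by field_simp; try ring)))
      (show 0 < (1 - y * e) * (24 : ℝ) ^ 10 * e ^ 9 * rHi e *
        (e ^ 2 * (P.F + y ^ 2)) ^ 2 * dv * (y * e) by positivity)
  · exact nonneg_of_mul_nonneg_left (w2.trans (le_of_eq (by field_simp; try ring)))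
      (show 0 < (1 - y * e) * (24 : ℝ) ^ 10 * e ^ 9 * rHi e *
        (e ^ 2 * (P.F + y ^ 2)) ^ 2 * dv * (y * e) by positivity)
  · cases hfn : W.fn with
    | none =>
      simp only [hfn, List.forall_mem_cons, Expr.eval_sub, Expr.eval_add, Expr.eval_mul,
        Expr.eval_pow, Expr.eval_num, Expr.eval_frac, ov, xg, eval_tC hz, eval_tQ P hz he,
        eval_tNh P he, eval_tNl P he, eRl, eDl, hk, he,
        show xW.eval x = 3 / 20 by simp [xW]] at hf ⊢
      push_cast at hf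
      obtain ⟨hf0, hf1, -⟩ := hf
      refine ⟨nonneg_of_mul_nonneg_left (hf0.trans (le_of_eq (by field_simp; try ring)))
        (show 0 < e * ((1 - y * e) * rLo e * (e ^ 2 * (P.F + y ^ 2)) ^ 2 * d.eval x) by
          positivity),
        nonneg_of_mul_nonneg_left (hf1.trans (le_of_eq (by
          rw [crossPen, hC]; field_simp; try ring))) hd, by simp⟩
    | some f =>
      simp only [hfn, List.forall_mem_cons, Expr.eval_sub, Expr.eval_add, Expr.eval_mul,
        Expr.eval_pow, Expr.eval_num, Expr.eval_frac, ov, xg, eval_tC hz,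
        eval_tNh P he, eval_tNl P he, hk, he,
        show xW.eval x = 3 / 20 by simp [xW]] at hf ⊢
      push_cast at hf
      obtain ⟨hf0, -⟩ := hf
      refine ⟨nonneg_of_mul_nonneg_left (hf0.trans (le_of_eq (by
        rw [crossPen, hC]; field_simp; try ring))) hd, by simp⟩

/-- The values at the actual factor of the shadow. -/
theorem zone_values (hP : ParOk P) {p : ℕ} {ell s t a r q u δ : ℝ}
    (h : At p ell s t a r q u δ y e) (hz : zX.eval x = y * e) (he : eX.eval x = e)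
    (hup : if W.up then 1 / 4 ≤ y * e else y * e ≤ 1 / 4)
    (hW : ∀ a ∈ zoneConds P zX eX R W, 0 ≤ a.eval x) :
    ∀ f ∈ tailFns P R W y e, 0 ≤ f (P.K p s) := by
  obtain ⟨he0, he1, hy, -, hye, -, -⟩ := h.basic
  obtain ⟨-, -, -, hK1, hK2⟩ := P.shadow_range hP h
  obtain ⟨hRl, hRh⟩ := rLo_pos he0.le he1
  have hc : 0 < 1 - y * e := by linarith
  simp only [zoneConds, List.flatMap_cons, List.flatMap_nil, List.append_nil,
    List.forall_mem_append] at hW
  obtain ⟨⟨h1, h2⟩, h3, h4⟩ := hW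
  have eR1 : (tRl eX).eval x = rLo e := by simp [tRl, rLo, he]
  have eR2 : (tRh eX).eval x = rHi e := by simp [tRh, rHi, he]
  have eG : (xG P).eval x = P.G := by simp [xG, ov, Par.G]
  refine tailFns_between P R W y e ?_ ?_ hK1 hK2
  · refine zone_end hP hz he hy he0 he1 hye hup ?_ ?_ (List.forall_mem_append.2 ⟨h1, h2⟩)
    · simp [eval_tC hz, eR1, eG]
      field_simp
    · simp [eval_tC hz, eR1]
      linarith
  · refine zone_end hP hz he hy he0 he1 hye hup ?_ ?_ (List.forall_mem_append.2 ⟨h3, h4⟩)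
    · simp [eval_tC hz, eR2, eG]
      field_simp
    · simp [eval_tC hz]
      linarith

end Vale.Agent.P237.Petty.Cor.Tiny100
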