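import Vale.Agent.P237.Petty.Cor.Tiny100.Poly

/-!
# P237: the signs of the cell near zero beyond the bulk

Here the variables are `z = s ^ 2` and `e = 1 / (p + 1)`, with `e y = z`. The factor `K` of the
shadow only enters affinely, so it is tested at both ends of its range.
-/

namespace Vale.Agent.P237.Petty.Cor.Tiny100

open Vale.Agent.P100.Bernstein

/-- A range of `z` with the lower bounds of the slope and of the curvature over `K`. -/
structure Zone where
  /-- the start, over `1000` -/
  z0 : ℕ
  /-- the end, over `1000` -/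
  z1 : ℕ
  /-- the slope over `K`, over `10000` -/
  mn : ℕ
  /-- the curvature over `K`, over `10000`, or `none` next to the end -/
  fn : Option ℕ
  /-- the lift is on -/
  up : Bool

section
variable (P : Par) (z e : Expr)

/-- `1 - z`. -/
def tC : Expr := .num 1 - z

/-- Below the square of the ratio. -/
def tRl : Expr := .num 1 - e * (.num 1 - .frac 3 2 * e + .frac 9 4 * e ^ 2)

/-- Above the square of the ratio. -/
def tRh : Expr := .num 1 - e * (.num 1 - .frac 3 2 * e + .frac 17 10 * e ^ 2)

/-- The lower multiplier. -/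
def tNl : Expr := xG P * (.frac 1 2 - .frac 3 2 * e) - (.frac 3 8 - .frac 253 200 * e)

/-- The upper multiplier. -/
def tNh : Expr := xG P * (.frac 1 2 - .frac 36 25 * e) - (.frac 3 8 - .frac 29 20 * e)

/-- The lift. -/
def tSig (up : Bool) : Expr :=
  if up then ov P.Sn 1 * (z - .frac 1 4) ^ 2 else .num 0

/-- The slope of the lift. -/
def tSig' (up : Bool) : Expr :=
  if up then ov P.Sn 1 * (.num 2 * (z - .frac 1 4)) else .num 0

/-- The saturation, homogeneous. -/
def tQ : Expr := ov P.Fn 1 * e ^ 2 + z ^ 2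

/-- The hump times `e` and the saturation. -/
def tH : Expr := xlF P * e * (z - xr P * e) ^ 2

/-- The slope in `δ` times `e`, times `c R Q ^ 2 d`, for `K = k / d`. -/
def tD (up : Bool) (R k d : Expr) : Expr :=
  z * (.num 1 - e) * ((k * (.num 1 + tSig P z up)) * R - xG P * tC z * d) * tQ P z e ^ 2 -
    .num 2 * z * tSig' P z up * k * e * tC z * R * tQ P z e ^ 2 +
    z * tH P z e * R * tQ P z e * d -
    .num 4 * z * xlF P * e ^ 3 * ((z - xr P * e) * (ov P.Fn 1 * e + xr P * z)) * tC z * R * d

/-- The slope in `-u`, times `Q d`. -/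
def tMu (up : Bool) (k d : Expr) : Expr := k * tSig P z up * tQ P z e + tH P z e * d

/-- Half the coefficient of `-u δ`, times `e`. -/
def tCq : Expr := xa P * tC z * e + xb P * z

/-- The coefficient of `δ ^ 2`, times `c e ^ 2`. -/
def tB : Expr :=
  xa P * (.num 1 + z) * e ^ 2 * tC z + (xa P - xb P) * z * e * tC z + xb P * z ^ 2 -
    xg P ^ 2 * tNh P e * (z * e) * (.num 1 + .num 3 * e) * tC z

/-- The part of the curvature free of the shadow. -/
def tP0 : Expr :=
  .num 2 * (.num 1 + xg P) * tNl P e * tC z - xS P * tNh P e * z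

/-- The numerator of the slope of the chord, times `e`. -/
def tq : Expr := z + .num 2 * (z * e) + e

/-- The weight of the tail over `e`, times `24 ^ 10 e ^ 9 c`. -/
def tM (R : Rem) : Expr := ov R.gn 1 * z ^ 10

/-- The signs that need the slope in `δ` from below. -/
def lowConds (W : Zone) (k d : Expr) : List Expr :=
  let Rr := tRl e
  let c := tC z
  let S := c * Rr * tQ P z e ^ 2 * d
  let D := tD P z e W.up Rr k d
  let mu := tMu P z e W.up k d
  let q := tq z e
  let K := k * tQ P z e
  let one := tQ P z e * d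
  let a2 := .frac 1 2 * (.frac 5 8 * K - tP0 P z e * one)
  let ab := K - tP0 P z e * one
  let Ld := .num 2 + z * (.num 1 - .frac 1 4 * c)
  let rn := z * (.num 1 - .frac 1 4 * c) + e * (.frac 69314 100000 - xW * e) * Ld
  let rd := Ld * q
  let cS := c * Rr * tQ P z e
  [mu, tB P z e, D,
    c * D - mu * cS * q, c * D - (mu + a2) * cS * q,
    .frac 11 8 * c * (D - .num 2 * tCq P z e * S) - mu * cS * q,
    .frac 11 8 * c * (D - .num 2 * tCq P z e * S) - (mu + a2) * cS * q] ++
  ([(rn, rd), (.num 4 * rn - rd, .num 2 * rd)].flatMap fun r =>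
    [r.1] ++ [mu, mu + ab].flatMap fun m =>
      let t := D * c * r.1 - e * m * cS * r.2
      [t, e * t * c + .frac 19 10 * (tB P z e * c * r.1 - .num 2 * e * tCq P z e * c * r.2) * S]) ++
  (match W.fn with
    | none => [c * D * .frac 1 4 - k * cS * tQ P z e,
      .num 2 * (.num 1 + xg P) * tNl P e * c * d -
        .num 2 * tNh P e * (xg P ^ 2 - .num 1) * xW * e ^ 2 * c * d]
    | some f =>
      [.num 2 * (.num 1 + xg P) * tNl P e * c * d -
        .num 2 * tNh P e * (xg P ^ 2 - .num 1) * xW * e ^ 2 * c * d - ov f 10000 * k]) ++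
  [z * (mu - ov W.mn 10000 * K) -
    (.num 2 * tCq P z e * xW * e * c +
      z * (.num 2 * tNh P e * (xg P ^ 2 - .num 1) * xW * e ^ 2 * c)) * one]

/-- The signs that need the slope in `δ` from above. -/
def highConds (R : Rem) (W : Zone) (k d : Expr) : List Expr :=
  let Rr := tRh e
  let c := tC z
  let D := tD P z e W.up Rr k d
  let mu := tMu P z e W.up k d
  let a2 := .frac 1 2 * (.frac 5 8 * (k * tQ P z e) - tP0 P z e * (tQ P z e * d))
  let cS := c * Rr * tQ P z e
  let big := e ^ 9 * (.frac 24 1) ^ 10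
  [tM z R * Rr * tQ P z e ^ 2 * d * tq z e - .num 2 * big * c * D,
    tM z R * Rr * tQ P z e ^ 2 * d * z - big * (.num 2 * mu * cS * z + c * D),
    tM z R * Rr * tQ P z e ^ 2 * d * z - big * (.num 2 * (mu + a2) * cS * z + c * D)]

/-- The signs of a zone. -/
def zoneConds (R : Rem) (W : Zone) : List Expr :=
  let lo := (xG P * .num 2 * tRl e, tC z + tRl e)
  let hi := (xG P * (tC z + tRh e), .num 2 * tC z)
  [lo, hi].flatMap fun K => lowConds P z e W K.1 K.2 ++ highConds P z e R W K.1 K.2

end

/-- The test of a zone above a quarter. -/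
def zoneOk (P : Par) (R : Rem) (m0 m1 : ℕ) (W : Zone) (T : Tree) : Bool :=
  (zoneConds P (.var 0) (.var 1) R W).all fun a =>
    Few.quickCert a [⟨W.z0, W.z1, 1000⟩, ⟨m0, m1, m0 * m1⟩] T

/-- The value of `e` between `1 / m1` and `z / 24`. -/
def slantE (m1 : ℕ) : Expr :=
  .frac 1 m1 + (.frac 1 24 * .var 0 - .frac 1 m1) * .var 1

/-- The test of the zone below a quarter. -/
def slantOk (P : Par) (R : Rem) (m1 : ℕ) (W : Zone) (T : Tree) : Bool :=
  (zoneConds P (.var 0) (slantE m1) R W).all fun a =>
    Few.quickCert a [⟨96, m1, 4 * m1⟩, ⟨0, 1, 1⟩] T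

end Vale.Agent.P237.Petty.Cor.Tiny100
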