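import Vale.Agent.P237.Petty.Cor.Tiny100.BulkSigns
import Vale.Agent.P237.Petty.Cor.Tiny100.TailPoly

/-!
# P237: the values that decide the cell near zero beyond the bulk

Each is affine in the factor of the shadow, so its two ends decide it.
-/

namespace Vale.Agent.P237.Petty.Cor.Tiny100

open Vale.Agent.P100.Bernstein
open Set

section
variable (P : Par) (R : Rem) (W : Zone) (y e : ℝ)

/-- The slope in `-u`. -/
noncomputable def muAt (K : ℝ) : ℝ := K * P.lift (y * e) + e * P.hump y

/-- The curvature free of the shadow. -/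
noncomputable def curv0 : ℝ :=
  2 * (1 + P.g) * P.nl e * (1 - y * e) - P.cross * P.nh e * (y * e)

/-- The slope of the chord at the abscissa. -/
noncomputable def chordSlope : ℝ := (y + 2 * (y * e) + 1) / (1 - y * e)

/-- The gain in the logarithm of the tail chord half way to the end. -/
noncomputable def farLog : ℝ :=
  y * (1 - 1 / 4 * (1 - y * e)) / (2 + y * e * (1 - 1 / 4 * (1 - y * e))) + 69314 / 100000 -
    3 / 20 * e

/-- The slope of that chord, from `u = 1` on. -/
noncomputable def ray1 : ℝ := farLog y e / chordSlope y e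

/-- The slope at `u = 1`. -/
noncomputable def ray2 : ℝ := 2 * ray1 y e - (1 - y * e) / 2

/-- What the cross terms cost against a negative displacement. -/
noncomputable def crossPen : ℝ :=
  2 * P.nh e * (P.g ^ 2 - 1) * (3 / 20) * e ^ 2 * (1 - y * e)

/-- The values. -/
noncomputable def tailFns : List (ℝ → ℝ) :=
  let DL := fun K => P.linD e y K (rLo e)
  let DH := fun K => P.linD e y K (rHi e)
  let μ := muAt P y e
  let a2 := fun K => μ K + 1 / 2 * (5 / 8 * K - curv0 P y e)
  let ab := fun K => μ K + (K - curv0 P y e)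
  let C := P.quadC e y
  let B := P.quadB e y (P.nh e)
  let q := chordSlope y e
  let T := R.tail y e
  [μ, fun _ => B, DL,
    fun K => DL K - μ K * q, fun K => DL K - a2 K * q,
    fun K => 11 / 8 * (DL K - 2 * C) - μ K * q, fun K => 11 / 8 * (DL K - 2 * C) - a2 K * q,
    fun _ => ray1 y e,
    fun K => ray1 y e * DL K - μ K,
    fun K => ray1 y e * DL K - μ K + 19 / 10 * (ray1 y e * B - 2 * C),
    fun K => ray1 y e * DL K - ab K,
    fun K => ray1 y e * DL K - ab K + 19 / 10 * (ray1 y e * B - 2 * C),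
    fun _ => ray2 y e,
    fun K => ray2 y e * DL K - μ K,
    fun K => ray2 y e * DL K - μ K + 19 / 10 * (ray2 y e * B - 2 * C),
    fun K => ray2 y e * DL K - ab K,
    fun K => ray2 y e * DL K - ab K + 19 / 10 * (ray2 y e * B - 2 * C),
    fun K => μ K - (W.mn : ℝ) / 10000 * K -
      (2 * C * (3 / 20 * e) * (1 - y * e) / y + crossPen P y e),
    fun K => T - 2 * DH K / q,
    fun K => T - (2 * μ K + (1 - y * e) * DH K / y),
    fun K => T - (2 * a2 K + (1 - y * e) * DH K / y)] ++
  match W.fn with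
    | none => [fun K => (1 - y * e) * DL K / 4 - K / e,
        fun _ => 2 * (1 + P.g) * P.nl e * (1 - y * e) - crossPen P y e]
    | some f => [fun K =>
        2 * (1 + P.g) * P.nl e * (1 - y * e) - crossPen P y e - (f : ℝ) / 10000 * K]

theorem tailFns_affine :
    ∀ f ∈ tailFns P R W y e, ∀ x x₁ θ : ℝ, f (θ * x + (1 - θ) * x₁) = θ * f x + (1 - θ) * f x₁ := by
  unfold tailFns
  cases W.fn <;>
  · simp only [List.cons_append, List.nil_append, List.forall_mem_cons, List.not_mem_nil,
      false_implies, implies_true, and_true, muAt, Par.linD]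
    repeat' constructor
    all_goals intro x x₁ θ; ring

/-- Two nonnegative ends decide all values between them. -/
theorem tailFns_between {K0 K1 K : ℝ} (h0 : ∀ f ∈ tailFns P R W y e, 0 ≤ f K0)
    (h1 : ∀ f ∈ tailFns P R W y e, 0 ≤ f K1) (hK0 : K0 ≤ K) (hK1 : K ≤ K1) :
    ∀ f ∈ tailFns P R W y e, 0 ≤ f K := by
  intro f hf
  rcases eq_or_lt_of_le (hK0.trans hK1) with h | h
  · rw [show K = K0 by linarith]; exact h0 f hf
  have hd : 0 < K1 - K0 := by linarith
  have e1 : K = (K1 - K) / (K1 - K0) * K0 + (1 - (K1 - K) / (K1 - K0)) * K1 := by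
    field_simp; ring
  rw [e1, tailFns_affine P R W y e f hf]
  have a : 0 ≤ (K1 - K) / (K1 - K0) := div_nonneg (by linarith) hd.le
  have b : (K1 - K) / (K1 - K0) ≤ 1 := (div_le_one hd).2 (by linarith)
  exact add_nonneg (mul_nonneg a (h0 f hf)) (mul_nonneg (by linarith) (h1 f hf))

end

section eval

variable (P : Par) {y e : ℝ} {x : List ℝ} {zX eX k d : Expr}

theorem eval_tQ (hz : zX.eval x = y * e) (he : eX.eval x = e) :
    (tQ P zX eX).eval x = e ^ 2 * (P.F + y ^ 2) := by
  simp [tQ, ov, Par.F, hz, he]; ring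

theorem eval_tC (hz : zX.eval x = y * e) : (tC zX).eval x = 1 - y * e := by simp [tC, hz]

theorem eval_tH (hz : zX.eval x = y * e) (he : eX.eval x = e) (hF : P.F + y ^ 2 ≠ 0) :
    (tH P zX eX).eval x = e * P.hump y * (e ^ 2 * (P.F + y ^ 2)) := by
  simp [tH, xlF, xr, ov, Par.hump, Par.l, Par.r, Par.F, hz, he] at hF ⊢
  field_simp

theorem eval_tSig {up : Bool} (hz : zX.eval x = y * e)
    (hup : if up then 1 / 4 ≤ y * e else y * e ≤ 1 / 4) :
    (tSig P zX up).eval x = P.lift (y * e) ∧ (tSig' P zX up).eval x = P.lift' (y * e) := by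
  cases up
  · simp only [Bool.false_eq_true, ↓reduceIte] at hup
    simp [tSig, tSig', (P.lift_zero hup).1, (P.lift_zero hup).2]
  · simp only [↓reduceIte] at hup
    have h : 0 ≤ y * e - 1 / 4 := sub_nonneg.2 hup
    simp only [tSig, tSig', ↓reduceIte, Expr.eval_mul, Expr.eval_pow, Expr.eval_sub,
      Expr.eval_frac, Expr.eval_num, ov, hz, Par.lift, Par.lift', Par.Sg,
      Tail.sqp_of_nonneg h, Tail.sqp', max_eq_left h]
    push_cast
    constructor <;> ring

theorem eval_tD {up : Bool} {Rr : Expr} {R K : ℝ} (hz : zX.eval x = y * e) (he : eX.eval x = e)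
    (hup : if up then 1 / 4 ≤ y * e else y * e ≤ 1 / 4) (hR : Rr.eval x = R) (hR0 : R ≠ 0)
    (hk : k.eval x = K * d.eval x) (hF : P.F + y ^ 2 ≠ 0) (hc : 1 - y * e ≠ 0) :
    (tD P zX eX up Rr k d).eval x = P.linD e y K R * e *
      ((1 - y * e) * R * (e ^ 2 * (P.F + y ^ 2)) ^ 2 * d.eval x) := by
  obtain ⟨h1, h2⟩ := eval_tSig P hz hup
  simp only [tD, Expr.eval_sub, Expr.eval_mul, Expr.eval_add, Expr.eval_pow, Expr.eval_num,
    eval_tQ P hz he, eval_tC hz, eval_tH P hz he hF, h1, h2, hR, hk, hz, he, Par.linD]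
  simp only [xG, xr, xlF, ov, Expr.eval_frac]
  simp only [Par.hump', Par.G, Par.l, Par.r, Par.F] at hF ⊢
  push_cast
  field_simp
  ring

theorem eval_tMu {up : Bool} {K : ℝ} (hz : zX.eval x = y * e) (he : eX.eval x = e)
    (hup : if up then 1 / 4 ≤ y * e else y * e ≤ 1 / 4) (hk : k.eval x = K * d.eval x)
    (hF : P.F + y ^ 2 ≠ 0) :
    (tMu P zX eX up k d).eval x = muAt P y e K * (e ^ 2 * (P.F + y ^ 2) * d.eval x) := by
  obtain ⟨h1, -⟩ := eval_tSig P hz hup
  simp only [tMu, Expr.eval_mul, Expr.eval_add, eval_tQ P hz he, eval_tH P hz he hF, h1, hk, muAt]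
  ring

theorem eval_tCq (hz : zX.eval x = y * e) (he : eX.eval x = e) :
    (tCq P zX eX).eval x = e * P.quadC e y := by
  simp [tCq, xa, xb, ov, eval_tC hz, Par.quadC, Par.a, Par.b, hz, he]; ring

theorem eval_tNh (he : eX.eval x = e) : (tNh P eX).eval x = P.nh e := by
  simp [tNh, xG, ov, Par.nh, Par.G, he]; ring

theorem eval_tNl (he : eX.eval x = e) : (tNl P eX).eval x = P.nl e := by
  simp [tNl, xG, ov, Par.nl, Par.G, he]; ring

theorem eval_tB (hz : zX.eval x = y * e) (he : eX.eval x = e) (hc : 1 - y * e ≠ 0) :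
    (tB P zX eX).eval x = (1 - y * e) * e ^ 2 * P.quadB e y (P.nh e) := by
  simp [tB, xa, xb, xg, ov, eval_tC hz, eval_tNh P he, Par.quadB, Par.a, Par.b, Par.g, hz, he]
  field_simp

theorem eval_tP0 (hg : 0 < P.gn) (hz : zX.eval x = y * e) (he : eX.eval x = e) :
    (tP0 P zX eX).eval x = curv0 P y e := by
  have : (0 : ℝ) < P.gn := by exact_mod_cast hg
  simp only [tP0, xS, xg, ov, Expr.eval_sub, Expr.eval_add, Expr.eval_mul, Expr.eval_num,
    Expr.eval_frac, eval_tC hz, eval_tNh P he, eval_tNl P he, curv0, Par.cross, Par.g, hz]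
  push_cast
  field_simp
  ring

theorem eval_tq (hz : zX.eval x = y * e) (he : eX.eval x = e) (hc : 1 - y * e ≠ 0) :
    (tq zX eX).eval x = chordSlope y e * (e * (1 - y * e)) := by
  simp [tq, chordSlope, hz, he]
  field_simp

theorem eval_tM (R : Rem) (hz : zX.eval x = y * e) (hc : 1 - y * e ≠ 0) :
    (tM zX R).eval x = R.tail y e * ((1 - y * e) * (24 : ℝ) ^ 10 * e ^ 9) := by
  simp [tM, ov, Rem.tail, hz]
  field_simp

end eval

end Vale.Agent.P237.Petty.Cor.Tiny100
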