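import Vale.Agent.P237.Petty.Cor.Tiny100.BulkDown
import Vale.Agent.P237.Petty.Cor.Tiny100.TailVals

/-!
# P237: the cell near zero beyond the bulk, from the values of a zone
-/

namespace Vale.Agent.P237.Petty.Cor.Tiny100

open Set

variable {p : ℕ} {ell s t a r q u δ y e : ℝ} {P : Par}

/-- The side conditions of a zone at a point. -/
def ZoneSide (W : Zone) (y e : ℝ) : Prop :=
  match W.fn with
  | none => 40000 ≤ W.mn ∧ 9 / 10 ≤ y * e
  | some f => ∀ v : ℝ, v ≤ 0 → -1 < v →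
      0 ≤ Real.log (1 + v) + (1 + (W.mn : ℝ) / 10000) * (-v) +
        (f : ℝ) / 10000 * (v ^ 2 / (1 + v))

/-- `u` up to one and `δ` positive. -/
theorem small_u {M m m' D B C X A ell k : ℝ} (hk : 0 < k) (hu : 0 ≤ u) (hu1 : u ≤ 1) (hm : 0 ≤ m)
    (hX : 0 ≤ X) (hB : 0 ≤ B) (hC : 0 ≤ C) (hell : 0 ≤ ell)
    (hch : u + 3 / 8 * u ^ 2 - 2 * ell ≤ X * k)
    (hA : -m * u ≤ -m' * u + A * (u ^ 2 / (1 + u)))
    (h0 : 0 ≤ D - m * k) (h1 : 0 ≤ 11 / 8 * (D - 2 * C) - m * k) (hM : 2 * D / k ≤ M) :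
    -(ell * M) ≤ -m' * u + D * X + A * (u ^ 2 / (1 + u)) + B * X ^ 2 - 2 * C * (u * X) := by
  have hD : 0 ≤ D - 2 * C * u := by
    have h3 : 0 ≤ D - 2 * C := by nlinarith [mul_nonneg hm hk.le]
    nlinarith [mul_le_mul_of_nonneg_left hu1 (mul_nonneg zero_le_two hC)]
  have a1 : 0 ≤ (1 + 3 / 8 * u) * (D - 2 * C * u) - m * k := by
    have e : (1 + 3 / 8 * u) * (D - 2 * C * u) - m * k = (1 - u) * (D - m * k) +
        u * (11 / 8 * (D - 2 * C) - m * k) + 3 / 4 * C * (u * (1 - u)) := by ring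
    rw [e]
    have : 0 ≤ 1 - u := by linarith
    positivity
  have a2 := mul_le_mul_of_nonneg_right hch hD
  have a3 := mul_nonneg hu a1
  have a4 := mul_le_mul_of_nonneg_left hM hell
  have a5 : 0 ≤ ell * (C * u) := mul_nonneg hell (mul_nonneg hC hu)
  have a6 : 0 ≤ B * X ^ 2 * k := mul_nonneg (mul_nonneg hB (sq_nonneg X)) hk.le
  have a7 := mul_le_mul_of_nonneg_right hA hk.le
  rw [mul_div_assoc'] at a4
  rw [div_le_iff₀ hk] at a4
  refine le_of_mul_le_mul_right ?_ hk
  linarith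

/-- `u` from one on. -/
theorem large_u {m m' D B C X A ρ : ℝ} (hu : 1 ≤ u) (hm : 0 ≤ m) (hX : 0 ≤ X) (hX1 : X ≤ 19 / 10)
    (hD : 0 ≤ D) (hB : 0 ≤ B) (hC : 0 ≤ C) (hρ : 0 ≤ ρ) (hρX : ρ * u ≤ X)
    (hA : -m * u ≤ -m' * u + A * (u ^ 2 / (1 + u)))
    (h0 : 0 ≤ ρ * D - m) (h1 : 0 ≤ ρ * D - m + 19 / 10 * (ρ * B - 2 * C)) :
    0 ≤ -m' * u + D * X + A * (u ^ 2 / (1 + u)) + B * X ^ 2 - 2 * C * (u * X) := by
  have a1 := affine_nonneg h0 (q := ρ * B - 2 * C) (w := 19 / 10) (by linarith) hX hX1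
  rcases eq_or_lt_of_le hρ with h | h
  · subst h
    have e1 : m = 0 := by linarith
    have e2 : C = 0 := by linarith
    subst e1 e2
    have : 0 ≤ D * X := mul_nonneg hD hX
    have : 0 ≤ B * X ^ 2 := by positivity
    linarith
  have a2 := mul_le_mul_of_nonneg_left hρX (show 0 ≤ m + 2 * C * X by positivity)
  have a3 := mul_nonneg hX a1
  have a4 := mul_le_mul_of_nonneg_right hA hρ
  refine le_of_mul_le_mul_right ?_ h
  linarith

/-- Negative displacements and `u` between zero and twice the value. -/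
theorem back_u_tail {M m m' D B C X A ell κ : ℝ} (hu : 0 ≤ u) (hu1 : u ≤ 2 * ell) (hm : 0 ≤ m)
    (hX : 0 ≤ X) (hXκ : X ≤ ell * κ) (hD : 0 ≤ D) (hB : 0 ≤ B) (hC : 0 ≤ C) (hell : 0 ≤ ell)
    (hA : -m * u ≤ -m' * u + A * (u ^ 2 / (1 + u))) (hM : 2 * m + κ * D ≤ M) :
    -(ell * M) ≤ -m' * u - D * X + A * (u ^ 2 / (1 + u)) + B * X ^ 2 + 2 * C * (u * X) := by
  have a1 := mul_le_mul_of_nonneg_left hu1 hm
  have a2 := mul_le_mul_of_nonneg_left hXκ hD
  have a3 := mul_le_mul_of_nonneg_left hM hell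
  have a4 : 0 ≤ C * (u * X) := mul_nonneg hC (mul_nonneg hu hX)
  have a5 : 0 ≤ B * X ^ 2 := by positivity
  linarith

/-- The curvature with a slope instead. -/
theorem curv_slope {m0 A K P0 w : ℝ} (hu : 0 ≤ u) (hv : 0 < 1 + u) (hw : u / (1 + u) ≤ w)
    (hA : P0 - K ≤ A) :
    ∃ m, (m = m0 ∨ m = m0 + w * (K - P0)) ∧ m0 ≤ m ∧
      -m * u ≤ -m0 * u + A * (u ^ 2 / (1 + u)) := by
  have hq : 0 ≤ u ^ 2 / (1 + u) := by positivity
  have a := mul_le_mul_of_nonneg_right hA hq
  rcases le_total (K - P0) 0 with h | h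
  · exact ⟨m0, Or.inl rfl, le_rfl, by nlinarith⟩
  · refine ⟨_, Or.inr rfl, le_add_of_nonneg_right
      (mul_nonneg ((div_nonneg hu hv.le).trans hw) h), ?_⟩
    have e : u ^ 2 / (1 + u) = u / (1 + u) * u := by ring
    have b := mul_le_mul_of_nonneg_right hw (mul_nonneg hu h)
    rw [e] at a ⊢
    linarith

theorem quadA_floor (hP : ParOk P) (h : At p ell s t a r q u δ y e) :
    (u ≤ 1 → curv0 P y e - 5 / 8 * P.K p s ≤ P.quadA e y (P.nu p) (P.K p s) (1 + u)) ∧
      curv0 P y e - P.K p s ≤ P.quadA e y (P.nu p) (P.K p s) (1 + u) := by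
  obtain ⟨he0, -, hy, -, hye, hu, -⟩ := h.basic
  obtain ⟨-, h1, h2⟩ := P.mult_bounds hP h.big
  rw [h.e_eq] at h1 h2
  obtain ⟨hK, -⟩ := P.shadow_range hP h
  obtain ⟨-, hg, -, -, -, -, -, -, hcr⟩ := P.facts hP
  have hc : 0 < 1 - y * e := by linarith
  have a1 := mul_le_mul_of_nonneg_left h1 (show 0 ≤ 2 * (1 + P.g) * (1 - y * e) by positivity)
  have a2 := mul_le_mul_of_nonneg_left h2 (show 0 ≤ P.cross * (y * e) by positivity)
  have hd : 0 < 2 * (1 + u + 2) := by linarith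
  unfold Par.quadA curv0
  refine ⟨fun hu1 => ?_, ?_⟩
  · have : (2 * (1 + u) + 1) / (2 * (1 + u + 2)) ≤ 5 / 8 := by rw [div_le_iff₀ hd]; linarith
    have := mul_le_mul_of_nonneg_left this hK.le
    linarith
  · have : (2 * (1 + u) + 1) / (2 * (1 + u + 2)) ≤ 1 := by rw [div_le_iff₀ hd]; linarith
    have := mul_le_mul_of_nonneg_left this hK.le
    linarith

theorem pinned_short (h : At p ell s t a r q u δ y e) :
    -δ ≤ ell * ((1 - y * e) / y) := by
  obtain ⟨he0, -, hy, -, hye, -, -⟩ := h.basic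
  have hc : 0 < 1 - y * e := by linarith
  have hd : 0 < y + 2 * (y * e) + 3 := by positivity
  rw [← mul_div_assoc, le_div_iff₀ hy]
  refine le_trans (le_of_eq (mul_comm _ _)) (h.box_lo.trans (mul_le_mul_of_nonneg_left ?_
    h.ell_nonneg))
  rw [div_le_iff₀ hd]
  exact mul_le_mul_of_nonneg_left (by linarith) hc.le

theorem disp_short (h : At p ell s t a r q u δ y e) (hz : 3 / 25 ≤ y * e) : δ ≤ 19 / 10 := by
  obtain ⟨-, -, -, hye, -, -, -⟩ := h.basic
  have hs := h.state.state.s_mem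
  have ht := h.state.state.t_mem
  have : 100 / 290 ≤ s := by nlinarith [hs.1]
  rw [← h.d_eq, div_le_iff₀ hs.1]
  linarith [ht.2]

theorem slope_actual (hP : ParOk P) (h : At p ell s t a r q u δ y e) :
    P.linD e y (P.K p s) (rLo e) ≤ P.linD e y (P.K p s) (Ident.b0 p ^ 2) ∧
      P.linD e y (P.K p s) (Ident.b0 p ^ 2) ≤ P.linD e y (P.K p s) (rHi e) := by
  obtain ⟨he0, he1, hy, -, -, -, -⟩ := h.basic
  obtain ⟨hRl, -⟩ := rLo_pos he0.le he1
  obtain ⟨-, -, hG, -⟩ := P.facts hP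
  obtain ⟨-, hR1, hR2, -, -⟩ := P.shadow_range hP h
  have hc : 0 ≤ y * (1 - e) := mul_nonneg hy.le (by linarith)
  have a1 := mul_le_mul_of_nonneg_left
    (div_le_div_of_nonneg_left (show 0 ≤ P.G by linarith) hRl hR1) hc
  have a2 := mul_le_mul_of_nonneg_left
    (div_le_div_of_nonneg_left (show 0 ≤ P.G by linarith) (hRl.trans_le hR1) hR2) hc
  unfold Par.linD
  constructor <;> linarith

theorem mu_at (h : At p ell s t a r q u δ y e) : P.mu p s = muAt P y e (P.K p s) := by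
  obtain ⟨-, -, -, hye, -, -, -⟩ := h.basic
  rw [Par.mu, muAt, hye, h.y_eq, h.e_eq]

/-- Past the middle of `[s, 1]` with `u ≤ 0`. -/
theorem far_end (hP : ParOk P) (h : At p ell s t a r q u δ y e) (hu : u ≤ 0)
    (ht : (1 + s) / 2 < t) (hD : P.K p s / e ≤
      (1 - y * e) * P.linD e y (P.K p s) (Ident.b0 p ^ 2) / 4)
    (hμ : 0 ≤ P.mu p s) (hB : 0 ≤ P.quadB e y (P.nu p)) :
    ell * wS p (arc s) ≤ P.cell p ell s t a r := by
  obtain ⟨he0, -, hy, hye', hye, hu1, -⟩ := h.basic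
  obtain ⟨hF, hg, hG, -⟩ := P.facts hP
  obtain ⟨hn0, hn1, -⟩ := P.mult_bounds hP h.big
  obtain ⟨hK, -⟩ := P.shadow_range hP h
  have hν : 0 ≤ P.nu p := hn0.trans hn1
  have hs := h.state.state.s_mem
  have hc : 0 < 1 - y * e := by linarith
  have hd : (1 - y * e) / 4 ≤ δ := by
    rw [← h.d_eq, le_div_iff₀ hs.1, hye']
    have a1 := mul_le_mul_of_nonneg_left (show (1 + s) * s ≤ 2 by nlinarith)
      (show 0 ≤ 1 - s by linarith [hs.2])
    linarith
  have hD0 : 0 ≤ P.linD e y (P.K p s) (Ident.b0 p ^ 2) := by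
    refine nonneg_of_mul_nonneg_right ?_ (show 0 < (1 - y * e) / 4 by linarith)
    have : 0 ≤ P.K p s / e := by positivity
    linarith
  have hd0 : 0 < δ := lt_of_lt_of_le (by linarith) hd
  rw [show P.cell p ell s t a r = _ from P.cell_eq hF h.state h.u_eq h.d_eq h.y_eq, h.e_eq]
  have hC := P.quadC_nonneg hP h
  have ha := h.state.state.pos
  have harc := h.state.state.arc_pos'
  have hgam : 0 ≤ P.gam p * Ident.b0 p := by
    have := Ident.b0_pos p
    have : 0 ≤ P.G := by linarith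
    unfold Par.gam
    positivity
  have a1 : -(P.K p s / e) ≤ P.gam p * Ident.b0 p * (1 / a - 1 / arc s) := by
    have e1 : P.K p s / e = P.gam p * Ident.b0 p * (1 / arc s) := by
      rw [← h.e_eq, Par.K, Par.gam, eps]; field_simp
    rw [e1]
    have : 0 ≤ P.gam p * Ident.b0 p * (1 / a) := mul_nonneg hgam (by positivity)
    linarith
  have a2 := mul_le_mul_of_nonneg_left hd hD0
  have a3 : 0 ≤ (P.K p s + P.mu p s) * -u := mul_nonneg (by linarith) (by linarith)
  have a4 : 0 ≤ P.quadC e y * (-u * δ) := mul_nonneg hC (mul_nonneg (by linarith) hd0.le)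
  have a5 : 0 ≤ 2 * (1 + P.g) * P.nu p * (1 - s ^ 2) * (u ^ 2 / (1 + u)) := by
    have : 0 ≤ 1 - s ^ 2 := by rw [← hye']; exact hc.le
    have : 0 < 1 + u := by linarith
    positivity
  have hg2 : 0 ≤ P.g ^ 2 - 1 := sub_nonneg.2 (one_le_pow₀ hg.le)
  have a6 : 0 ≤ P.nu p * s ^ 2 / (1 + u) *
      (2 * P.g * (1 + P.g) * δ ^ 2 - 2 * (P.g ^ 2 - 1) * (u * δ)) := by
    have : 0 < 1 + u := by linarith
    have : 0 ≤ (P.g ^ 2 - 1) * (-u * δ) := mul_nonneg hg2 (mul_nonneg (by linarith) hd0.le)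
    have : 0 ≤ 2 * P.g * (1 + P.g) * δ ^ 2 := by positivity
    exact mul_nonneg (by positivity) (by linarith)
  have a7 : 0 ≤ P.quadB e y (P.nu p) * δ ^ 2 := mul_nonneg hB (sq_nonneg δ)
  linarith

/-- The logarithm against a slope of four where `1 / r` is not small. -/
theorem log_floor {mn : ℕ} (hu : u ≤ 0) (hv : 1 / 5 ≤ 1 + u) (hm : 40000 ≤ mn) :
    0 ≤ Real.log (1 + u) + (1 + (mn : ℝ) / 10000) * (-u) + 0 * (u ^ 2 / (1 + u)) := by
  have hv0 : 0 < 1 + u := by linarith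
  have h4 : (4 : ℝ) ≤ (mn : ℝ) / 10000 := by
    rw [le_div_iff₀ (by norm_num)]
    norm_num
    exact_mod_cast hm
  have h5 : (1 + u - 1) * (1 + 5 * (1 + u)) / ((1 + u) * (4 + 2 * (1 + u))) ≥ 5 * u := by
    rw [ge_iff_le, le_div_iff₀ (by positivity)]
    have h6 : 0 ≤ 10 * (1 + u) ^ 2 + 15 * (1 + u) - 1 := by nlinarith
    nlinarith [mul_nonneg (neg_nonneg.2 hu) h6]
  have h7 := mul_le_mul_of_nonneg_right h4 (neg_nonneg.2 hu)
  linarith [pade_le_log hv0]

theorem tail_down (hP : ParOk P) {R : Rem} {W : Zone} (h : At p ell s t a r q u δ y e)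
    (hv : ∀ f ∈ tailFns P R W y e, 0 ≤ f (P.K p s)) (hside : ZoneSide W y e) (hu0 : u ≤ 0) :
    ell * wS p (arc s) - ell * R.tail y e ≤ P.cell p ell s t a r := by
  obtain ⟨hF, hg, -⟩ := P.facts hP
  obtain ⟨hn0, hn1, hn2⟩ := P.mult_bounds hP h.big
  rw [h.e_eq] at hn0 hn1 hn2
  have hμ := mu_at (P := P) h
  obtain ⟨he0, he1, hy, -, hye, hu1, -⟩ := h.basic
  obtain ⟨hK, -⟩ := P.shadow_range hP h
  obtain ⟨hDl, hDh⟩ := slope_actual hP h
  have hB := P.quadB_ge hP h
  have hC := P.quadC_nonneg hP h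
  unfold tailFns at hv
  simp only [List.cons_append, List.nil_append, List.forall_mem_cons] at hv
  obtain ⟨v0, v1, v2, v3, v4, v5, v6, v7, v8, v9, v10, v11, v12, v13, v14, v15, v16, v17, v18,
    v19, v20, vf⟩ := hv
  have hl := h.ell_nonneg
  have hc : 0 < 1 - y * e := by linarith
  have hq : 0 < chordSlope y e := by unfold chordSlope; positivity
  set K := P.K p s with hKdef
  set D := P.linD e y K (Ident.b0 p ^ 2) with hDdef
  set DH := P.linD e y K (rHi e)
  set T := R.tail y e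
  set B := P.quadB e y (P.nu p)
  have hD0 : 0 ≤ D := v2.trans hDl
  have hB0 : 0 ≤ B := v1.trans hB
  have hDT : (1 - y * e) * D / y ≤ T := by
    have a := div_le_div_of_nonneg_right (mul_le_mul_of_nonneg_left hDh hc.le) hy.le
    linarith only [a, v0, v19]
  have hlogcase : ∀ φ : ℝ, 0 ≤ Real.log (1 + u) + (1 + (W.mn : ℝ) / 10000) * (-u) +
      φ * (u ^ 2 / (1 + u)) →
      0 ≤ 2 * (1 + P.g) * P.nl e * (1 - y * e) - crossPen P y e - φ * K →
      ell * wS p (arc s) - ell * T ≤ P.cell p ell s t a r := by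
    intro φ hL hφ
    have hlog := P.log_le (ell := ell) hF h.state h.u_eq h.d_eq h.y_eq
    rw [h.e_eq] at hlog
    have hg2 : 0 ≤ P.g ^ 2 - 1 := sub_nonneg.2 (one_le_pow₀ hg.le)
    have hN : 0 ≤ P.nu p * (y * e) := mul_nonneg (hn0.trans hn1) (by positivity)
    have hN2 : P.nu p * (y * e) * (2 * (P.g ^ 2 - 1)) * (3 / 20 * e * ((1 - y * e) / y)) ≤
        crossPen P y e := by
      refine (mul_le_mul_of_nonneg_right (mul_le_mul_of_nonneg_right
        (mul_le_mul_of_nonneg_right hn2 (by positivity)) (by positivity)) (by positivity)).trans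
          (le_of_eq ?_)
      rw [crossPen]
      field_simp
    have a0 := mul_le_mul_of_nonneg_left hn1
      (show 0 ≤ 2 * (1 + P.g) * (1 - y * e) by positivity)
    have hXT : -δ ≤ 3 / 20 * e * ((1 - y * e) / y) :=
      (pinned_short h).trans (mul_le_mul_of_nonneg_right h.ell_le (by positivity))
    have e2 : 2 * P.quadC e y * (3 / 20 * e) * (1 - y * e) / y =
        2 * P.quadC e y * (3 / 20 * e * ((1 - y * e) / y)) := by ring
    rw [e2] at v17
    have core := log_core (K := K) (mu := P.mu p s) (N := P.nu p * (y * e))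
      (C := P.quadC e y) (Q2 := 2 * (1 + P.g) * P.nu p * (1 - y * e)) (w := 3 / 20 * e)
      (T := (1 - y * e) / y) (X := -δ) hK.le hu0 hu1 hL hC hN hg hXT (by positivity)
      (by rw [hμ]; linarith only [v17, hN2]) (by linarith only [hφ, hN2, a0])
    have hmain : -(ell * T) ≤ D * δ + B * δ ^ 2 := by
      have b1 : 0 ≤ B * δ ^ 2 := mul_nonneg hB0 (sq_nonneg δ)
      rcases le_or_gt δ 0 with hd | hd
      · have b2 := mul_le_mul_of_nonneg_left (pinned_short h) hD0
        have b3 := mul_le_mul_of_nonneg_left hDT hl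
        have b4 : ell * ((1 - y * e) * D / y) = D * (ell * ((1 - y * e) / y)) := by ring
        linarith only [b1, b2, b3, b4]
      · have b2 : 0 ≤ D * δ := mul_nonneg hD0 hd.le
        have b3 : 0 ≤ ell * T := mul_nonneg hl (le_trans (by positivity) hDT)
        linarith only [b1, b2, b3]
    refine le_trans ?_ hlog
    linarith only [core, hmain]
  unfold ZoneSide at hside
  cases hfn : W.fn with
  | some f =>
    simp only [hfn, List.forall_mem_cons] at hside vf
    exact hlogcase _ (hside u hu0 hu1) vf.1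
  | none =>
    simp only [hfn, List.forall_mem_cons] at hside vf
    obtain ⟨hmn, hz9⟩ := hside
    obtain ⟨vf0, vf1, -⟩ := vf
    rcases le_or_gt t ((1 + s) / 2) with ht | ht
    · exact hlogcase 0 (log_floor hu0 (h.v_floor hz9 ht) hmn) (by rw [zero_mul, sub_zero]; exact vf1)
    · have hT0 : 0 ≤ ell * T := mul_nonneg hl (le_trans (by positivity) hDT)
      have a := mul_le_mul_of_nonneg_left hDl hc.le
      have a1 : K / e ≤ (1 - y * e) * D / 4 := by linarith only [a, vf0]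
      have a2 := far_end hP h hu0 ht a1 (hμ ▸ v0) hB0
      linarith only [a2, hT0]

theorem tail_back (hP : ParOk P) {R : Rem} {W : Zone} (h : At p ell s t a r q u δ y e)
    (hv : ∀ f ∈ tailFns P R W y e, 0 ≤ f (P.K p s)) (hu0 : 0 < u) (hd : δ ≤ 0) :
    ell * wS p (arc s) - ell * R.tail y e ≤ P.cell p ell s t a r := by
  obtain ⟨he0, he1, hy, -, hye, hu1, -⟩ := h.basic
  obtain ⟨hK, -⟩ := P.shadow_range hP h
  obtain ⟨hDl, hDh⟩ := slope_actual hP h
  have hB := P.quadB_ge hP h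
  have hC := P.quadC_nonneg hP h
  unfold tailFns at hv
  simp only [List.cons_append, List.nil_append, List.forall_mem_cons] at hv
  obtain ⟨v0, v1, v2, v3, v4, v5, v6, v7, v8, v9, v10, v11, v12, v13, v14, v15, v16, v17, v18,
    v19, v20, vf⟩ := hv
  have hl := h.ell_nonneg
  have hc : 0 < 1 - y * e := by linarith
  have hq : 0 < chordSlope y e := by unfold chordSlope; positivity
  set K := P.K p s with hKdef
  set D := P.linD e y K (Ident.b0 p ^ 2) with hDdef
  set DH := P.linD e y K (rHi e)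
  set T := R.tail y e
  set B := P.quadB e y (P.nu p)
  have hD0 : 0 ≤ D := v2.trans hDl
  have hB0 : 0 ≤ B := v1.trans hB
  have hDT : (1 - y * e) * D / y ≤ T := by
    have a := div_le_div_of_nonneg_right (mul_le_mul_of_nonneg_left hDh hc.le) hy.le
    linarith only [a, v0, v19]
  have hform := P.form_le hP h
  have hμ := mu_at (P := P) h
  rw [Par.form, hμ] at hform
  obtain ⟨hA1, hA2⟩ := quadA_floor hP h
  obtain ⟨-, hu2⟩ := h.u_back hd
  have hw : u / (1 + u) ≤ 1 / 2 := by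
    rw [div_le_iff₀ (by linarith)]
    linarith [h.ell_le]
  obtain ⟨m, hm, hm0, hA⟩ := curv_slope (m0 := muAt P y e K) (K := 5 / 8 * K)
    (P0 := curv0 P y e) hu0.le (by linarith) hw (hA1 (by linarith [h.ell_le]))
  have hM : 2 * m + (1 - y * e) / y * D ≤ T := by
    have a := div_le_div_of_nonneg_right (mul_le_mul_of_nonneg_left hDh hc.le) hy.le
    have b : (1 - y * e) / y * D = (1 - y * e) * D / y := by ring
    rcases hm with hm | hm <;> subst hm <;> linarith
  have key := back_u_tail (D := D) (B := B) (C := P.quadC e y) hu0.le hu2 (v0.trans hm0)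
    (show 0 ≤ -δ by linarith) (pinned_short h) hD0 hB0 hC hl hA hM
  linarith only [key, hform]

theorem tail_small (hP : ParOk P) {R : Rem} {W : Zone} (h : At p ell s t a r q u δ y e)
    (hv : ∀ f ∈ tailFns P R W y e, 0 ≤ f (P.K p s)) (hu0 : 0 < u) (hu2 : u ≤ 1) (hd : 0 < δ) :
    ell * wS p (arc s) - ell * R.tail y e ≤ P.cell p ell s t a r := by
  obtain ⟨he0, he1, hy, -, hye, hu1, -⟩ := h.basic
  obtain ⟨hK, -⟩ := P.shadow_range hP h
  obtain ⟨hDl, hDh⟩ := slope_actual hP h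
  have hB := P.quadB_ge hP h
  have hC := P.quadC_nonneg hP h
  unfold tailFns at hv
  simp only [List.cons_append, List.nil_append, List.forall_mem_cons] at hv
  obtain ⟨v0, v1, v2, v3, v4, v5, v6, v7, v8, v9, v10, v11, v12, v13, v14, v15, v16, v17, v18,
    v19, v20, vf⟩ := hv
  have hl := h.ell_nonneg
  have hc : 0 < 1 - y * e := by linarith
  have hq : 0 < chordSlope y e := by unfold chordSlope; positivity
  set K := P.K p s with hKdef
  set D := P.linD e y K (Ident.b0 p ^ 2) with hDdef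
  set DH := P.linD e y K (rHi e)
  set T := R.tail y e
  set B := P.quadB e y (P.nu p)
  have hD0 : 0 ≤ D := v2.trans hDl
  have hB0 : 0 ≤ B := v1.trans hB
  have hDT : (1 - y * e) * D / y ≤ T := by
    have a := div_le_div_of_nonneg_right (mul_le_mul_of_nonneg_left hDh hc.le) hy.le
    linarith only [a, v0, v19]
  have hform := P.form_le hP h
  have hμ := mu_at (P := P) h
  rw [Par.form, hμ] at hform
  obtain ⟨hA1, hA2⟩ := quadA_floor hP h
  have hw : u / (1 + u) ≤ 1 / 2 := by rw [div_le_iff₀ (by linarith)]; linarith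
  obtain ⟨m, hm, hm0, hA⟩ := curv_slope (m0 := muAt P y e K) (K := 5 / 8 * K)
    (P0 := curv0 P y e) hu0.le (by linarith) hw (hA1 hu2)
  have h1 := h.chord (cc := 1) ⟨zero_le_one, le_rfl⟩ (h.lt_of_pos hd le_rfl)
  simp only [one_pow, sub_self, mul_zero, zero_div, zero_add, add_sub_cancel_right] at h1
  have h2 := mul_log_ge hu0.le hu2
  have h3 := mul_le_mul_of_nonneg_right hu2 hl
  have hch : u + 3 / 8 * u ^ 2 - 2 * ell ≤ δ * chordSlope y e := by
    unfold chordSlope
    linarith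
  have hM : 2 * D / chordSlope y e ≤ T := by
    have a := div_le_div_of_nonneg_right (mul_le_mul_of_nonneg_left hDh zero_le_two) hq.le
    linarith
  have key := small_u (D := D) (B := B) (C := P.quadC e y) hq hu0.le hu2 (v0.trans hm0) hd.le
    hB0 hC hl hch hA (by rcases hm with hm | hm <;> subst hm <;> linarith)
    (by rcases hm with hm | hm <;> subst hm <;> linarith) hM
  linarith only [key, hform]

theorem tail_large (hP : ParOk P) {R : Rem} {W : Zone} (h : At p ell s t a r q u δ y e)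
    (hv : ∀ f ∈ tailFns P R W y e, 0 ≤ f (P.K p s)) (hz : 3 / 25 ≤ y * e) (hu2 : 1 < u)
    (hd : 0 < δ) :
    ell * wS p (arc s) - ell * R.tail y e ≤ P.cell p ell s t a r := by
  have hu0 : 0 < u := one_pos.trans hu2
  obtain ⟨he0, he1, hy, -, hye, hu1, -⟩ := h.basic
  obtain ⟨hK, -⟩ := P.shadow_range hP h
  obtain ⟨hDl, hDh⟩ := slope_actual hP h
  have hB := P.quadB_ge hP h
  have hC := P.quadC_nonneg hP h
  unfold tailFns at hv
  simp only [List.cons_append, List.nil_append, List.forall_mem_cons] at hv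
  obtain ⟨v0, v1, v2, v3, v4, v5, v6, v7, v8, v9, v10, v11, v12, v13, v14, v15, v16, v17, v18,
    v19, v20, vf⟩ := hv
  have hl := h.ell_nonneg
  have hc : 0 < 1 - y * e := by linarith
  have hq : 0 < chordSlope y e := by unfold chordSlope; positivity
  set K := P.K p s with hKdef
  set D := P.linD e y K (Ident.b0 p ^ 2) with hDdef
  set DH := P.linD e y K (rHi e)
  set T := R.tail y e
  set B := P.quadB e y (P.nu p)
  have hD0 : 0 ≤ D := v2.trans hDl
  have hB0 : 0 ≤ B := v1.trans hB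
  have hDT : (1 - y * e) * D / y ≤ T := by
    have a := div_le_div_of_nonneg_right (mul_le_mul_of_nonneg_left hDh hc.le) hy.le
    linarith only [a, v0, v19]
  have hform := P.form_le hP h
  have hμ := mu_at (P := P) h
  rw [Par.form, hμ] at hform
  obtain ⟨hA1, hA2⟩ := quadA_floor hP h
  have hw : u / (1 + u) ≤ 1 := by rw [div_le_iff₀ (by linarith)]; linarith
  obtain ⟨m, hm, hm0, hA⟩ := curv_slope (m0 := muAt P y e K) (K := K)
    (P0 := curv0 P y e) hu0.le (by linarith) hw hA2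
  rw [one_mul] at hm
  have hcc : (1 + y * e) / 2 ∈ Icc (0 : ℝ) 1 := ⟨by positivity, by linarith⟩
  have h1 := h.chord hcc (h.lt_of_pos hd hcc.2)
  have hlog2 : 69314 / 100000 ≤ Real.log (1 + u) :=
    le_trans (by linarith [Real.log_two_gt_d9]) (Real.log_le_log two_pos (by linarith))
  have eL : y * (1 - ((1 + y * e) / 2) ^ 2) / (2 - (1 + ((1 + y * e) / 2) ^ 2) * (y * e)) =
      y * (1 - 1 / 4 * (1 - y * e)) / (2 + y * e * (1 - 1 / 4 * (1 - y * e))) := by
    obtain ⟨z, hze, hz0⟩ : ∃ z, y * e = z ∧ 0 ≤ z := ⟨_, rfl, by positivity⟩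
    rw [hze] at hc ⊢
    have e1 : 2 - (1 + ((1 + z) / 2) ^ 2) * z = (1 - z) * (2 + z * (1 - 1 / 4 * (1 - z))) := by
      ring
    have e2 : y * (1 - ((1 + z) / 2) ^ 2) = (1 - z) * (y * (1 - 1 / 4 * (1 - z))) := by ring
    rw [e1, e2, mul_div_mul_left _ _ hc.ne']
  rw [eL] at h1
  have h2 : (1 + u) * farLog y e ≤
      (δ + (1 - y * e) / 2) * chordSlope y e := by
    refine le_trans (mul_le_mul_of_nonneg_left ?_ (by linarith)) (h1.trans (le_of_eq ?_))
    · unfold farLog; linarith [h.ell_le]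
    · unfold chordSlope; ring
  have h3 : (1 + u) * ray1 y e ≤ δ + (1 - y * e) / 2 := by
    rw [ray1, mul_div_assoc', div_le_iff₀ hq]
    exact h2
  have hB2 : B = P.quadB e y (P.nu p) := rfl
  obtain ⟨ρ, hρ, hρX, g0, g1⟩ : ∃ ρ, 0 ≤ ρ ∧ ρ * u ≤ δ ∧ 0 ≤ ρ * D - m ∧
      0 ≤ ρ * D - m + 19 / 10 * (ρ * B - 2 * P.quadC e y) := by
    rcases le_total (ray2 y e) (ray1 y e) with hr | hr
    · refine ⟨ray2 y e, v12, ?_, ?_⟩
      · have e1 := mul_le_mul_of_nonneg_left hr (show 0 ≤ u - 1 by linarith)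
        have e3 : ray2 y e = 2 * ray1 y e - (1 - y * e) / 2 := rfl
        linarith
      · have b1 := mul_le_mul_of_nonneg_left hDl v12
        have b2 := mul_le_mul_of_nonneg_left hB v12
        rcases hm with hm | hm <;> subst hm <;> constructor <;> linarith
    · refine ⟨ray1 y e, v7, ?_, ?_⟩
      · have e3 : ray2 y e = 2 * ray1 y e - (1 - y * e) / 2 := rfl
        linarith
      · have b1 := mul_le_mul_of_nonneg_left hDl v7
        have b2 := mul_le_mul_of_nonneg_left hB v7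
        rcases hm with hm | hm <;> subst hm <;> constructor <;> linarith
  have key := large_u (D := D) (B := B) (C := P.quadC e y) hu2.le (v0.trans hm0) hd.le
    (disp_short h hz) hD0 hB0 hC hρ hρX hA g0 g1
  have hT0 : 0 ≤ ell * T := mul_nonneg hl (le_trans (by positivity) hDT)
  linarith only [key, hform, hT0]

/-- A point beyond the bulk. -/
theorem tail_sound (hP : ParOk P) {R : Rem} {W : Zone} (h : At p ell s t a r q u δ y e)
    (hv : ∀ f ∈ tailFns P R W y e, 0 ≤ f (P.K p s)) (hz : 3 / 25 ≤ y * e)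
    (hside : ZoneSide W y e) :
    ell * wS p (arc s) - ell * R.tail y e ≤ P.cell p ell s t a r := by
  rcases le_or_gt u 0 with hu0 | hu0
  · exact tail_down hP h hv hside hu0
  rcases le_or_gt δ 0 with hd | hd
  · exact tail_back hP h hv hu0 hd
  rcases le_or_gt u 1 with hu2 | hu2
  · exact tail_small hP h hv hu0 hu2 hd
  · exact tail_large hP h hv hz hu2 hd

end Vale.Agent.P237.Petty.Cor.Tiny100
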