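import Vale.Agent.P237.Petty.Cor.Tiny100.BulkFore
import Vale.Agent.P237.Petty.Cor.Tiny100.TailSigns
import Vale.Agent.P237.Petty.Cor.Tiny100.TailSound
import Vale.Agent.P237.Petty.Cor.Tiny100.MeanRem

/-!
# P237: a record of the cell near zero gives the cell
-/

namespace Vale.Agent.P237.Petty.Cor.Tiny100

open Vale.Agent.P100.Bernstein
open Set

/-- Everything that a record has to show at one order. -/
structure Record (P : Par) (R : Rem) (p : ℕ) : Prop where
  /-- the parameters -/
  par : ParOk P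
  /-- the mean -/
  mean : ∫ s in (0 : ℝ)..1, arc s ^ (p + 1) * R.val p s ≤
    Ident.half (p + 1) * Ident.muMin p / ((p : ℝ) + 2)
  /-- the derivative lists -/
  deriv : derivOk R = true
  /-- the bulk -/
  bulk : ∀ y : ℝ, 0 < y → y ≤ 24 → ∃ W : Row, rowSide W = true ∧ (W.y0 : ℝ) / 1000 ≤ y ∧
    (W.near = false → ∀ x ∈ Icc (0 : ℝ) 1, 0 ≤ (rootPoly W.mn W.fn).eval [x]) ∧
    ∀ a ∈ rowConds P R W, 0 ≤ a.eval [y, eps p]
  /-- the remainder is not negative in the tail -/
  base : ∀ y : ℝ, 24 ≤ y → y * eps p ≤ 1 → 0 ≤ R.base y (eps p)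
  /-- the tail -/
  tail : ∀ y : ℝ, 24 ≤ y → y * eps p < 1 → 3 / 25 ≤ y * eps p ∧
    ∃ (W : Zone) (x : List ℝ) (zX eX : Expr), zX.eval x = y * eps p ∧ eX.eval x = eps p ∧
      (if W.up then 1 / 4 ≤ y * eps p else y * eps p ≤ 1 / 4) ∧ ZoneSide W y (eps p) ∧
      ∀ a ∈ zoneConds P zX eX R W, 0 ≤ a.eval x

/-- The cell near zero from a record. -/
theorem corCell_of_record {P : Par} {R : Rem} {p : ℕ} (hp : 98 ≤ p) (H : Record P R p) :
    CorCell p 0 (3 / 20 / ((p : ℝ) + 2)) := by
  obtain ⟨hF, hg, hG, -⟩ := P.facts H.par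
  obtain ⟨hn0, hn1, -⟩ := P.mult_bounds H.par hp
  have hgam : 0 < P.gam p := by unfold Par.gam; exact mul_pos (by linarith) (by positivity)
  have hB : ∀ s ∈ Ioo (0 : ℝ) 1, arc s ^ (p + 1) * P.potB p s * s =
      arc s ^ (p + 1) * (-P.a * (1 - s ^ 2) - P.b * ((p : ℝ) + 1) * s ^ 2) := fun s hs => by
    rw [Par.potB, mul_assoc]
    congr 1
    have := hs.1.ne'
    field_simp
  have hkc : ContinuousOn (fun s => arc s ^ (p + 1) * P.potK p s) (Icc 0 1) := by
    have e : ∀ s : ℝ, arc s ^ (p + 1) * P.potK p s =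
        -(P.G * Ident.b0 p * arc s ^ p * (1 + P.lift (s ^ 2))) -
          eps p * (arc s ^ (p + 1) * P.hump (((p : ℝ) + 1) * s ^ 2)) := fun s => by
      rw [Par.potK]
      rcases eq_or_ne (arc s) 0 with h | h
      · simp [h, zero_pow (show p ≠ 0 by omega)]
      · field_simp
        ring
    simp only [e]
    have := continuous_arc
    have := Tail.continuous_sqp
    unfold Par.lift Par.hump
    exact Continuous.continuousOn (by fun_prop (disch := intro x; positivity))
  refine corCell_of_bridge (g := P.g) (by omega) hgam (hn0.trans hn1)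
    (fun s hs => P.hasDerivAt_potK hF p hs) (fun s hs => P.hasDerivAt_potB p hs) hkc
    (Continuous.continuousOn (by have := continuous_arc; fun_prop)) hB
    (M := R.val p) (R := fun _ => 0) (rem_continuous R H.deriv (by omega)) (by simpa using continuousOn_const)
    H.mean (by simp) fun ell hl s t a r q h => ?_
  obtain ⟨he0, -, hpe⟩ := eps_facts hp
  have hell1 : ell ≤ 3 / 20 * eps p := by
    refine hl.2.trans ?_
    unfold eps
    rw [mul_one_div]
    exact div_le_div_of_nonneg_left (by norm_num) (by positivity) (by linarith)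
  have hell2 : ell ≤ 1 / ((p : ℝ) + 2) :=
    hl.2.trans (div_le_div_of_nonneg_right (by norm_num) (by positivity))
  have hAt : At p ell s t a r q (1 / r - 1) ((t - s) / s) (((p : ℝ) + 1) * s ^ 2) (eps p) :=
    ⟨hp, h, hl.1, hell1, hell2, rfl, rfl, rfl, rfl⟩
  obtain ⟨-, -, hy, -, hye, -, -⟩ := hAt.basic
  obtain ⟨hval, htail⟩ := Rem.val_eq R hAt
  generalize ((p : ℝ) + 1) * s ^ 2 = y at hAt hy hye hval htail
  rw [sub_zero, hval]
  change _ ≤ P.cell p ell s t a r
  rcases le_or_gt y 24 with h24 | h24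
  · obtain ⟨W, hs, hy0, hroot, hW⟩ := H.bulk y hy h24
    have he1 := (eps_facts hp).2.1
    have hz : y * eps p ≤ 1 / 4 := by
      have := mul_le_mul h24 he1 he0.le (by norm_num)
      linarith
    have := row_sound H.par hW hs hroot hAt hy0 hz
    have := mul_nonneg hl.1 htail
    linarith
  · obtain ⟨hz, W, x, zX, eX, hzX, heX, hup, hside, hW⟩ := H.tail y h24.le hye
    have hv := zone_values H.par hAt hzX heX hup hW
    have := tail_sound H.par hAt hv hz hside
    have := mul_nonneg hl.1 (mul_nonneg he0.le (H.base y h24.le hye.le))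
    linarith

/-- The zones cover `[z, 1]`. -/
def zonesChained : List Zone → ℕ → Bool
  | [], z => decide (z = 1000)
  | W :: L, z => decide (W.z0 = z) && W.up && zonesChained L W.z1

/-- The side condition of a zone. -/
def zoneSide (W : Zone) : Bool :=
  match W.fn with
  | none => decide (40000 ≤ W.mn) && decide (900 ≤ W.z0)
  | some f => rootOk W.mn f

theorem zoneSide_sound {W : Zone} {y e : ℝ} (h : zoneSide W = true)
    (hz : (W.z0 : ℝ) / 1000 ≤ y * e) : ZoneSide W y e := by
  unfold zoneSide at h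
  unfold ZoneSide
  cases hfn : W.fn with
  | none =>
    simp only [hfn, Bool.and_eq_true, decide_eq_true_eq] at h ⊢
    refine ⟨h.1, le_trans ?_ hz⟩
    have : (900 : ℝ) ≤ W.z0 := by exact_mod_cast h.2
    linarith
  | some f =>
    simp only [hfn] at h ⊢
    intro v hv hv1
    exact root_margin (fun x hx => nonneg_of_certify (Few.certify_of_quick h)
      ⟨by simpa using hx.1, by simpa using hx.2, trivial⟩) hv hv1

theorem row_cover : ∀ {L : List Row} {y0 : ℕ} {y : ℝ}, chained 24000 L y0 = true →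
    (y0 : ℝ) / 1000 < y → y ≤ 24 →
    ∃ W ∈ L, (W.y0 : ℝ) / 1000 ≤ y ∧ y ≤ (W.y1 : ℝ) / 1000
  | [], y0, y, h, h0, h1 => by
    simp only [chained, decide_eq_true_eq] at h
    subst h
    norm_num at h0
    linarith
  | W :: L, y0, y, h, h0, h1 => by
    simp only [chained, Bool.and_eq_true, decide_eq_true_eq] at h
    obtain ⟨he, hL⟩ := h
    subst he
    rcases le_or_gt y ((W.y1 : ℝ) / 1000) with h2 | h2
    · exact ⟨W, List.mem_cons_self .., h0.le, h2⟩
    · obtain ⟨V, hV, hV1⟩ := row_cover hL h2 h1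
      exact ⟨V, List.mem_cons_of_mem _ hV, hV1⟩

theorem zone_cover : ∀ {L : List Zone} {z0 : ℕ} {z : ℝ}, zonesChained L z0 = true →
    (z0 : ℝ) / 1000 ≤ z → z < 1 →
    ∃ W ∈ L, W.up = true ∧ (W.z0 : ℝ) / 1000 ≤ z ∧ z ≤ (W.z1 : ℝ) / 1000
  | [], z0, z, h, h0, h1 => by
    simp only [zonesChained, decide_eq_true_eq] at h
    subst h
    norm_num at h0
    linarith
  | W :: L, z0, z, h, h0, h1 => by
    simp only [zonesChained, Bool.and_eq_true, decide_eq_true_eq] at h
    obtain ⟨⟨he, hu⟩, hL⟩ := h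
    subst he
    rcases le_or_gt z ((W.z1 : ℝ) / 1000) with h2 | h2
    · exact ⟨W, List.mem_cons_self .., hu, h0, h2⟩
    · obtain ⟨V, hV, hV1⟩ := zone_cover hL h2.le h1
      exact ⟨V, List.mem_cons_of_mem _ hV, hV1⟩

end Vale.Agent.P237.Petty.Cor.Tiny100
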