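import Vale.Agent.P237.Petty.Cor.Tiny100.Consts
import Vale.Agent.P237.Petty.Cor.Tiny.Lower
import Vale.Agent.P237.Petty.Cor.Top.Bounds

/-!
# P237: what a state gives near zero, in `y = (p + 1) s ^ 2`, `e = 1 / (p + 1)`, `u` and `δ`
-/

namespace Vale.Agent.P237.Petty.Cor.Tiny100

open MeasureTheory Set intervalIntegral
open Ident (half rate)
open Lift (circLow circHigh)

variable {p : ℕ} {ell s t a r q u δ y e : ℝ}

/-- The coordinates of a state. -/
structure At (p : ℕ) (ell s t a r q u δ y e : ℝ) : Prop where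
  /-- the order -/
  big : 98 ≤ p
  /-- the state -/
  state : FlatState p ell s t a r q
  /-- the value is not negative -/
  ell_nonneg : 0 ≤ ell
  /-- the value is small -/
  ell_le : ell ≤ 3 / 20 * e
  /-- the value is below the reciprocal of the order -/
  ell_ord : ell ≤ 1 / ((p : ℝ) + 2)
  /-- `u` -/
  u_eq : 1 / r - 1 = u
  /-- `δ` -/
  d_eq : (t - s) / s = δ
  /-- `y` -/
  y_eq : ((p : ℝ) + 1) * s ^ 2 = y
  /-- `e` -/
  e_eq : eps p = e

theorem At.basic (h : At p ell s t a r q u δ y e) :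
    0 < e ∧ e ≤ 1 / 99 ∧ 0 < y ∧ y * e = s ^ 2 ∧ y * e < 1 ∧ -1 < u ∧ 1 / r = 1 + u := by
  obtain ⟨h0, h1, h2⟩ := eps_facts h.big
  rw [h.e_eq] at h0 h1 h2
  have hs := h.state.state.s_mem
  have hr := h.state.state.rate_pos
  have hy : y * e = s ^ 2 := by
    rw [← h.y_eq, mul_assoc, mul_comm (s ^ 2) e, ← mul_assoc, h2, one_mul]
  have hs2 : s ^ 2 < 1 := by nlinarith [hs.1, hs.2]
  have hv : 0 < 1 / r := by positivity
  refine ⟨h0, h1, ?_, hy, hy ▸ hs2, ?_, ?_⟩
  · rw [← h.y_eq]; have := hs.1; positivity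
  · linarith [h.u_eq]
  · linarith [h.u_eq]

/-- Above the exponential of the value. -/
theorem At.exp_le (h : At p ell s t a r q u δ y e) :
    Real.exp ell ≤ 1 + 3 / 20 * e * (1 + 3 / 20 * e) ∧
      Real.exp (ell / 2) ≤ 1001 / 1000 := by
  obtain ⟨he0, he1, -, -, -, -, -⟩ := h.basic
  have h1 : ell ≤ 1 / 600 := by linarith [h.ell_le]
  have h2 : ∀ x : ℝ, 0 ≤ x → x ≤ 1 / 600 → Real.exp x ≤ 1 + x * (1 + x) := fun x hx0 hx1 => by
    have := Real.exp_bound' hx0 (by linarith) (n := 2) (by norm_num)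
    simp only [Finset.sum_range_succ, Finset.sum_range_zero] at this
    norm_num at this
    nlinarith
  refine ⟨(h2 ell h.ell_nonneg h1).trans ?_, (h2 _ (by linarith [h.ell_nonneg]) (by linarith)).trans ?_⟩
  · nlinarith [mul_le_mul h.ell_le h.ell_le h.ell_nonneg (by linarith)]
  · nlinarith [mul_le_mul (show ell / 2 ≤ 1 / 1200 by linarith)
      (show 1 + ell / 2 ≤ 1201 / 1200 by linarith) (by linarith [h.ell_nonneg]) (by norm_num)]

/-- For a nonpositive displacement `u` is below the excess of the exponential. -/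
theorem At.u_back (h : At p ell s t a r q u δ y e) (hd : δ ≤ 0) :
    u ≤ 3 / 20 * e * (1 + 3 / 20 * e) ∧ u ≤ 2 * ell := by
  have hs := h.state.state.s_mem.1
  have hts : t ≤ s := by
    have := (div_le_iff₀ hs).1 (h.d_eq ▸ hd : (t - s) / s ≤ 0); linarith
  have h1 := h.state.inv_rate_le_exp hts
  obtain ⟨he0, he1, -, -, -, -, hv⟩ := h.basic
  have h2 := (h.exp_le).1
  have h3 : Real.exp ell ≤ 1 + 2 * ell := by
    have h4 : ell ≤ 1 / 600 := by linarith [h.ell_le]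
    have h5 : Real.exp ell * (1 - ell) ≤ 1 := by
      have := mul_le_mul_of_nonneg_left (show 1 - ell ≤ Real.exp (-ell) by
        linarith [Real.add_one_le_exp (-ell)]) (Real.exp_pos ell).le
      rwa [← Real.exp_add, add_neg_cancel, Real.exp_zero] at this
    nlinarith [mul_le_mul_of_nonneg_left (show ell ≤ 1 / 2 by linarith)
      (Real.exp_pos ell).le, h.ell_nonneg]
  constructor <;> linarith

/-- The cut. -/
theorem At.u_cut (h : At p ell s t a r q u δ y e) :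
    u ≤ (1 + u) * (ell + y / (1 - y * e) * δ + |y / (1 - y * e) * δ| * (2 * ell * e) +
      y / (1 - y * e) * δ ^ 2 / 2) := by
  obtain ⟨he0, -, -, hye, -, hu, hv⟩ := h.basic
  have hc := Tiny.cut_fact (by linarith [h.big]) h.state h.ell_nonneg hv h.d_eq
  rw [h.y_eq, ← hye, show 2 * ell / ((p : ℝ) + 1) = 2 * ell * e by
    rw [← h.e_eq, eps]; ring, show 1 + u - 1 = u by ring] at hc
  have h0 : 0 < 1 + u := by linarith
  have e1 : (1 + u) * (u - u ^ 2 / (1 + u)) = u := by field_simp; ring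
  have := mul_le_mul_of_nonneg_left hc h0.le
  linarith

/-- The tail chord at a fraction of `s`. -/
theorem At.chord (h : At p ell s t a r q u δ y e) {cc : ℝ} (hcc : cc ∈ Icc (0 : ℝ) 1)
    (ht : cc * s < t) :
    (1 + u) * (y * (1 - cc ^ 2) / (2 - (1 + cc ^ 2) * (y * e)) + Real.log (1 + u) - ell) ≤
      (δ + 1 - cc) * ((y + 2 * (y * e) + 1) / (1 - y * e)) := by
  obtain ⟨-, -, -, hye, -, hu, hv⟩ := h.basic
  have hs := h.state.state.s_mem
  have hL := Tiny.log_ratio_ge (p := p) hs hcc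
  rw [h.y_eq, ← hye] at hL
  have := Tiny.tail_fact h.state (u := cc * s) ⟨mul_nonneg hcc.1 hs.1.le, ht⟩ hv hL
  rw [show (t - cc * s) / s = δ + 1 - cc by rw [← h.d_eq]; have := hs.1.ne'; field_simp; ring,
    show ((p : ℝ) + 3) * s ^ 2 + 1 = y + 2 * (y * e) + 1 by rw [hye, ← h.y_eq]; ring, ← hye] at this
  exact this

/-- For a positive displacement the abscissa is below `t`. -/
theorem At.lt_of_pos (h : At p ell s t a r q u δ y e) (hd : 0 < δ) {cc : ℝ} (hcc : cc ≤ 1) :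
    cc * s < t := by
  have hs := h.state.state.s_mem.1
  have : s < t := by
    have := (lt_div_iff₀ hs).1 (h.d_eq ▸ hd : 0 < (t - s) / s); linarith
  nlinarith

/-- The chord at the abscissa, linear. -/
theorem At.u_chord (h : At p ell s t a r q u δ y e) (hd : 0 < δ) :
    u ≤ (y + 2 * (y * e) + 1) / (1 - y * e) * δ + ell * (1 + u) := by
  obtain ⟨-, -, -, -, -, hu, -⟩ := h.basic
  have h1 := h.chord (cc := 1) ⟨zero_le_one, le_rfl⟩ (h.lt_of_pos hd le_rfl)
  have h2 := Real.log_le_sub_one_of_pos (inv_pos.2 (show (0 : ℝ) < 1 + u by linarith))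
  rw [Real.log_inv] at h2
  have h3 := mul_le_mul_of_nonneg_left h2 (show (0 : ℝ) ≤ 1 + u by linarith)
  rw [show (1 + u) * ((1 + u)⁻¹ - 1) = -u by
    have : (1 + u) ≠ 0 := by linarith
    field_simp; ring] at h3
  simp only [one_pow, sub_self, mul_zero, zero_div, zero_add, add_sub_cancel_right] at h1
  linarith

/-- The pinned box. -/
theorem At.box_lo (h : At p ell s t a r q u δ y e) :
    y * -δ ≤ ell * ((1 - y * e) * (y + 3 * (y * e) + 2) / (y + 2 * (y * e) + 3)) := by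
  obtain ⟨-, -, -, hye, -, -, -⟩ := h.basic
  have := Tiny.box_lo h.state h.ell_nonneg h.ell_ord h.d_eq
  rw [show ((p : ℝ) + 4) * s ^ 2 + 2 = y + 3 * (y * e) + 2 by rw [hye, ← h.y_eq]; ring,
    show ((p : ℝ) + 3) * s ^ 2 + 3 = y + 2 * (y * e) + 3 by rw [hye, ← h.y_eq]; ring, h.y_eq,
    ← hye] at this
  linarith [this, mul_div_assoc (1 - y * e) (y + 3 * (y * e) + 2) (y + 2 * (y * e) + 3),
    show ell * (1 - y * e) * ((y + 3 * (y * e) + 2) / (y + 2 * (y * e) + 3)) =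
      ell * ((1 - y * e) * (y + 3 * (y * e) + 2) / (y + 2 * (y * e) + 3)) by ring]

/-- The chord at the abscissa bounds a positive displacement. -/
theorem At.box_hi (h : At p ell s t a r q u δ y e) (hd : 0 < δ) {H sv : ℝ} (hH : 0 ≤ H)
    (hsv : 0 ≤ sv) (hv : 1 + u ≤ sv ^ 2)
    (hlow : circLow p s ≤ H * (s * arc s ^ (p + 1))) :
    δ ≤ ell * (H * sv * (1001 / 1000)) := by
  obtain ⟨-, -, -, -, -, -, hr⟩ := h.basic
  refine (Tiny.box_hi h.state h.ell_nonneg hr h.d_eq hd hlow).trans ?_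
  have h1 : √(1 + u) ≤ sv := Real.sqrt_le_iff.2 ⟨hsv, hv⟩
  have h2 := (h.exp_le).2
  have hl := h.ell_nonneg
  calc ell * Real.exp (ell / 2) * H * √(1 + u) ≤ ell * (1001 / 1000) * H * sv :=
        mul_le_mul (mul_le_mul_of_nonneg_right (mul_le_mul_of_nonneg_left h2 hl) hH) h1
          (Real.sqrt_nonneg _) (by positivity)
    _ = _ := by ring

/-- The mass below any abscissa, crudely. -/
theorem circLow_le_flat (hp : 98 ≤ p) {x : ℝ} (hx : x ∈ Icc (0 : ℝ) 1) :
    circLow p x * √((p : ℝ) + 1) ≤ 1261 / 1000 := by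
  have h := Top.half_mul_sqrt_le (p := p) (m0 := 99) (hk := 1261 / 1000) (by norm_num) (by
    have : (98 : ℝ) ≤ p := by exact_mod_cast hp
    linarith) (by norm_num) (by norm_num)
  have h1 : circLow p x ≤ half (p + 1) := by
    have h2 := circLow_add_circHigh p x
    have h3 : 0 ≤ circHigh p x :=
      intervalIntegral.integral_nonneg hx.2 fun v _ => pow_nonneg (Real.sqrt_nonneg _) _
    linarith
  refine (mul_le_mul h1 (Real.sqrt_le_sqrt (show (p : ℝ) + 1 ≤ (p : ℝ) + 3 by linarith))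
    (Real.sqrt_nonneg _) (Ident.half_pos _).le).trans h

/-- The reciprocal of the power of the circle, sharply. -/
theorem inv_arc_pow_le_pade {x : ℝ} (hx : x ∈ Ioo (-1 : ℝ) 1) :
    1 / arc x ^ (p + 1) ≤ Real.exp (((p : ℝ) + 1) * x ^ 2 / 2 *
      ((6 - 5 * x ^ 2) / ((1 - x ^ 2) * (6 - 2 * x ^ 2)))) := by
  have h0 : 0 < 1 - x ^ 2 := by nlinarith [hx.1, hx.2]
  have h6 : 0 < 6 - 2 * x ^ 2 := by nlinarith
  have hA : 0 < arc x ^ (p + 1) := pow_pos (arc_pos hx) _
  rw [one_div, ← Real.exp_log (inv_pos.2 hA), Real.log_inv, Real.log_pow, arc,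
    Real.log_sqrt h0.le]
  refine Real.exp_le_exp.2 ?_
  have h1 := log_le_pade (inv_pos.2 h0)
  rw [Real.log_inv] at h1
  have e1 : ∀ c : ℝ, 0 < c → (c⁻¹ - 1) * (5 + c⁻¹) / (2 + 4 * c⁻¹) =
      (1 - c) * ((1 + 5 * c) / (c * (4 + 2 * c))) := by
    intro c hc
    field_simp
    ring
  rw [e1 _ h0, show 1 - (1 - x ^ 2) = x ^ 2 by ring,
    show 1 + 5 * (1 - x ^ 2) = 6 - 5 * x ^ 2 by ring,
    show 4 + 2 * (1 - x ^ 2) = 6 - 2 * x ^ 2 by ring] at h1
  push_cast
  have := mul_le_mul_of_nonneg_left h1 (show 0 ≤ ((p : ℝ) + 1) / 2 by positivity)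
  linarith

/-- The mass below `s` from an exponential. -/
theorem At.low_expo (h : At p ell s t a r q u δ y e) {f X H : ℝ} (hf : 0 ≤ f)
    (hfy : (1261 / 1000) ^ 2 ≤ f ^ 2 * y)
    (hX : y / 2 * ((6 - 5 * (y * e)) / ((1 - y * e) * (6 - 2 * (y * e)))) ≤ X)
    (hH : f * Real.exp X ≤ H) : circLow p s ≤ H * (s * arc s ^ (p + 1)) := by
  obtain ⟨-, -, hy, hye, -, -, -⟩ := h.basic
  have hs := h.state.state.s_mem
  have hA := pow_pos h.state.state.arc_pos' (p + 1)
  have h1 := circLow_le_flat (p := p) h.big (Ioo_subset_Icc_self hs)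
  have h2 := inv_arc_pow_le_pade (p := p) (x := s) ⟨by linarith [hs.1], hs.2⟩
  rw [h.y_eq, ← hye] at h2
  have h3 : 1 / arc s ^ (p + 1) ≤ Real.exp X := h2.trans (Real.exp_le_exp.2 hX)
  have h4 : 1261 / 1000 ≤ f * s * √((p : ℝ) + 1) := by
    refine (pow_le_pow_iff_left₀ (by norm_num) (by have := hs.1; positivity) two_ne_zero).1 ?_
    refine hfy.trans (le_of_eq ?_)
    rw [mul_pow, mul_pow, Real.sq_sqrt (by positivity), ← h.y_eq]
    ring
  have h5 : circLow p s ≤ f * s := by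
    have hr : 0 < √((p : ℝ) + 1) := by positivity
    exact le_of_mul_le_mul_right (h1.trans h4) hr
  rw [div_le_iff₀ hA] at h3
  have h6 : 0 ≤ f * s := mul_nonneg hf hs.1.le
  calc circLow p s ≤ f * s * 1 := by rw [mul_one]; exact h5
    _ ≤ f * s * (Real.exp X * arc s ^ (p + 1)) := mul_le_mul_of_nonneg_left h3 h6
    _ = f * Real.exp X * (s * arc s ^ (p + 1)) := by ring
    _ ≤ _ := mul_le_mul_of_nonneg_right hH (mul_pos hs.1 hA).le

/-- The mass below `s` from the series. -/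
theorem At.low_series (h : At p ell s t a r q u δ y e) {H : ℝ} (hY : y / (1 - y * e) ≤ 8)
    (hH : Tiny.lowSer (y / (1 - y * e)) ≤ H) : circLow p s ≤ H * (s * arc s ^ (p + 1)) := by
  obtain ⟨-, -, -, hye, -, -, -⟩ := h.basic
  have hs := h.state.state.s_mem
  have e1 : ((p : ℝ) + 1) * s ^ 2 / (1 - s ^ 2) = y / (1 - y * e) := by rw [hye, h.y_eq]
  refine (Tiny.circLow_le_ser hs (e1 ▸ hY)).trans (mul_le_mul_of_nonneg_right (e1 ▸ hH) ?_)
  exact (mul_pos hs.1 (pow_pos h.state.state.arc_pos' _)).le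

/-- The bound of `1 / r` at the abscissa. -/
theorem At.v_pow (h : At p ell s t a r q u δ y e) {E H : ℝ} (hE : Real.exp ell ≤ E) (hH : 0 ≤ H)
    (hlow : circLow p s ≤ H * (s * arc s ^ (p + 1))) :
    1 + u ≤ E * (1 + 3 / 20 * e * H * ((y + 2 * (y * e) + 1) / (1 - y * e))) := by
  obtain ⟨he0, -, hy, hye, hy1, -, hr⟩ := h.basic
  have hs := h.state.state.s_mem
  have hA := pow_pos h.state.state.arc_pos' (p + 1)
  have h1 := h.state.inv_rate_le_pow h.ell_nonneg hE hlow (le_refl (1 / arc s ^ (p + 1)))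
  rw [hr] at h1
  refine h1.trans (mul_le_mul_of_nonneg_left (add_le_add le_rfl ?_)
    ((Real.exp_pos ell).le.trans hE))
  have e1 : ell * (H * (s * arc s ^ (p + 1))) * (1 / arc s ^ (p + 1)) *
      ((((p : ℝ) + 3) * s ^ 2 + 1) / (s * (1 - s ^ 2))) =
      ell * H * ((y + 2 * (y * e) + 1) / (1 - y * e)) := by
    have hs1 := hs.1
    have hc : 0 < 1 - s ^ 2 := by nlinarith [hs.1, hs.2]
    rw [hye, ← h.y_eq]
    field_simp
    ring
  rw [e1]
  have hc : 0 < 1 - y * e := by linarith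
  have : 0 ≤ (y + 2 * (y * e) + 1) / (1 - y * e) := by positivity
  exact mul_le_mul_of_nonneg_right (mul_le_mul_of_nonneg_right h.ell_le hH) this

/-- The hazard bound of `1 / r`. -/
theorem At.v_hazard (h : At p ell s t a r q u δ y e) {E x C sy : ℝ} (hE : Real.exp ell ≤ E)
    (hx : 0 < x) (hxy : x ^ 2 ≤ y) (hsy : 0 < sy) (hsy2 : sy ^ 2 ≤ y)
    (hC : Real.exp (x ^ 2 / (2 * (1 - x ^ 2 * e))) ≤ C) (hx1 : x ^ 2 * e < 1) :
    1 + u ≤ E * max 1 ((y + 2 * (y * e) + 1) * ((1 - x ^ 2 * e) * (x ^ 2 * (1 + 3 * e) + 2) +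
        3 / 20 * e * (1261 / 1000) * C * (x * (1 + 2 * e) * (x ^ 2 * (1 + 2 * e) + 3))) /
      ((1 - y * e) * (x * (1 + 2 * e) * (x ^ 2 * (1 + 2 * e) + 3)) * sy)) := by
  obtain ⟨he0, -, hy, hye, hy1, -, hr⟩ := h.basic
  obtain ⟨-, -, hpe⟩ := eps_facts h.big
  rw [h.e_eq] at hpe
  have hs := h.state.state.s_mem
  obtain ⟨w, hw, hwe⟩ : ∃ w, 0 < w ∧ w ^ 2 = e :=
    ⟨√e, Real.sqrt_pos.2 he0, Real.sq_sqrt he0.le⟩
  have hxs : x * w ≤ s := by
    refine (pow_le_pow_iff_left₀ (by positivity) hs.1.le two_ne_zero).1 ?_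
    rw [mul_pow, hwe, ← hye]
    exact mul_le_mul_of_nonneg_right hxy he0.le
  have hu1 : x * w < 1 := hxs.trans_lt hs.2
  have hL := circLow_le_flat (p := p) h.big (x := x * w) ⟨by positivity, hu1.le⟩
  have hp1 : √((p : ℝ) + 1) = 1 / w := by
    rw [Real.sqrt_eq_iff_eq_sq (by positivity) (by positivity), div_pow, one_pow, hwe]
    field_simp
    linarith
  rw [hp1, mul_one_div, div_le_iff₀ hw] at hL
  have hC' : 1 / arc (x * w) ^ (p + 1) ≤ C := by
    refine (inv_arc_pow_le (p := p) ⟨by linarith [mul_pos hx hw], hu1⟩).trans (le_trans ?_ hC)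
    refine Real.exp_le_exp.2 (le_of_eq ?_)
    rw [mul_pow, hwe, show ((p : ℝ) + 1) * (x ^ 2 * e) = x ^ 2 by linear_combination x ^ 2 * hpe]
  have h1 := h.state.inv_rate_le_hazard h.ell_nonneg (u := x * w) ⟨by positivity, hxs⟩ hE hL hC'
  rw [hr] at h1
  refine h1.trans (mul_le_mul_of_nonneg_left (max_le_max le_rfl ?_)
    ((Real.exp_pos ell).le.trans hE))
  have hsyr : sy ≤ s / w := by
    refine (pow_le_pow_iff_left₀ hsy.le (div_nonneg hs.1.le hw.le) two_ne_zero).1 (hsy2.trans ?_)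
    rw [div_pow, hwe, ← hye]
    field_simp
    exact le_rfl
  have hf : ((p : ℝ) + 3) = (1 + 2 * e) / e := by field_simp; linarith
  have hf4 : ((p : ℝ) + 4) = (1 + 3 * e) / e := by field_simp; linarith
  rw [hf, hf4, mul_pow, hwe, show (1 + 2 * e) / e * s ^ 2 = y + 2 * (y * e) by
    rw [← hye]; field_simp, ← hye]
  have hc : 0 < 1 - y * e := by linarith
  have hden : 0 < x * (1 + 2 * e) * (x ^ 2 * (1 + 2 * e) + 3) := by positivity
  have hC0 : 0 ≤ C := (Real.exp_pos _).le.trans hC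
  have h2 : ell * (1261 / 1000 * w) * C ≤ 3 / 20 * e * (1261 / 1000 * w) * C :=
    mul_le_mul_of_nonneg_right (mul_le_mul_of_nonneg_right h.ell_le (by positivity)) hC0
  have hs1 := hs.1
  refine (mul_le_mul_of_nonneg_left (add_le_add le_rfl h2) (by positivity)).trans ?_
  refine le_trans (le_of_eq (?_ : _ = (y + 2 * (y * e) + 1) *
    ((1 - x ^ 2 * e) * (x ^ 2 * (1 + 3 * e) + 2) +
      3 / 20 * e * (1261 / 1000) * C * (x * (1 + 2 * e) * (x ^ 2 * (1 + 2 * e) + 3))) /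
        ((1 - y * e) * (x * (1 + 2 * e) * (x ^ 2 * (1 + 2 * e) + 3)) * (s / w)))) ?_
  · field_simp
    rw [← hwe]
    ring
  · have : 0 ≤ 1 - x ^ 2 * e := by linarith
    refine div_le_div_of_nonneg_left (by positivity) (by positivity) ?_
    exact mul_le_mul_of_nonneg_left hsyr (by positivity)

/-- Near the end and before the midpoint of `[s, 1]`, `1 / r` is not small. -/
theorem At.v_floor (h : At p ell s t a r q u δ y e) (hz : 9 / 10 ≤ y * e)
    (ht : t ≤ (1 + s) / 2) : 1 / 5 ≤ 1 + u := by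
  obtain ⟨he0, he1, hy, hye, hy1, -, hr⟩ := h.basic
  have hs := h.state.state.s_mem
  have ht0 := h.state.state.t_mem
  have ha := h.state.state.pos
  have hrp := h.state.state.rate_pos
  have h1 := h.state.hullHigh 1 ⟨ht0.2, le_rfl⟩
  have e0 : circHigh p 1 = 0 := intervalIntegral.integral_same
  have ea : arc (1 : ℝ) = 0 := by simp [arc]
  have em : linMean p a 0 * a = a ^ (p + 2) / ((p : ℝ) + 2) := by
    have := mul_linMean p 0 a
    rw [show linMean p a 0 = ∫ θ in (0 : ℝ)..1, ((1 - θ) * a) ^ (p + 1) by simp [linMean],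
      intervalIntegral.integral_comp_sub_left (fun θ : ℝ => (θ * a) ^ (p + 1)) 1]
    simp only [sub_self, sub_zero, mul_pow, intervalIntegral.integral_mul_const, integral_pow]
    push_cast
    rw [zero_pow (by omega)]
    field_simp
    ring
  rw [e0, ea, mul_zero, mul_zero, add_zero] at h1
  have em' : linMean p a 0 = a ^ (p + 1) / ((p : ℝ) + 2) := by
    refine mul_right_cancel₀ ha.ne' ?_
    rw [em, pow_succ]
    ring
  have hA := pow_pos h.state.state.arc_pos' (p + 1)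
  rw [em', show a ^ (p + 1) = r * arc s ^ (p + 1) by
    rw [h.state.state.rate_eq, div_mul_cancel₀ _ hA.ne']] at h1
  have h2 := h1.trans (circHigh_le (p := p) ⟨hs.1, hs.2.le⟩)
  have hs2 : arc s ^ 2 = 1 - s ^ 2 := Real.sq_sqrt (by nlinarith [hs.1, hs.2])
  rw [show arc s ^ (p + 3) = arc s ^ (p + 1) * (1 - s ^ 2) by rw [← hs2]; ring] at h2
  have hm : (99 : ℝ) ≤ (p : ℝ) + 1 := by
    have : (98 : ℝ) ≤ p := by exact_mod_cast h.big
    linarith
  obtain ⟨n, hn, hpn⟩ : ∃ n : ℝ, 101 ≤ n ∧ (p : ℝ) + 3 = n := ⟨_, by linarith, rfl⟩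
  rw [show (p : ℝ) + 2 = n - 1 by linarith, show (p : ℝ) + 4 = n + 1 by linarith, hpn] at h2
  have hz' : 9 / 10 ≤ s ^ 2 := hye ▸ hz
  have hsq : 94 / 100 ≤ s := by nlinarith [hs.1]
  have hq : 0 < n * s ^ 2 + 3 := by positivity
  have hns : 0 < n * s := by positivity
  have hn1 : n - 1 ≠ 0 := by linarith
  have h3 : (1 - t) * r * (n * s * (n * s ^ 2 + 3)) ≤
      (n - 1) * (1 - s ^ 2) * ((n + 1) * s ^ 2 + 2) := by
    refine le_of_mul_le_mul_right ?_ (mul_pos hA (inv_pos.2 (mul_pos (mul_pos hns hq)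
      (show (0 : ℝ) < n - 1 by linarith))))
    refine le_trans (le_of_eq ?_) (h2.trans (le_of_eq ?_))
    · field_simp
    · field_simp
  have h4 : (1 - s) / 2 * r * (n * s * (n * s ^ 2 + 3)) ≤ (1 - t) * r * (n * s * (n * s ^ 2 + 3)) :=
    mul_le_mul_of_nonneg_right (mul_le_mul_of_nonneg_right (by linarith) hrp.le)
      (mul_pos hns hq).le
  have h5 : r * (n * s * (n * s ^ 2 + 3)) ≤ (n - 1) * (2 * (1 + s)) * ((n + 1) * s ^ 2 + 2) := by
    refine le_of_mul_le_mul_left ?_ (show (0 : ℝ) < (1 - s) / 2 by linarith [hs.2])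
    linarith
  have h6 : (n - 1) * (2 * (1 + s)) * ((n + 1) * s ^ 2 + 2) ≤ 5 * (n * s * (n * s ^ 2 + 3)) := by
    nlinarith [mul_le_mul_of_nonneg_left hsq (show (0 : ℝ) ≤ n ^ 2 * s ^ 2 by positivity),
      mul_le_mul_of_nonneg_left hs.2.le (show (0 : ℝ) ≤ n * s ^ 2 by positivity),
      mul_le_mul_of_nonneg_left hz' (show (0 : ℝ) ≤ n * s by positivity)]
  have h7 : r ≤ 5 := le_of_mul_le_mul_right (h5.trans h6) (mul_pos hns hq)
  rw [← hr, le_div_iff₀ hrp]
  linarith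

end Vale.Agent.P237.Petty.Cor.Tiny100
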