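import Vale.Agent.P237.Petty.Cor.Tiny100.RowsA03

/-!
# P237: the signs of the rows 28 to 30 of the record of the orders from 98 to 198
-/

namespace Vale.Agent.P237.Petty.Cor.Tiny100

theorem rowsA06_ok :
    (((rowsA.drop 28).take 3).all fun W => rowOk parA remA 99 199 W && rowSide W) = true := by
  decide +kernel

end Vale.Agent.P237.Petty.Cor.Tiny100
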