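import Vale.Agent.P237.Petty.Cor.Tiny100.Consts
import Vale.Agent.P237.Petty.Tail.Basic

/-!
# P237: the potentials of the cell near zero and the coefficients of its forms

In `δ = (t - s) / s` and `u = 1 / r - 1` all coefficients are functions of `y = (p + 1) s ^ 2` and
`e = 1 / (p + 1)`, apart from the factor `K` of the shadow.
-/

namespace Vale.Agent.P237.Petty.Cor.Tiny100

open Set
open Ident (half rate)
open Tail (sqp sqp' hasDerivAt_sqp)

variable {p : ℕ}

/-- The parameters: `G`, `g` over `1000`, `a`, `b`, `l` over `10000`, `r` over `100`, and the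
saturation and the lift of the tail as integers. -/
structure Par where
  /-- the shadow -/
  Gn : ℕ
  /-- the test -/
  gn : ℕ
  /-- the pole part of the square potential -/
  an : ℕ
  /-- the linear part of the square potential -/
  bn : ℕ
  /-- the height of the hump -/
  ln : ℕ
  /-- the centre of the hump -/
  rn : ℕ
  /-- the saturation of the hump -/
  Fn : ℕ
  /-- the lift in the tail -/
  Sn : ℕ

namespace Par

variable (P : Par)

/-- The shadow. -/
noncomputable def G : ℝ := (P.Gn : ℝ) / 1000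

/-- The test. -/
noncomputable def g : ℝ := (P.gn : ℝ) / 1000

/-- The pole part. -/
noncomputable def a : ℝ := (P.an : ℝ) / 10000

/-- The linear part. -/
noncomputable def b : ℝ := (P.bn : ℝ) / 10000

/-- The height of the hump. -/
noncomputable def l : ℝ := (P.ln : ℝ) / 10000

/-- The centre of the hump. -/
noncomputable def r : ℝ := (P.rn : ℝ) / 100

/-- The saturation. -/
noncomputable def F : ℝ := (P.Fn : ℝ)

/-- The lift. -/
noncomputable def Sg : ℝ := (P.Sn : ℝ)

/-- The multiplier of the shadow. -/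
noncomputable def gam (p : ℕ) : ℝ := P.G * ((p : ℝ) + 1)

/-- The multiplier of the Fisher excess. -/
noncomputable def nu (p : ℕ) : ℝ :=
  P.G * (sqCoef p / ((p : ℝ) + 4)) - Ident.muMin p / 2

/-- Its lower bound. -/
noncomputable def nl (e : ℝ) : ℝ := P.G * (1 / 2 - 3 / 2 * e) - (3 / 4 - 253 / 100 * e) / 2

/-- Its upper bound. -/
noncomputable def nh (e : ℝ) : ℝ := P.G * (1 / 2 - 36 / 25 * e) - (3 / 4 - 29 / 10 * e) / 2

theorem nu_bounds (hp : 98 ≤ p) : P.nl (eps p) ≤ P.nu p ∧ P.nu p ≤ P.nh (eps p) := by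
  obtain ⟨h1, h2⟩ := share_bounds hp
  obtain ⟨h3, h4⟩ := muMin_range hp
  have hG : 0 ≤ P.G := by unfold Par.G; positivity
  have a1 := mul_le_mul_of_nonneg_left h1 hG
  have a2 := mul_le_mul_of_nonneg_left h2 hG
  exact ⟨by unfold nl nu; linarith, by unfold nh nu; linarith⟩

/-- The hump. -/
noncomputable def hump (y : ℝ) : ℝ := P.l * P.F * (y - P.r) ^ 2 / (P.F + y ^ 2)

/-- Its derivative. -/
noncomputable def hump' (y : ℝ) : ℝ :=
  2 * P.l * P.F * (y - P.r) * (P.F + P.r * y) / (P.F + y ^ 2) ^ 2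

theorem hasDerivAt_hump (hF : 0 < P.F) (y : ℝ) : HasDerivAt P.hump (P.hump' y) y := by
  have h := (((((hasDerivAt_id y).sub_const P.r).pow 2).const_mul (P.l * P.F))).div
    ((hasDerivAt_pow 2 y).const_add P.F) (by positivity)
  refine h.congr_deriv ?_
  have h2 : P.F + y ^ 2 ≠ 0 := by positivity
  simp only [hump', id, Pi.pow_apply]
  field_simp
  push_cast
  ring

/-- The lift as a function of `s ^ 2`. -/
noncomputable def lift (z : ℝ) : ℝ := P.Sg * sqp (z - 1 / 4)

/-- Its derivative. -/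
noncomputable def lift' (z : ℝ) : ℝ := P.Sg * sqp' (z - 1 / 4)

theorem hasDerivAt_lift (z : ℝ) : HasDerivAt P.lift (P.lift' z) z :=
  (((hasDerivAt_sqp _).comp z ((hasDerivAt_id z).sub_const (1 / 4))).const_mul P.Sg).congr_deriv
    (by simp [lift'])

/-- The linear potential. -/
noncomputable def potK (p : ℕ) (s : ℝ) : ℝ :=
  -(P.G * (Ident.b0 p / arc s) * (1 + P.lift (s ^ 2))) -
    eps p * P.hump (((p : ℝ) + 1) * s ^ 2)

/-- Its derivative. -/
noncomputable def potK' (p : ℕ) (s : ℝ) : ℝ :=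
  -(P.G * (Ident.b0 p * s / arc s ^ 3) * (1 + P.lift (s ^ 2)) +
      P.G * (Ident.b0 p / arc s) * (P.lift' (s ^ 2) * (2 * s))) -
    eps p * (P.hump' (((p : ℝ) + 1) * s ^ 2) * (((p : ℝ) + 1) * (2 * s)))

/-- The quadratic potential. -/
noncomputable def potB (p : ℕ) (s : ℝ) : ℝ :=
  -P.a * (1 - s ^ 2) / s - P.b * ((p : ℝ) + 1) * s

/-- Its derivative. -/
noncomputable def potB' (p : ℕ) (s : ℝ) : ℝ :=
  P.a * (1 + 1 / s ^ 2) - P.b * ((p : ℝ) + 1)

theorem hasDerivAt_potK (hF : 0 < P.F) (p : ℕ) {s : ℝ} (hs : s ∈ Ioo (0 : ℝ) 1) :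
    HasDerivAt (P.potK p) (P.potK' p s) s := by
  have hc : 0 < arc s := arc_pos ⟨by linarith [hs.1], hs.2⟩
  have harc : HasDerivAt arc (-s / arc s) s := by
    have h := ((hasDerivAt_pow 2 s).const_sub 1).sqrt (by nlinarith [hs.1, hs.2])
    refine h.congr_deriv ?_
    rw [show √(1 - s ^ 2) = arc s from rfl]
    field_simp
    push_cast
    ring
  have hy : HasDerivAt (fun x : ℝ => ((p : ℝ) + 1) * x ^ 2) (((p : ℝ) + 1) * (2 * s)) s := by
    refine ((hasDerivAt_pow 2 s).const_mul ((p : ℝ) + 1)).congr_deriv ?_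
    push_cast
    ring
  refine ((((((hasDerivAt_const s (Ident.b0 p)).div harc hc.ne').const_mul P.G).mul
    (((P.hasDerivAt_lift _).comp s (hasDerivAt_pow 2 s)).const_add 1)).neg).sub
      (((P.hasDerivAt_hump hF _).comp s hy).const_mul (eps p))).congr_deriv ?_
  simp only [potK', Function.comp_apply, Pi.div_apply]
  field_simp
  push_cast
  ring

theorem hasDerivAt_potB (p : ℕ) {s : ℝ} (hs : s ∈ Ioo (0 : ℝ) 1) :
    HasDerivAt (P.potB p) (P.potB' p s) s := by
  refine ((polePot_null p P.a hs).1.sub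
    ((hasDerivAt_id s).const_mul (P.b * ((p : ℝ) + 1)))).congr_deriv ?_
  simp only [potB', mul_one]

/-- The factor of the shadow. -/
noncomputable def K (p : ℕ) (s : ℝ) : ℝ := P.G * (Ident.b0 p / arc s)

/-- The coefficient of `-u`. -/
noncomputable def mu (p : ℕ) (s : ℝ) : ℝ :=
  P.K p s * P.lift (s ^ 2) + eps p * P.hump (((p : ℝ) + 1) * s ^ 2)

/-- The coefficient of `δ`, with the shadow and the ratio left free. -/
noncomputable def linD (e y K R : ℝ) : ℝ :=
  y * (1 - e) * (K * (1 + P.lift (y * e)) / (1 - y * e) - P.G / R) -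
    2 * (y * e) * P.lift' (y * e) * K +
    e * (y / (1 - y * e) * P.hump y - 2 * y * P.hump' y)

/-- The coefficient of `δ ^ 2`, with the multiplier left free. -/
noncomputable def quadB (e y ν : ℝ) : ℝ :=
  P.a * (1 + y * e) + (P.a - P.b) * y + P.b * y ^ 2 / (1 - y * e) -
    P.g ^ 2 * ν * (y + 3 * (y * e))

/-- Half the coefficient of `-u δ`. -/
noncomputable def quadC (e y : ℝ) : ℝ := P.a * (1 - y * e) + P.b * y

/-- What the cross terms cost in `u ^ 2 / v`. -/
noncomputable def cross : ℝ := (P.g ^ 2 - 1) ^ 2 / (2 * P.g * (1 + P.g))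

/-- The coefficient of `u ^ 2 / v`, with the multiplier left free. -/
noncomputable def quadA (e y ν K v : ℝ) : ℝ :=
  2 * (1 + P.g) * ν * (1 - y * e) - P.cross * ν * (y * e) - K * ((2 * v + 1) / (2 * (v + 2)))

theorem potential_identities (hF : 0 < P.F) {s : ℝ} (hs : s ∈ Ioo (0 : ℝ) 1) {y : ℝ}
    (hy : ((p : ℝ) + 1) * s ^ 2 = y) :
    P.potK p s = -(P.K p s + P.mu p s) ∧
      s * (P.potK' p s - potRate p s * P.potK p s -
          2 * (sqCoef p + ((p : ℝ) + 4) * (P.nu p - nuS p)) * s) =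
        P.linD (eps p) y (P.K p s) (Ident.b0 p ^ 2) ∧
      s ^ 2 * (P.potB' p s - potRate p s * P.potB p s) =
        P.a * (1 + s ^ 2) + (P.a - P.b) * y + P.b * y ^ 2 / (1 - s ^ 2) ∧
      s * P.potB p s = -P.quadC (eps p) y := by
  have hs0 := hs.1.ne'
  have hz : 1 - s ^ 2 ≠ 0 := by nlinarith [hs.1, hs.2]
  have hc : 0 < arc s := arc_pos ⟨by linarith [hs.1], hs.2⟩
  have hc2 : arc s ^ 2 = 1 - s ^ 2 := Real.sq_sqrt (by nlinarith [hs.1, hs.2])
  have hm : ((p : ℝ) + 1) ≠ 0 := by positivity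
  have h4 : ((p : ℝ) + 4) ≠ 0 := by positivity
  have hb := (Ident.b0_pos p).ne'
  have hye : y * eps p = s ^ 2 := by rw [← hy, eps]; field_simp
  have hQ : P.F + y ^ 2 ≠ 0 := by positivity
  refine ⟨?_, ?_, ?_, ?_⟩
  · rw [potK, K, mu, K]; ring
  · rw [potK, potK', linD, K, hye, hy,
      show sqCoef p + ((p : ℝ) + 4) * (P.nu p - nuS p) = P.G * sqCoef p by
        rw [nu, nuS, sqCoef]; field_simp; ring, sqCoef, potRate,
      show arc s ^ 3 = arc s * (1 - s ^ 2) by rw [← hc2]; ring, ← hy, eps]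
    generalize P.hump (((p : ℝ) + 1) * s ^ 2) = H
    generalize P.hump' (((p : ℝ) + 1) * s ^ 2) = H'
    generalize P.lift (s ^ 2) = S
    generalize P.lift' (s ^ 2) = S'
    field_simp
    ring
  · rw [potB, potB', potRate, ← hy]
    field_simp
    ring
  · rw [potB, quadC, hye, ← hy]
    field_simp
    ring

/-- The cancelled cell in the coordinates. -/
theorem cell_eq (hF : 0 < P.F) {ell top s t a r q u δ y : ℝ} (h : FlatState p top s t a r q)
    (hu : 1 / r - 1 = u) (hd : (t - s) / s = δ) (hy : ((p : ℝ) + 1) * s ^ 2 = y) :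
    cancelExpr p (P.gam p) (P.nu p) ell (fun s t => s + P.g * (s - t)) (fun _ _ => 1 + P.g)
        (fun _ _ => -P.g) (quadPot (P.potK p) (P.potB p))
        (quadPotS (P.potK p) (P.potK' p) (P.potB p) (P.potB' p))
        (quadPotT (P.potK p) (P.potB p)) s t a r =
      ell * wS p (arc s) + P.gam p * Ident.b0 p * (1 / a - 1 / arc s) -
        (P.K p s + P.mu p s) * u + P.linD (eps p) y (P.K p s) (Ident.b0 p ^ 2) * δ +
        P.quadB (eps p) y (P.nu p) * δ ^ 2 - 2 * P.quadC (eps p) y * (u * δ) +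
        2 * (1 + P.g) * P.nu p * (1 - s ^ 2) * (u ^ 2 / (1 + u)) +
        P.nu p * s ^ 2 / (1 + u) *
          (2 * P.g * (1 + P.g) * δ ^ 2 - 2 * (P.g ^ 2 - 1) * (u * δ)) := by
  obtain ⟨e1, e2, e3, e4⟩ := P.potential_identities hF h.state.s_mem hy
  have hs0 := h.state.s_mem.1.ne'
  have hr := h.state.rate_pos.ne'
  have hd' : t - s = s * δ := by rw [← hd]; field_simp
  have hu' : 1 + u = 1 / r := by rw [← hu]; ring
  have hye : y * eps p = s ^ 2 := by rw [← hy, eps]; field_simp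
  have e : P.nu p * testDef p P.g s t r +
      nullPart p (quadPot (P.potK p) (P.potB p))
        (quadPotS (P.potK p) (P.potK' p) (P.potB p) (P.potB' p))
        (quadPotT (P.potK p) (P.potB p)) s t r =
      P.potK p s * u + (P.potK' p s - potRate p s * P.potK p s) * (t - s) +
        2 * P.nu p * (1 + P.g) * (1 - s ^ 2) * (u ^ 2 / (1 + u)) +
        cancelDD p (P.nu p) P.g (P.potB p) (P.potB' p) s (1 + u) * (t - s) ^ 2 +
        cancelUD (P.nu p) P.g (P.potB p) s (1 + u) * (u * (t - s)) := by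
    simp only [testDef, nullPart, quadPot, quadPotS, quadPotT, cancelDD, cancelUD, potRate,
      ← hu]
    field_simp
    ring
  simp only [cancelExpr, testGen_affine P.g s t hr]
  rw [show sqCoef p + ((p : ℝ) + 4) * (P.nu p - nuS p) = P.G * sqCoef p by
    rw [nu, nuS, sqCoef]; have := Ident.b0_pos p; field_simp; ring] at e2 ⊢
  rw [cancelDD, cancelUD, hd', e1] at e
  simp only [quadB, hye]
  rw [hd']
  rw [e1] at e2
  linear_combination e + δ * e2 + δ ^ 2 * e3 + 2 * u * δ * e4 - P.nu p * δ ^ 2 * P.g ^ 2 * hy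

/-- The cell above a quadratic with coefficients in `v`. -/
theorem quad_le (hF : 0 < P.F) (hg : 1 < P.g) (hν : 0 ≤ P.nu p) {ell top s t a r q u δ y : ℝ}
    (h : FlatState p top s t a r q) (hu : 1 / r - 1 = u) (hd : (t - s) / s = δ)
    (hy : ((p : ℝ) + 1) * s ^ 2 = y) :
    ell * wS p (arc s) + (-(P.mu p s) * u + P.linD (eps p) y (P.K p s) (Ident.b0 p ^ 2) * δ +
        P.quadA (eps p) y (P.nu p) (P.K p s) (1 + u) * (u ^ 2 / (1 + u)) +
        P.quadB (eps p) y (P.nu p) * δ ^ 2 - 2 * P.quadC (eps p) y * (u * δ)) ≤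
      cancelExpr p (P.gam p) (P.nu p) ell (fun s t => s + P.g * (s - t)) (fun _ _ => 1 + P.g)
        (fun _ _ => -P.g) (quadPot (P.potK p) (P.potB p))
        (quadPotS (P.potK p) (P.potK' p) (P.potB p) (P.potB' p))
        (quadPotT (P.potK p) (P.potB p)) s t a r := by
  rw [P.cell_eq hF h hu hd hy]
  have hG : 0 ≤ P.gam p := mul_nonneg (div_nonneg (Nat.cast_nonneg _) (by norm_num)) (by positivity)
  have h1 := shadow_ge_pade h hG
  have hv : 0 < 1 + u := by
    rw [← hu]; have := h.state.rate_pos; have : 0 < 1 / r := by positivity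
    linarith
  rw [show 1 / r = 1 + u by rw [← hu]; ring] at h1
  rw [show 1 + u - 1 = u by ring, show P.gam p * Ident.b0 p / ((p : ℝ) + 1) / arc s = P.K p s by
    rw [gam, K]; field_simp] at h1
  have hye : y * eps p = s ^ 2 := by rw [← hy, eps]; field_simp
  have hg0 : 0 < P.g := by linarith
  have h2 : 0 ≤ P.nu p * s ^ 2 / (1 + u) *
      (2 * P.g * (1 + P.g) * (δ - (P.g - 1) / (2 * P.g) * u) ^ 2) := by positivity
  have e : P.nu p * s ^ 2 / (1 + u) *
      (2 * P.g * (1 + P.g) * (δ - (P.g - 1) / (2 * P.g) * u) ^ 2) =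
      P.nu p * s ^ 2 / (1 + u) *
        (2 * P.g * (1 + P.g) * δ ^ 2 - 2 * (P.g ^ 2 - 1) * (u * δ)) +
      P.cross * P.nu p * (y * eps p) * (u ^ 2 / (1 + u)) := by
    rw [hye, cross]
    field_simp
    ring
  rw [quadA, hye]
  rw [e, hye] at h2
  linarith

/-- The cell with the logarithm of the shadow. -/
theorem log_le {ell top s t a r q u δ y : ℝ} (hF : 0 < P.F) (h : FlatState p top s t a r q)
    (hu : 1 / r - 1 = u) (hd : (t - s) / s = δ) (hy : ((p : ℝ) + 1) * s ^ 2 = y) :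
    ell * wS p (arc s) + (P.K p s * Real.log (1 + u) -
        (P.K p s + P.mu p s) * u + P.linD (eps p) y (P.K p s) (Ident.b0 p ^ 2) * δ +
        P.quadB (eps p) y (P.nu p) * δ ^ 2 - 2 * P.quadC (eps p) y * (u * δ) +
        2 * (1 + P.g) * P.nu p * (1 - y * eps p) * (u ^ 2 / (1 + u)) +
        P.nu p * (y * eps p) / (1 + u) *
          (2 * P.g * (1 + P.g) * δ ^ 2 - 2 * (P.g ^ 2 - 1) * (u * δ))) ≤
      cancelExpr p (P.gam p) (P.nu p) ell (fun s t => s + P.g * (s - t)) (fun _ _ => 1 + P.g)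
        (fun _ _ => -P.g) (quadPot (P.potK p) (P.potB p))
        (quadPotS (P.potK p) (P.potK' p) (P.potB p) (P.potB' p))
        (quadPotT (P.potK p) (P.potB p)) s t a r := by
  rw [P.cell_eq hF h hu hd hy, show y * eps p = s ^ 2 by rw [← hy, eps]; field_simp]
  have hG : 0 ≤ P.G := div_nonneg (Nat.cast_nonneg _) (by norm_num)
  have hb := Ident.b0_pos p
  have hc := h.state.arc_pos'
  have h1 := mul_le_mul_of_nonneg_left h.inv_excess
    (mul_nonneg (mul_nonneg hG (show (0 : ℝ) ≤ (p : ℝ) + 1 by positivity)) hb.le)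
  have h2 : P.K p s * Real.log (1 + u) ≤ P.gam p * Ident.b0 p * (1 / a - 1 / arc s) := by
    refine le_trans (le_of_eq ?_) h1
    rw [show 1 + u = 1 / r by rw [← hu]; ring, one_div, Real.log_inv, K]
    field_simp
  linarith

end Par

end Vale.Agent.P237.Petty.Cor.Tiny100
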