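import Vale.Agent.P237.Petty.Cor.Tiny100.RecordA
import Vale.Agent.P237.Petty.Cor.Tiny100.Engine

/-!
# P237: the record of the orders from 98 to 198 beyond the bulk
-/

namespace Vale.Agent.P237.Petty.Cor.Tiny100

open Vale.Agent.P100.Bernstein

/-- The zones from a quarter on. -/
def zonesA : List Zone :=
  [⟨250, 350, 1700, some 2700, true⟩, ⟨350, 450, 2700, some 2080, true⟩,
    ⟨450, 550, 5500, some 1400, true⟩, ⟨550, 650, 10000, some 900, true⟩,
    ⟨650, 750, 17000, some 500, true⟩, ⟨750, 850, 26000, some 200, true⟩,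
    ⟨850, 900, 36000, some 95, true⟩, ⟨900, 1000, 40000, none, true⟩]

/-- The zone below a quarter. -/
def slantA : Zone := ⟨120, 250, 1300, some 3400, false⟩

theorem slant_ok : (slantOk parA remA 199 slantA .leaf && zoneSide slantA) = true := by
  decide +kernel

theorem far_ok :
    (Few.quickCert (xMn remA) [⟨24, 199, 1⟩, ⟨99, 199, 99 * 199⟩] .leaf && derivOk remA &&
      budgetOk remA 99 199 && zonesChained zonesA 250) = true := by
  decide +kernel

end Vale.Agent.P237.Petty.Cor.Tiny100
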